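import Vale.Agent.P302.MathlibUsed
import Vale.Agent.P302.Defs

set_option linter.all false

section

/-!
Combinatorial search showing that a list of natural numbers cannot be packed into `k` bins of
capacity `C`.
-/

namespace Vale.Agent.P302

/-- `l` can be packed into `k` bins of capacity `C`. -/
def PackN (C : ℕ) : ℕ → List ℕ → Prop
  | 0, l => l = []
  | b + 1, l => ∃ A B : List ℕ, l.Perm (A ++ B) ∧ A.sum ≤ C ∧ PackN C b B

theorem PackN.perm {C b : ℕ} {l l' : List ℕ} (h : PackN C b l) (hp : l.Perm l') :
    PackN C b l' := by
  cases b with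
  | zero =>
    simp only [PackN] at h ⊢
    subst h
    exact List.nil_perm.mp hp
  | succ b =>
    obtain ⟨A, B, h1, h2, h3⟩ := h
    exact ⟨A, B, hp.symm.trans h1, h2, h3⟩

theorem PackN.sum_le {C : ℕ} : ∀ {b : ℕ} {l : List ℕ}, PackN C b l → l.sum ≤ b * C := by
  intro b
  induction b with
  | zero => intro l h; simp only [PackN] at h; simp [h]
  | succ b ih =>
    intro l h
    obtain ⟨A, B, h1, h2, h3⟩ := h
    have := ih h3
    rw [h1.sum_eq, List.sum_append]
    linarith

theorem PackN.first {C : ℕ} : ∀ {b : ℕ} {x : ℕ} {r : List ℕ}, PackN C (b + 1) (x :: r) →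
    ∃ A B : List ℕ, r.Perm (A ++ B) ∧ x + A.sum ≤ C ∧ PackN C b B := by
  intro b
  induction b with
  | zero =>
    intro x r h
    obtain ⟨A, B, h1, h2, h3⟩ := h
    simp only [PackN] at h3
    subst h3
    rw [List.append_nil] at h1
    refine ⟨r, [], by simp, ?_, rfl⟩
    rw [← List.sum_cons, h1.sum_eq]
    exact h2
  | succ b ih =>
    intro x r h
    obtain ⟨A, B, h1, h2, h3⟩ := h
    have hx : x ∈ A ++ B := h1.subset (by simp)
    rcases List.mem_append.mp hx with hA | hB
    · obtain ⟨A', hA'⟩ : ∃ A', A.Perm (x :: A') := ⟨A.erase x, List.perm_cons_erase hA⟩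
      refine ⟨A', B, ?_, ?_, h3⟩
      · have : (x :: r).Perm (x :: (A' ++ B)) := h1.trans (by simpa using hA'.append_right B)
        exact this.cons_inv
      · rw [← List.sum_cons, ← hA'.sum_eq]; exact h2
    · obtain ⟨B', hB'⟩ : ∃ B', B.Perm (x :: B') := ⟨B.erase x, List.perm_cons_erase hB⟩
      obtain ⟨A1, B1, g1, g2, g3⟩ := ih (h3.perm hB')
      refine ⟨A1, A ++ B1, ?_, g2, ⟨A, B1, List.Perm.refl _, h2, g3⟩⟩
      have e1 : (x :: r).Perm (x :: (A ++ B')) :=
        h1.trans ((hB'.append_left A).trans List.perm_middle)
      have e2 : r.Perm (A ++ B') := e1.cons_inv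
      refine e2.trans ((g1.append_left A).trans ?_)
      rw [← List.append_assoc, ← List.append_assoc]
      exact List.perm_append_comm.append_right B1

/-- replace an item by a set of items of at most the same total size. -/
theorem PackN.replace {C b z : ℕ} {B Y : List ℕ} (h : PackN C b (z :: B)) (hY : Y.sum ≤ z) :
    PackN C b (Y ++ B) := by
  cases b with
  | zero => simp [PackN] at h
  | succ b =>
    obtain ⟨A, B', h1, h2, h3⟩ := h.first
    refine ⟨Y ++ A, B', ?_, ?_, h3⟩
    · rw [List.append_assoc]; exact h1.append_left Y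
    · rw [List.sum_append]; omega

/-- The bin `{x} ∪ A` can be improved by exchanging some of its items against one item of `B`. -/
def Improvable (C x : ℕ) (A B : List ℕ) : Prop :=
  ∃ (Y A' : List ℕ) (z : ℕ) (B' : List ℕ), A.Perm (Y ++ A') ∧ B.Perm (z :: B') ∧ Y.sum < z ∧
    x + A'.sum + z ≤ C

theorem PackN.firstMax {C b x : ℕ} {r : List ℕ} (h : PackN C (b + 1) (x :: r)) :
    ∃ A B : List ℕ, r.Perm (A ++ B) ∧ x + A.sum ≤ C ∧ PackN C b B ∧ ¬ Improvable C x A B := by
  obtain ⟨A, B, h1, h2, h3⟩ := h.first
  obtain ⟨n, hn⟩ : ∃ n, n = C - A.sum := ⟨_, rfl⟩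
  induction n using Nat.strong_induction_on generalizing A B with
  | _ n ih =>
    by_cases hI : Improvable C x A B
    · obtain ⟨Y, A', z, B', g1, g2, g3, g4⟩ := hI
      have hs : A.sum = Y.sum + A'.sum := by rw [g1.sum_eq, List.sum_append]
      refine ih (C - (z :: A').sum) ?_ (z :: A') (Y ++ B') ?_ ?_ ?_ rfl
      · rw [List.sum_cons]; omega
      · refine h1.trans ((g1.append g2).trans ?_)
        rw [List.append_assoc]
        refine (List.perm_append_comm_assoc Y A' (z :: B')).trans ?_
        refine (List.Perm.append_left A' (List.perm_middle)).trans ?_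
        exact List.perm_middle
      · rw [List.sum_cons]; omega
      · exact (h3.perm g2).replace g3.le
    · exact ⟨A, B, h1, h2, h3, hI⟩

/-- `Split r A B`: the list `r` is an interleaving of `A` and `B`. -/
inductive Split : List ℕ → List ℕ → List ℕ → Prop
  | nil : Split [] [] []
  | left (x : ℕ) {r A B : List ℕ} : Split r A B → Split (x :: r) (x :: A) B
  | right (x : ℕ) {r A B : List ℕ} : Split r A B → Split (x :: r) A (x :: B)

theorem Split.perm {r A B : List ℕ} (h : Split r A B) : r.Perm (A ++ B) := by
  induction h with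
  | nil => simp
  | left x _ ih => exact ih.cons x
  | right x _ ih => exact (ih.cons x).trans List.perm_middle.symm

theorem split_of_perm : ∀ (r A B : List ℕ), r.Perm (A ++ B) →
    ∃ A' B', Split r A' B' ∧ A'.Perm A ∧ B'.Perm B := by
  intro r
  induction r with
  | nil =>
    intro A B h
    have := List.nil_perm.mp h
    rw [List.append_eq_nil_iff] at this
    obtain ⟨rfl, rfl⟩ := this
    exact ⟨[], [], Split.nil, List.Perm.refl _, List.Perm.refl _⟩
  | cons x r ih =>
    intro A B h
    have hx : x ∈ A ++ B := h.subset (by simp)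
    rcases List.mem_append.mp hx with hA | hB
    · have hA' := List.perm_cons_erase hA
      have : (x :: r).Perm (x :: (A.erase x ++ B)) := h.trans (by simpa using hA'.append_right B)
      obtain ⟨A1, B1, g1, g2, g3⟩ := ih _ _ this.cons_inv
      exact ⟨x :: A1, B1, Split.left x g1, (g2.cons x).trans hA'.symm, g3⟩
    · have hB' := List.perm_cons_erase hB
      have : (x :: r).Perm (x :: (A ++ B.erase x)) :=
        h.trans ((hB'.append_left A).trans List.perm_middle)
      obtain ⟨A1, B1, g1, g2, g3⟩ := ih _ _ this.cons_inv
      exact ⟨A1, x :: B1, Split.right x g1, g2, (g3.cons x).trans hB'.symm⟩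

/-- does some skipped item admit an improving exchange? -/
def bad (sums : List ℕ) (rem : ℕ) (skip : List ℕ) : Bool :=
  skip.any fun z => sums.any fun s => Nat.blt s z && Nat.ble z (s + rem)

/-- enumerate the possible completions of the current bin. -/
def enum (f : List ℕ → Bool) : List ℕ → ℕ → ℕ → List ℕ → List ℕ → Bool
  | [], rem, need, sums, skip => Nat.beq need 0 && (!bad sums rem skip && f skip.reverse)
  | x :: r, rem, need, sums, skip => Nat.ble need rem &&
      ((Nat.ble x rem && enum f r (rem - x) (need - x) (sums ++ sums.map (· + x)) skip) ||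
      enum f r rem need sums (x :: skip))

/-- the search procedure. -/
def search (C : ℕ) : ℕ → List ℕ → Bool
  | 0, l => l.isEmpty
  | _ + 1, [] => true
  | b + 1, x :: r => enum (search C b) r (C - x) (r.sum - b * C) [0] []

theorem enum_complete (f : List ℕ → Bool) {r A B : List ℕ} (h : Split r A B) :
    ∀ (rem need : ℕ) (sums skip : List ℕ), A.sum ≤ rem → need ≤ A.sum →
      bad (A.foldl (fun s x => s ++ s.map (· + x)) sums) (rem - A.sum) (B.reverse ++ skip) = false →
      f (skip.reverse ++ B) = true → enum f r rem need sums skip = true := by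
  induction h with
  | nil =>
    intro rem need sums skip h1 h2 h3 h4
    simp only [List.sum_nil, Nat.le_zero] at h2
    subst h2
    simp only [List.foldl_nil, List.sum_nil, Nat.sub_zero, List.reverse_nil, List.nil_append] at h3
    simp only [List.append_nil] at h4
    simp only [enum, Nat.beq_refl, h3, Bool.not_false, h4, Bool.and_self]
  | left x _ ih =>
    rename_i r A B _
    intro rem need sums skip h1 h2 h3 h4
    rw [List.sum_cons] at h1 h2 h3
    have e1 : Nat.ble need rem = true := by rw [Nat.ble_eq]; omega
    have e2 : Nat.ble x rem = true := by rw [Nat.ble_eq]; omega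
    have e3 := ih (rem - x) (need - x) (sums ++ sums.map (· + x)) skip (by omega) (by omega)
      (by rw [List.foldl_cons] at h3; rwa [Nat.sub_sub]) h4
    simp only [enum, e1, e2, e3, Bool.and_self, Bool.true_or]
  | right x _ ih =>
    rename_i r A B _
    intro rem need sums skip h1 h2 h3 h4
    have e1 : Nat.ble need rem = true := by rw [Nat.ble_eq]; omega
    have e3 := ih rem need sums (x :: skip) h1 h2
      (by rw [List.reverse_cons, List.append_assoc] at h3; exact h3)
      (by rw [List.reverse_cons, List.append_assoc]; exact h4)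
    simp only [enum, e1, e3, Bool.or_true, Bool.and_self]

theorem mem_subsums : ∀ (A sums : List ℕ) (s : ℕ),
    s ∈ A.foldl (fun s x => s ++ s.map (· + x)) sums →
    ∃ t ∈ sums, ∃ Y A' : List ℕ, A.Perm (Y ++ A') ∧ s = t + Y.sum := by
  intro A
  induction A with
  | nil => intro sums s h; exact ⟨s, h, [], [], by simp, by simp⟩
  | cons x A ih =>
    intro sums s h
    rw [List.foldl_cons] at h
    obtain ⟨t, ht, Y, A', h1, h2⟩ := ih _ _ h
    rcases List.mem_append.mp ht with ht | ht
    · exact ⟨t, ht, Y, x :: A', (h1.cons x).trans List.perm_middle.symm, h2⟩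
    · obtain ⟨t', ht', rfl⟩ := List.mem_map.mp ht
      refine ⟨t', ht', x :: Y, A', (h1.cons x), ?_⟩
      rw [List.sum_cons, h2]; ring

theorem search_complete {C : ℕ} : ∀ {b : ℕ} {l : List ℕ}, PackN C b l → search C b l = true := by
  intro b
  induction b with
  | zero => intro l h; simp only [PackN] at h; subst h; rfl
  | succ b ih =>
    intro l h
    cases l with
    | nil => rfl
    | cons x r =>
      obtain ⟨A, B, h1, h2, h3, h4⟩ := h.firstMax
      obtain ⟨A', B', g1, g2, g3⟩ := split_of_perm r A B h1
      have hr : r.sum = A'.sum + B'.sum := by rw [g1.perm.sum_eq, List.sum_append]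
      have hA : A'.sum = A.sum := g2.sum_eq
      have hB : B'.sum ≤ b * C := by rw [g3.sum_eq]; exact h3.sum_le
      simp only [search]
      refine enum_complete _ g1 _ _ _ _ (by omega) (by omega) ?_ ?_
      · by_contra hbad
        rw [Bool.not_eq_false] at hbad
        simp only [bad, List.any_eq_true, Bool.and_eq_true, List.append_nil, List.mem_reverse] at hbad
        obtain ⟨z, hz, s, hs, hsz, hzs⟩ := hbad
        obtain ⟨t, ht, Y, A'', q1, q2⟩ := mem_subsums _ _ _ hs
        rw [List.mem_singleton] at ht
        subst ht
        rw [Nat.ble_eq] at hzs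
        have hsz' : s < z := by
          have := hsz
          rw [Nat.blt_eq] at this
          exact this
        apply h4
        refine ⟨Y, A'', z, B.erase z, g2.symm.trans q1,
          List.perm_cons_erase (g3.subset hz), by omega, ?_⟩
        have : A'.sum = Y.sum + A''.sum := by rw [q1.sum_eq, List.sum_append]
        omega
      · simp only [List.reverse_nil, List.nil_append]
        exact ih (h3.perm g3.symm)

theorem not_packN_of_search {C b : ℕ} {l : List ℕ} (h : search C b l = false) : ¬ PackN C b l := by
  intro h'
  rw [search_complete h'] at h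
  exact Bool.noConfusion h

end Vale.Agent.P302
end

section

/-!
Transfer of the combinatorial search and of an explicit fractional solution to bounds on `OPT` and
`LP` of the instance with sizes `s / C`, `s ∈ l`.
-/

namespace Vale.Agent.P302

/-- The instance with item sizes `s / C`. -/
def inst (C : ℕ) (l : List ℕ) : List ℚ := l.map fun s : ℕ => (s : ℚ) / (C : ℚ)

theorem isInstance_inst {C : ℕ} (l : List ℕ) (h : ∀ s ∈ l, 0 < s ∧ s ≤ C) :
    IsInstance (inst C l) := by
  intro a ha
  obtain ⟨s, hs, rfl⟩ := List.mem_map.mp ha
  obtain ⟨h0, h1⟩ := h s hs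
  have hC : (0 : ℚ) < C := by exact_mod_cast lt_of_lt_of_le h0 h1
  refine ⟨by positivity, ?_⟩
  rw [div_le_one hC]
  exact_mod_cast h1

/-! ### OPT -/

theorem packable_length (I : List ℚ) (h : IsInstance I) : Packable I I.length := by
  refine ⟨id, fun b => ?_⟩
  have : Finset.univ.filter (fun i : Fin I.length => id i = b) = {b} := by ext i; simp only [id_eq, Finset.mem_filter, Finset.mem_univ, true_and, Finset.mem_singleton]
  rw [this, Finset.sum_singleton]
  exact (h _ (List.get_mem _ _)).2

theorem Packable.succ {I : List ℚ} {k : ℕ} (h : Packable I k) : Packable I (k + 1) := by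
  obtain ⟨f, hf⟩ := h
  refine ⟨fun i => (f i).castSucc, fun b => ?_⟩
  rcases Fin.eq_castSucc_or_eq_last b with ⟨b', rfl⟩ | rfl
  · have : Finset.univ.filter (fun i : Fin I.length => (f i).castSucc = b'.castSucc) =
        Finset.univ.filter (fun i => f i = b') := by
      ext i; simp only [Fin.castSucc_inj, Finset.mem_filter, Finset.mem_univ, true_and]
    rw [this]; exact hf b'
  · have : Finset.univ.filter (fun i : Fin I.length => (f i).castSucc = Fin.last k) = ∅ := by
      ext i
      simp only [Finset.mem_filter, Finset.mem_univ, true_and, Finset.notMem_empty, iff_false]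
      exact (Fin.castSucc_lt_last (f i)).ne
    rw [this]; simp only [List.get_eq_getElem, Finset.sum_empty, zero_le_one]

theorem Packable.mono {I : List ℚ} {k k' : ℕ} (h : Packable I k) (hk : k ≤ k') :
    Packable I k' := by
  induction hk with
  | refl => exact h
  | step _ ih => exact ih.succ

theorem packN_of_color {β : Type*} (size color : β → ℕ) (C : ℕ) : ∀ (k : ℕ) (l : List β),
    (∀ i ∈ l, color i < k) → (∀ b < k, ((l.filter (fun i => color i = b)).map size).sum ≤ C) →
    PackN C k (l.map size) := by
  intro k
  induction k with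
  | zero =>
    intro l h _
    cases l with
    | nil => rfl
    | cons x l => exact absurd (h x (by simp)) (Nat.not_lt_zero _)
  | succ k ih =>
    intro l h1 h2
    refine ⟨(l.filter (fun i => color i = k)).map size,
      (l.filter (fun i => !(decide (color i = k)))).map size, ?_, h2 k (Nat.lt_succ_self k), ?_⟩
    · rw [← List.map_append]
      exact ((List.filter_append_perm _ l).map size).symm
    · apply ih
      · intro i hi
        rw [List.mem_filter] at hi
        have := h1 i hi.1
        have h3 := hi.2
        simp only [Bool.not_eq_true', decide_eq_false_iff_not] at h3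
        omega
      · intro b hb
        rw [List.filter_filter]
        have : (l.filter (fun i => decide (color i = b) && !decide (color i = k))) =
            l.filter (fun i => color i = b) := by
          apply List.filter_congr
          intro i _
          by_cases hib : color i = b
          · simp only [hib, decide_true, Bool.true_and, Bool.not_eq_true', decide_eq_false_iff_not]
            omega
          · simp [hib]
        rw [this]
        exact h2 b (by omega)

theorem packN_of_packable {C : ℕ} (hC : 0 < C) (l : List ℕ) (k : ℕ) (h : Packable (inst C l) k) :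
    PackN C k l := by
  obtain ⟨f, hf⟩ := h
  have hlen : (inst C l).length = l.length := by simp [inst]
  have key := packN_of_color (β := Fin l.length) (fun i => l.get i)
    (fun i => (f (Fin.cast hlen.symm i) : ℕ)) C k (List.finRange l.length)
    (fun i _ => (f _).isLt) ?_
  · have e : (List.finRange l.length).map (fun i => l.get i) = l := List.map_get_finRange l
    rw [e] at key
    exact key
  · intro b hb
    have h1 := hf ⟨b, hb⟩
    have h2 : ∑ i ∈ Finset.univ.filter (fun i : Fin (inst C l).length => f i = ⟨b, hb⟩),
        (inst C l).get i = (∑ i ∈ Finset.univ.filter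
          (fun i : Fin l.length => (f (Fin.cast hlen.symm i) : ℕ) = b), (l.get i : ℚ)) / C := by
      rw [Finset.sum_div]
      refine Finset.sum_bij' (fun i _ => Fin.cast hlen i) (fun i _ => Fin.cast hlen.symm i)
        ?_ ?_ ?_ ?_ ?_
      · intro i hi
        simp only [Finset.mem_filter, Finset.mem_univ, true_and] at hi ⊢
        rw [show Fin.cast hlen.symm (Fin.cast hlen i) = i from rfl, hi]
      · intro i hi
        simp only [Finset.mem_filter, Finset.mem_univ, true_and] at hi ⊢
        exact Fin.ext hi
      · intro i _; rfl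
      · intro i _; rfl
      · intro i _
        rw [List.get_eq_getElem, List.get_eq_getElem]
        simp only [inst, List.getElem_map]
        rfl
    rw [h2] at h1
    have hC' : (0 : ℚ) < C := by exact_mod_cast hC
    rw [div_le_one hC'] at h1
    have h3 : (∑ i ∈ Finset.univ.filter
          (fun i : Fin l.length => (f (Fin.cast hlen.symm i) : ℕ) = b), l.get i) ≤ C := by
      exact_mod_cast h1
    refine le_trans (le_of_eq ?_) h3
    rw [Finset.sum_eq_multiset_sum, Finset.filter_val]
    have : (Finset.univ : Finset (Fin l.length)).val = (List.finRange l.length : Multiset _) := rfl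
    rw [this, Multiset.filter_coe, Multiset.map_coe, Multiset.sum_coe]

theorem le_OPT {C : ℕ} (hC : 0 < C) (l : List ℕ) (k : ℕ) (hl : ∀ s ∈ l, 0 < s ∧ s ≤ C)
    (h : search C k l = false) : k + 1 ≤ OPT (inst C l) := by
  have hne : {k : ℕ | Packable (inst C l) k}.Nonempty :=
    ⟨_, packable_length _ (isInstance_inst l hl)⟩
  have hmem : Packable (inst C l) (OPT (inst C l)) := Nat.sInf_mem hne
  by_contra hlt
  have hle : OPT (inst C l) ≤ k := by omega
  exact not_packN_of_search h (packN_of_packable hC l k (hmem.mono hle))

/-! ### LP -/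

/-- The configuration belonging to a list of numerators. -/
def cfg (C : ℕ) (l : List ℕ) (p : List ℕ) : {σ : ℚ // σ ∈ (inst C l).toFinset} → ℕ :=
  fun σ => (inst C p).count (σ : ℚ)

theorem sum_count_le (S : Finset ℚ) : ∀ (m : List ℚ), (∀ a ∈ m, 0 ≤ a) →
    ∑ σ : {σ : ℚ // σ ∈ S}, (σ : ℚ) * (m.count (σ : ℚ) : ℚ) ≤ m.sum := by
  intro m
  induction m with
  | nil => intro _; simp only [Finset.univ_eq_attach, List.nodup_nil, List.count_nil, CharP.cast_eq_zero, mul_zero, Finset.sum_const_zero, List.sum_nil, Std.le_refl]
  | cons a m ih =>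
    intro h
    have h1 := ih (fun b hb => h b (List.mem_cons_of_mem _ hb))
    have ha : 0 ≤ a := h a (by simp)
    have e : ∀ σ : {σ : ℚ // σ ∈ S}, (σ : ℚ) * ((a :: m).count (σ : ℚ) : ℚ) =
        (σ : ℚ) * (m.count (σ : ℚ) : ℚ) + (if (σ : ℚ) = a then a else 0) := by
      intro σ
      rw [List.count_cons]
      by_cases hσ : (σ : ℚ) = a
      · simp only [hσ, BEq.rfl, ↓reduceIte, Nat.cast_add, Nat.cast_one, mul_add, mul_one]
      · have : (a == (σ : ℚ)) = false := by simp only [beq_eq_false_iff_ne, ne_eq]; exact fun h => hσ h.symm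
        simp only [this, Bool.false_eq_true, ↓reduceIte, add_zero, hσ]
    simp_rw [e]
    rw [Finset.sum_add_distrib, List.sum_cons, add_comm a]
    refine add_le_add h1 ?_
    rw [Finset.sum_coe_sort S (fun σ => if σ = a then a else 0)]
    rw [Finset.sum_ite_eq' S a (fun _ => a)]
    split_ifs <;> simp [ha]

theorem isConfig_cfg {C : ℕ} (hC : 0 < C) (l p : List ℕ) (h : p.sum ≤ C) :
    IsConfig (inst C l) (cfg C l p) := by
  unfold IsConfig cfg
  refine le_trans (sum_count_le _ (inst C p) ?_) ?_
  · intro a ha
    obtain ⟨s, _, rfl⟩ := List.mem_map.mp ha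
    (clear * - hC; positivity)
  · have : (inst C p).sum = (p.sum : ℚ) / C := by
      unfold inst
      clear h
      induction p with
      | nil => simp
      | cons a p ih => simp only [List.map_cons, List.sum_cons, ih]; push_cast; ring
    rw [this, div_le_one (by exact_mod_cast hC)]
    exact_mod_cast h

/-- The LP solution belonging to a list of weighted patterns. -/
noncomputable def sol (C D : ℕ) (l : List ℕ) (L : List (List ℕ × ℕ)) :
    ({σ : ℚ // σ ∈ (inst C l).toFinset} → ℕ) →₀ ℝ :=
  (L.map fun p => Finsupp.single (cfg C l p.1) ((p.2 : ℝ) / D)).sum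

theorem sol_sum (C D : ℕ) (l : List ℕ) (g : ({σ : ℚ // σ ∈ (inst C l).toFinset} → ℕ) → ℝ) :
    ∀ L : List (List ℕ × ℕ), (sol C D l L).sum (fun c t => g c * t) =
      (L.map fun p => g (cfg C l p.1) * ((p.2 : ℝ) / D)).sum := by
  classical
  intro L
  induction L with
  | nil => simp only [sol, List.map_nil, List.sum_nil, Finsupp.sum_zero_index]
  | cons p L ih =>
    have : sol C D l (p :: L) = Finsupp.single (cfg C l p.1) ((p.2 : ℝ) / D) + sol C D l L := rfl
    rw [this, Finsupp.sum_add_index' (by simp) (by intros; ring), ih,
      Finsupp.sum_single_index (by simp), List.map_cons, List.sum_cons]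

theorem sol_nonneg (C D : ℕ) (l : List ℕ) : ∀ (L : List (List ℕ × ℕ)) c, 0 ≤ sol C D l L c := by
  classical
  intro L
  induction L with
  | nil => intro c; simp only [sol, List.map_nil, List.sum_nil, Finsupp.coe_zero, Pi.zero_apply, Std.le_refl]
  | cons p L ih =>
    intro c
    have : sol C D l (p :: L) = Finsupp.single (cfg C l p.1) ((p.2 : ℝ) / D) + sol C D l L := rfl
    rw [this, Finsupp.add_apply]
    refine add_nonneg ?_ (ih c)
    rw [Finsupp.single_apply]
    split_ifs <;> positivity

theorem sol_support (C D : ℕ) (l : List ℕ) : ∀ (L : List (List ℕ × ℕ)) c,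
    c ∈ (sol C D l L).support → ∃ p ∈ L, c = cfg C l p.1 := by
  classical
  intro L
  induction L with
  | nil => intro c hc; simp only [sol, List.map_nil, List.sum_nil, Finsupp.support_zero, Finset.notMem_empty] at hc
  | cons p L ih =>
    intro c hc
    have : sol C D l (p :: L) = Finsupp.single (cfg C l p.1) ((p.2 : ℝ) / D) + sol C D l L := rfl
    rw [this] at hc
    rcases Finset.mem_union.mp (Finsupp.support_add hc) with h | h
    · have := Finsupp.support_single_subset h
      rw [Finset.mem_singleton] at this
      exact ⟨p, by simp, this⟩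
    · obtain ⟨q, hq, e⟩ := ih c h
      exact ⟨q, List.mem_cons_of_mem _ hq, e⟩

theorem count_inst {C : ℕ} (hC : 0 < C) (p : List ℕ) (s : ℕ) :
    (inst C p).count ((s : ℚ) / C) = p.count s := by
  unfold inst
  have hC' : (C : ℚ) ≠ 0 := by exact_mod_cast hC.ne'
  have hinj : Function.Injective (fun s : ℕ => (s : ℚ) / C) := by
    intro a b hab
    have := (div_left_inj' hC').mp hab
    exact_mod_cast this
  exact List.count_map_of_injective p _ hinj s

theorem LP_le {C D W : ℕ} (hC : 0 < C) (hD : 0 < D) (l : List ℕ) (L : List (List ℕ × ℕ))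
    (h1 : ∀ p ∈ L, p.1.sum ≤ C)
    (h2 : ∀ s ∈ l, l.count s * D ≤ (L.map fun p => p.1.count s * p.2).sum)
    (h3 : (L.map Prod.snd).sum ≤ W) : LP (inst C l) ≤ (W : ℝ) / D := by
  have hD' : (0 : ℝ) < D := by exact_mod_cast hD
  have hfe : LPFeasible (inst C l) (sol C D l L) := by
    refine ⟨?_, sol_nonneg C D l L, ?_⟩
    · intro c hc
      obtain ⟨p, hp, rfl⟩ := sol_support C D l L c hc
      exact isConfig_cfg hC l p.1 (h1 p hp)
    · intro σ
      obtain ⟨s, hs, hσ⟩ : ∃ s ∈ l, (s : ℚ) / C = (σ : ℚ) := by
        have := σ.2
        rw [List.mem_toFinset] at this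
        exact List.mem_map.mp this
      rw [sol_sum C D l (fun c => (c σ : ℝ)) L]
      have e1 : ((inst C l).count (σ : ℚ)) = l.count s := by rw [← hσ, count_inst hC]
      rw [e1]
      have e2 : (L.map fun p => ((cfg C l p.1 σ : ℕ) : ℝ) * ((p.2 : ℝ) / D)).sum =
          ((L.map fun p => p.1.count s * p.2).sum : ℕ) / (D : ℝ) := by
        have e3 : ∀ p : List ℕ × ℕ, cfg C l p.1 σ = p.1.count s := by
          intro p; unfold cfg; rw [← hσ, count_inst hC]
        simp_rw [e3]
        clear h1 h2 h3
        induction L with
        | nil => simp only [List.map_nil, List.sum_nil, CharP.cast_eq_zero, zero_div]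
        | cons q L ih => simp only [List.map_cons, List.sum_cons, ih]; push_cast; ring
      rw [e2, le_div_iff₀ hD']
      exact_mod_cast h2 s hs
  refine le_trans (csInf_le ?_ ⟨sol C D l L, hfe, rfl⟩) ?_
  · refine ⟨0, ?_⟩
    rintro v ⟨z, hz, rfl⟩
    exact Finset.sum_nonneg fun c _ => hz.2.1 c
  · have := sol_sum C D l (fun _ => 1) L
    simp only [one_mul] at this
    rw [this, le_div_iff₀ hD']
    have e : (L.map fun p => ((p.2 : ℝ) / D)).sum = ((L.map Prod.snd).sum : ℕ) / (D : ℝ) := by
      clear h1 h2 h3 hfe this
      induction L with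
      | nil => simp
      | cons q L ih => simp only [List.map_cons, List.sum_cons, ih]; push_cast; ring
    rw [e, div_mul_cancel₀ _ hD'.ne']
    exact_mod_cast h3

theorem gap_of_check (C D W k : ℕ) (l : List ℕ) (L : List (List ℕ × ℕ))
    (hC : 0 < C) (hD : 0 < D) (hl : ∀ s ∈ l, 0 < s ∧ s ≤ C)
    (hs : search C k l = false)
    (h1 : ∀ p ∈ L, p.1.sum ≤ C)
    (h2 : ∀ s ∈ l, l.count s * D ≤ (L.map fun p => p.1.count s * p.2).sum)
    (h3 : (L.map Prod.snd).sum ≤ W) :
    IsInstance (inst C l) ∧ (k : ℝ) + 1 - (W : ℝ) / D ≤ (OPT (inst C l) : ℝ) - LP (inst C l) := by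
  refine ⟨isInstance_inst l hl, ?_⟩
  have a1 : ((k + 1 : ℕ) : ℝ) ≤ (OPT (inst C l) : ℝ) := by exact_mod_cast le_OPT hC l k hl hs
  have a2 := LP_le hC hD l L h1 h2 h3
  push_cast at a1
  linarith only [a2, a1]

end Vale.Agent.P302
end

section

/-!
Adding items of size `1`: an instance with large gap gives such instances for every larger
value of `OPT`.
-/

namespace Vale.Agent.P302

theorem Packable.cons_one {I : List ℚ} {k : ℕ} (h : Packable I k) : Packable (1 :: I) (k + 1) := by
  obtain ⟨f, hf⟩ := h
  refine ⟨fun i => (Fin.cons (Fin.last k) (fun i => (f i).castSucc) : Fin (I.length + 1) →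
    Fin (k + 1)) i, fun b => ?_⟩
  rw [Finset.sum_filter]
  have key : ∀ g : Fin (I.length + 1) → ℚ, ∑ i : Fin (1 :: I).length, g i =
      g 0 + ∑ i : Fin I.length, g i.succ := fun g => Fin.sum_univ_succ g
  rw [key (fun i => if (Fin.cons (Fin.last k) (fun i => (f i).castSucc) : Fin (I.length + 1) →
    Fin (k + 1)) i = b then (1 :: I).get i else 0)]
  simp only [Fin.cons_zero, Fin.cons_succ, List.get_cons_zero]
  rcases Fin.eq_castSucc_or_eq_last b with ⟨b', rfl⟩ | rfl
  · rw [if_neg (Fin.castSucc_lt_last b').ne', zero_add]
    have := hf b'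
    rw [Finset.sum_filter] at this
    refine le_trans (le_of_eq ?_) this
    refine Finset.sum_congr rfl fun i _ => ?_
    simp only [Fin.castSucc_inj]
    rfl
  · rw [if_pos rfl]
    have : ∀ i : Fin I.length, (if (f i).castSucc = Fin.last k then I.get i else 0) = 0 := by
      intro i
      rw [if_neg (Fin.castSucc_lt_last (f i)).ne]
    have h2 : ∑ i : Fin I.length, (if (f i).castSucc = Fin.last k then I.get i else 0) = 0 :=
      Finset.sum_eq_zero fun i _ => this i
    exact le_of_eq (by rw [show (∑ i : Fin I.length, (if (f i).castSucc = Fin.last k then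
      (1 :: I).get i.succ else 0)) = 0 from h2, add_zero])

theorem inst_cons {C : ℕ} (hC : 0 < C) (l : List ℕ) : inst C (C :: l) = 1 :: inst C l := by
  unfold inst
  rw [List.map_cons, div_self (by exact_mod_cast hC.ne')]

theorem packable_replicate {C : ℕ} (hC : 0 < C) {l : List ℕ} {k : ℕ} (h : Packable (inst C l) k) :
    ∀ m : ℕ, Packable (inst C (List.replicate m C ++ l)) (k + m) := by
  intro m
  induction m with
  | zero => simpa using h
  | succ m ih =>
    rw [List.replicate_succ, List.cons_append, inst_cons hC]
    exact ih.cons_one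

theorem packN_of_replicate {C : ℕ} {l : List ℕ} (hl : ∀ s ∈ l, 0 < s) {k : ℕ} :
    ∀ m : ℕ, 0 < C → PackN C (k + m) (List.replicate m C ++ l) → PackN C k l := by
  intro m hC
  induction m with
  | zero => intro h; simpa using h
  | succ m ih =>
    intro h
    rw [List.replicate_succ, List.cons_append] at h
    obtain ⟨A, B, h1, h2, h3⟩ := PackN.first h
    have hA : A = [] := by
      cases A with
      | nil => rfl
      | cons a A =>
        have ha : a ∈ List.replicate m C ++ l := h1.symm.subset (by simp)
        have : 0 < a := by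
          rcases List.mem_append.mp ha with h | h
          · rw [List.eq_of_mem_replicate h]; exact hC
          · exact hl a h
        rw [List.sum_cons] at h2
        omega
    subst hA
    exact ih (h3.perm h1.symm)

theorem OPT_eq {I : List ℚ} {n : ℕ} (h : Packable I n) (h' : ∀ k < n, ¬ Packable I k) :
    OPT I = n := by
  have hmem : Packable I (OPT I) := Nat.sInf_mem (s := {k : ℕ | Packable I k}) ⟨n, h⟩
  have hle : OPT I ≤ n := Nat.sInf_le h
  by_contra hne
  exact h' _ (lt_of_le_of_ne hle hne) hmem

theorem family_of_check (C D W k : ℕ) (l : List ℕ) (L : List (List ℕ × ℕ))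
    (hC : 0 < C) (hD : 0 < D) (hl : ∀ s ∈ l, 0 < s ∧ s < C)
    (hs : search C k l = false)
    (h1 : ∀ p ∈ L, p.1.sum ≤ C)
    (h2 : ∀ s ∈ l, l.count s * D ≤ (L.map fun p => p.1.count s * p.2).sum)
    (h3 : (L.map Prod.snd).sum ≤ W) (hp : Packable (inst C l) (k + 1)) :
    ∀ n : ℕ, k + 1 ≤ n → ∃ I : List ℚ, IsInstance I ∧ OPT I = n ∧
      (k : ℝ) + 1 - (W : ℝ) / D ≤ (OPT I : ℝ) - LP I := by
  intro n hn
  obtain ⟨m, rfl⟩ := Nat.exists_eq_add_of_le hn
  have hpos : ∀ s ∈ List.replicate m C ++ l, 0 < s ∧ s ≤ C := by
    intro s hs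
    rcases List.mem_append.mp hs with h | h
    · rw [List.eq_of_mem_replicate h]; exact ⟨hC, le_refl C⟩
    · exact ⟨(hl s h).1, (hl s h).2.le⟩
  have hOPT : OPT (inst C (List.replicate m C ++ l)) = k + 1 + m := by
    refine OPT_eq (packable_replicate hC hp m) ?_
    intro j hj hpj
    have hpj' : Packable (inst C (List.replicate m C ++ l)) (k + m) := hpj.mono (by omega)
    exact not_packN_of_search hs (packN_of_replicate (fun s hs => (hl s hs).1) m hC
      (packN_of_packable hC _ _ hpj'))
  refine ⟨inst C (List.replicate m C ++ l), isInstance_inst _ hpos, hOPT, ?_⟩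
  rw [hOPT]
  have hLP : LP (inst C (List.replicate m C ++ l)) ≤ ((W + m * D : ℕ) : ℝ) / D := by
    refine LP_le hC hD _ (([C], m * D) :: L) ?_ ?_ ?_
    · intro p hp
      rcases List.mem_cons.mp hp with rfl | hp
      · simp
      · exact h1 p hp
    · intro s hs
      rw [List.count_append, List.map_cons, List.sum_cons]
      by_cases hsC : s = C
      · subst hsC
        have e1 : List.count s l = 0 := by
          rw [List.count_eq_zero]
          intro hmem
          exact absurd (hl s hmem).2 (lt_irrefl _)
        rw [e1, List.count_replicate_self]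
        simp only [add_zero, List.nodup_cons, List.not_mem_nil, not_false_eq_true, List.nodup_nil, and_self, List.mem_cons, or_false, List.count_eq_one_of_mem, one_mul, le_add_iff_nonneg_right, zero_le]
      · have hs' : s ∈ l := by
          rcases List.mem_append.mp hs with h | h
          · exact absurd (List.eq_of_mem_replicate h) hsC
          · exact h
        have e1 : List.count s (List.replicate m C) = 0 := by
          rw [List.count_eq_zero]
          intro hmem
          exact hsC (List.eq_of_mem_replicate hmem)
        rw [e1, zero_add]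
        exact le_trans (h2 s hs') (Nat.le_add_left _ _)
    · rw [List.map_cons, List.sum_cons]
      dsimp only
      omega
  have hD' : (0 : ℝ) < D := by exact_mod_cast hD
  have e : ((W + m * D : ℕ) : ℝ) / D = (W : ℝ) / D + m := by
    push_cast
    (clear * - hD; field_simp)
  rw [e] at hLP
  push_cast
  linarith only [hLP]

end Vale.Agent.P302
end

section

/-!
A lower bound for the number of bins by a weight function on rounded sizes (types).
All bins except those of finitely many exceptional patterns `p` have weight at most `W`; a bin of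
pattern `p` has weight at most `W + ε p`, and the items of the types of `p` cannot be packed into
`N p` bins, so at most `N p - 1` bins have pattern `p`.
-/

namespace Vale.Agent.P302

/-- A packing as a list of bins. -/
theorem PackN.exists_bins {C : ℕ} : ∀ {k : ℕ} {l : List ℕ}, PackN C k l →
    ∃ bs : List (List ℕ), bs.length = k ∧ l.Perm bs.flatten ∧ ∀ B ∈ bs, B.sum ≤ C := by
  intro k
  induction k with
  | zero =>
    intro l h
    simp only [PackN] at h
    subst h
    exact ⟨[], rfl, by simp, by simp⟩
  | succ k ih =>
    intro l h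
    obtain ⟨A, B, h1, h2, h3⟩ := h
    obtain ⟨bs, g1, g2, g3⟩ := ih h3
    refine ⟨A :: bs, by simp [g1], ?_, ?_⟩
    · rw [List.flatten_cons]
      exact h1.trans (g2.append_left A)
    · intro D hD
      rcases List.mem_cons.mp hD with rfl | hD
      · exact h2
      · exact g3 D hD

theorem packN_of_bins {C : ℕ} : ∀ {k : ℕ} {l : List ℕ} (bs : List (List ℕ)), bs.length = k →
    l.Perm bs.flatten → (∀ B ∈ bs, B.sum ≤ C) → PackN C k l := by
  intro k
  induction k with
  | zero =>
    intro l bs h1 h2 h3
    rw [List.length_eq_zero_iff] at h1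
    subst h1
    simp only [List.flatten_nil] at h2
    simp only [PackN]
    exact h2.eq_nil
  | succ k ih =>
    intro l bs h1 h2 h3
    cases bs with
    | nil => simp at h1
    | cons A bs =>
      refine ⟨A, bs.flatten, ?_, h3 A (by simp), ih bs (by simpa using h1) (List.Perm.refl _)
        (fun B hB => h3 B (List.mem_cons_of_mem _ hB))⟩
      rw [List.flatten_cons] at h2
      exact h2

/-- counting by types. -/
theorem sum_map_eq_count (tys : List ℕ) (hnd : tys.Nodup) (g : ℕ → ℕ) : ∀ T : List ℕ,
    (∀ x ∈ T, x ∈ tys) → (T.map g).sum = (tys.map fun t => T.count t * g t).sum := by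
  intro T
  induction T with
  | nil => intro _; simp
  | cons a T ih =>
    intro h
    have h1 := ih (fun x hx => h x (List.mem_cons_of_mem _ hx))
    have ha := h a (by simp)
    rw [List.map_cons, List.sum_cons, h1]
    have e : ∀ t : ℕ, (a :: T).count t * g t = (if t = a then g a else 0) + T.count t * g t := by
      intro t
      rw [List.count_cons]
      by_cases hta : t = a
      · subst hta; simp; ring
      · have : (a == t) = false := by simpa using fun h => hta h.symm
        simp [hta, this]
    simp_rw [e]
    rw [List.sum_map_add]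
    congr 1
    clear h h1 ih e
    induction tys with
    | nil => simp at ha
    | cons t tys ih =>
      rw [List.nodup_cons] at hnd
      rw [List.map_cons, List.sum_cons]
      by_cases hta : t = a
      · subst hta
        rw [if_pos rfl]
        have : (tys.map fun s => if s = t then g t else 0).sum = 0 := by
          apply List.sum_eq_zero
          intro x hx
          obtain ⟨s, hs, rfl⟩ := List.mem_map.mp hx
          rw [if_neg]
          rintro rfl
          exact hnd.1 hs
        rw [this, add_zero]
      · rw [if_neg hta, zero_add]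
        refine ih hnd.2 ?_
        rcases List.mem_cons.mp ha with h | h
        · exact absurd h.symm hta
        · exact h

/-- Total bonus of a (reversed) vector of counts. -/
def bonus : List (List ℕ × ℕ) → List ℕ → ℕ
  | [], _ => 0
  | p :: ps, v => (if p.1 = v then p.2 else 0) + bonus ps v

/-- Enumerate all vectors of counts `c` with `∑ c t * t ≤ rem` and check that their weight is at
most `W` plus their bonus. -/
def knap (w : ℕ → ℕ) (W : ℕ) (ps : List (List ℕ × ℕ)) : List ℕ → ℕ → ℕ → List ℕ → Bool
  | [], _, wt, pre => Nat.ble wt W || Nat.ble wt (W + bonus ps pre)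
  | m :: ts, rem, wt, pre => (List.range (rem / m + 1)).all fun k =>
      knap w W ps ts (rem - k * m) (wt + k * w m) (k :: pre)

theorem knap_sound (w : ℕ → ℕ) (W : ℕ) (ps : List (List ℕ × ℕ)) (cnt : ℕ → ℕ) : ∀ (ts : List ℕ)
    (rem wt : ℕ) (pre : List ℕ), (∀ t ∈ ts, 0 < t) → (ts.map fun t => cnt t * t).sum ≤ rem →
    knap w W ps ts rem wt pre = true →
    wt + (ts.map fun t => cnt t * w t).sum ≤ W + bonus ps ((ts.map cnt).reverse ++ pre) := by
  intro ts
  induction ts with
  | nil =>
    intro rem wt pre _ _ h
    simp only [knap, Bool.or_eq_true, Nat.ble_eq] at h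
    simp only [List.map_nil, List.sum_nil, add_zero, List.reverse_nil, List.nil_append]
    omega
  | cons m ts ih =>
    intro rem wt pre hpos hsum h
    simp only [knap, List.all_eq_true, List.mem_range] at h
    rw [List.map_cons, List.sum_cons] at hsum
    have hm : 0 < m := hpos m (by simp)
    have h1 := h (cnt m) (by
      rw [Nat.lt_succ_iff, Nat.le_div_iff_mul_le hm]; omega)
    have h2 := ih (rem - cnt m * m) (wt + cnt m * w m) (cnt m :: pre)
      (fun t ht => hpos t (List.mem_cons_of_mem _ ht)) (by omega) h1
    rw [List.map_cons, List.sum_cons, List.map_cons, List.reverse_cons, List.append_assoc,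
      List.singleton_append]
    omega

/-- An exceptional pattern: the list of its types, the bonus, and the number of bins. -/
structure Pat where
  types : List ℕ
  eps : ℕ
  num : ℕ

/-- the vector of a list of types. -/
def vec (tys : List ℕ) (T : List ℕ) : List ℕ := (tys.map fun t => T.count t).reverse

/-- pattern list for `knap`. -/
def pv (tys : List ℕ) (ps : List Pat) : List (List ℕ × ℕ) :=
  ps.map fun p => (vec tys p.types, p.eps)

/-- the items belonging to the types of a pattern. -/
def cls (ty : ℕ → ℕ) (l : List ℕ) (p : Pat) : List ℕ := l.filter fun s => p.types.contains (ty s)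

theorem few_bins {C : ℕ} (ty : ℕ → ℕ) (tys : List ℕ) (hnd : tys.Nodup) (l : List ℕ) (p : Pat)
    (bs : List (List ℕ)) (hl : l.Perm bs.flatten) (hbs : ∀ B ∈ bs, B.sum ≤ C)
    (hty : ∀ s ∈ l, ty s ∈ tys) (hp : ∀ t ∈ p.types, t ∈ tys)
    (hlen : (cls ty l p).length ≤ p.num * p.types.length)
    (hs : search C p.num (cls ty l p) = false) :
    (bs.filter fun B => vec tys (B.map ty) = vec tys p.types).length < p.num := by
  by_contra hcon
  rw [not_lt] at hcon
  apply not_packN_of_search hs
  set R := (bs.filter fun B => vec tys (B.map ty) = vec tys p.types).take p.num with hR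
  have hRlen : R.length = p.num := by rw [hR, List.length_take]; omega
  have hRsub : R.Sublist bs := (List.take_sublist _ _).trans List.filter_sublist
  have hRmem : ∀ B ∈ R, B ∈ bs ∧ vec tys (B.map ty) = vec tys p.types := by
    intro B hB
    have := List.mem_of_mem_take hB
    rw [List.mem_filter] at this
    exact ⟨this.1, by simpa using this.2⟩
  have hmem : ∀ B ∈ bs, ∀ s ∈ B, s ∈ l := fun B hB s hs =>
    hl.symm.subset (List.mem_flatten.mpr ⟨B, hB, hs⟩)
  have hcount : ∀ B ∈ R, ∀ t ∈ tys, (B.map ty).count t = p.types.count t := by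
    intro B hB t ht
    have h := (hRmem B hB).2
    simp only [vec, List.reverse_inj] at h
    exact List.map_inj_left.mp h t ht
  have hBlen : ∀ B ∈ R, B.length = p.types.length := by
    intro B hB
    have e1 := sum_map_eq_count tys hnd (fun _ => 1) (B.map ty) (by
      intro x hx
      obtain ⟨s, hs, rfl⟩ := List.mem_map.mp hx
      exact hty s (hmem B (hRmem B hB).1 s hs))
    have e2 := sum_map_eq_count tys hnd (fun _ => 1) p.types hp
    have e3 : (tys.map fun t => (B.map ty).count t * 1) =
        (tys.map fun t => p.types.count t * 1) := by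
      apply List.map_congr_left
      intro t ht
      rw [hcount B hB t ht]
    have e4 : ∀ T : List ℕ, (T.map fun _ => 1).sum = T.length := by
      intro T; simp
    rw [e3, ← e2, e4, e4, List.length_map] at e1
    exact e1
  have hcls : ∀ s ∈ R.flatten, p.types.contains (ty s) = true := by
    intro s hs
    obtain ⟨B, hB, hsB⟩ := List.mem_flatten.mp hs
    have ht : ty s ∈ tys := hty s (hmem B (hRmem B hB).1 s hsB)
    have h1 := hcount B hB (ty s) ht
    have h2 : 0 < (B.map ty).count (ty s) := List.count_pos_iff.mpr (List.mem_map_of_mem hsB)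
    rw [h1] at h2
    simpa using List.count_pos_iff.mp h2
  have hsub : (R.flatten).Subperm (cls ty l p) := by
    have h1 : R.flatten = R.flatten.filter fun s => p.types.contains (ty s) := by
      rw [List.filter_eq_self.mpr]
      intro s hs
      exact hcls s hs
    rw [h1]
    unfold cls
    have h2 : R.flatten.Subperm l := by
      have h3 : R.flatten.Subperm bs.flatten := hRsub.flatten.subperm
      exact h3.trans hl.symm.subperm
    exact h2.filter _
  have hflen : R.flatten.length = p.num * p.types.length := by
    rw [List.length_flatten]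
    have : R.map List.length = R.map fun _ => p.types.length := by
      apply List.map_congr_left
      intro B hB
      exact hBlen B hB
    rw [this]
    simp [hRlen]
  have hperm : (cls ty l p).Perm R.flatten :=
    (hsub.perm_of_length_le (by rw [hflen]; exact hlen)).symm
  exact packN_of_bins R hRlen hperm fun B hB => hbs B (hRmem B hB).1

theorem sum_bonus (tys : List ℕ) (ty : ℕ → ℕ) (bs : List (List ℕ)) : ∀ ps : List Pat,
    (∀ p ∈ ps, (bs.filter fun B => vec tys (B.map ty) = vec tys p.types).length ≤ p.num - 1) →
    (bs.map fun B => bonus (pv tys ps) (vec tys (B.map ty))).sum ≤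
      (ps.map fun p => p.eps * (p.num - 1)).sum := by
  intro ps
  induction ps with
  | nil => intro _; simp only [pv, List.map_nil, bonus, List.map_const', List.sum_replicate, nsmul_zero, List.sum_nil, Std.le_refl]
  | cons p ps ih =>
    intro h
    have h1 := ih (fun q hq => h q (List.mem_cons_of_mem _ hq))
    have h2 := h p (by simp)
    simp only [pv, List.map_cons, bonus, List.sum_cons] at h1 ⊢
    rw [List.sum_map_add]
    refine add_le_add ?_ h1
    refine le_trans (le_of_eq ?_) (Nat.mul_le_mul_left p.eps h2)
    clear h h1 h2 ih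
    induction bs with
    | nil => simp
    | cons B bs ih =>
      rw [List.map_cons, List.sum_cons, List.filter_cons]
      by_cases hB : vec tys (B.map ty) = vec tys p.types
      · simp only [hB, decide_true, if_true, List.length_cons, ih]
        ring
      · simp only [hB, decide_false, Ne.symm hB, if_false, ih]
        simp

theorem not_packN_two_level (C k L W : ℕ) (l : List ℕ) (ty w : ℕ → ℕ) (tys : List ℕ)
    (ps : List Pat)
    (h1 : ∀ s ∈ l, C * ty s < (L + 1) * s) (h2 : ∀ s ∈ l, ty s ∈ tys)
    (h3 : tys.Nodup) (h4 : ∀ t ∈ tys, 0 < t) (h5 : knap w W (pv tys ps) tys L 0 [] = true)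
    (h6 : ∀ p ∈ ps, (∀ t ∈ p.types, t ∈ tys) ∧ 0 < p.num ∧
      (cls ty l p).length ≤ p.num * p.types.length ∧ search C p.num (cls ty l p) = false)
    (h7 : k * W + (ps.map fun p => p.eps * (p.num - 1)).sum < (l.map fun s => w (ty s)).sum) :
    ¬ PackN C k l := by
  intro hpack
  obtain ⟨bs, g1, g2, g3⟩ := hpack.exists_bins
  have hmem : ∀ B ∈ bs, ∀ s ∈ B, s ∈ l := fun B hB s hs =>
    g2.symm.subset (List.mem_flatten.mpr ⟨B, hB, hs⟩)
  -- weight of one bin
  have hbin : ∀ B ∈ bs, (B.map fun s => w (ty s)).sum ≤
      W + bonus (pv tys ps) (vec tys (B.map ty)) := by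
    intro B hB
    have hT : ∀ x ∈ B.map ty, x ∈ tys := by
      intro x hx
      obtain ⟨s, hs, rfl⟩ := List.mem_map.mp hx
      exact h2 s (hmem B hB s hs)
    have hsum : ((B.map ty).map id).sum ≤ L := by
      rw [List.map_id]
      by_cases hB0 : B = []
      · subst hB0; simp
      · have hlt : ∀ D : List ℕ, (∀ s ∈ D, C * ty s < (L + 1) * s) → D ≠ [] →
            C * (D.map ty).sum < (L + 1) * D.sum := by
          intro D
          induction D with
          | nil => intro _ h; exact absurd rfl h
          | cons a D ih =>
            intro hD _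
            have ha := hD a (by simp)
            rw [List.map_cons, List.sum_cons, List.sum_cons, mul_add, mul_add]
            by_cases hD0 : D = []
            · subst hD0; simpa only [List.map_nil, List.sum_nil, mul_zero, add_zero, gt_iff_lt] using ha
            · exact add_lt_add ha (ih (fun s hs => hD s (List.mem_cons_of_mem _ hs)) hD0)
        have h := hlt B (fun s hs => h1 s (hmem B hB s hs)) hB0
        have h' : C * (B.map ty).sum < (L + 1) * C := lt_of_lt_of_le h (Nat.mul_le_mul_left _ (g3 B hB))
        have h'' : (B.map ty).sum < L + 1 := by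
          by_contra hge
          rw [not_lt] at hge
          have := Nat.mul_le_mul_left C hge
          rw [mul_comm C (L + 1)] at this
          omega
        omega
    have e1 := sum_map_eq_count tys h3 id (B.map ty) hT
    have e2 := sum_map_eq_count tys h3 w (B.map ty) hT
    have h := knap_sound w W (pv tys ps) (fun t => (B.map ty).count t) tys L 0 [] h4
      (by rw [e1] at hsum; exact hsum) h5
    rw [zero_add, List.append_nil] at h
    rw [List.map_map] at e2
    have e3 : (B.map fun s => w (ty s)) = B.map (w ∘ ty) := rfl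
    rw [e3, e2]
    exact h
  have hfew := fun p (hp : p ∈ ps) => few_bins (C := C) ty tys h3 l p bs g2 g3 h2 (h6 p hp).1
    (h6 p hp).2.2.1 (h6 p hp).2.2.2
  have hbon := sum_bonus tys ty bs ps (fun p hp => by have := hfew p hp; omega)
  have htot : (l.map fun s => w (ty s)).sum = (bs.map fun B => (B.map fun s => w (ty s)).sum).sum := by
    rw [(g2.map _).sum_eq, List.map_flatten, List.sum_flatten, List.map_map]
    rfl
  have hle : (bs.map fun B => (B.map fun s => w (ty s)).sum).sum ≤
      (bs.map fun B => W + bonus (pv tys ps) (vec tys (B.map ty))).sum :=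
    List.sum_le_sum fun B hB => hbin B hB
  rw [List.sum_map_add] at hle
  have hk : (bs.map fun _ => W).sum = k * W := by simp [g1]
  rw [hk] at hle
  omega

theorem family_of_not_packN (C D W k : ℕ) (l : List ℕ) (L : List (List ℕ × ℕ))
    (hC : 0 < C) (hD : 0 < D) (hl : ∀ s ∈ l, 0 < s ∧ s < C)
    (hs : ¬ PackN C k l)
    (h1 : ∀ p ∈ L, p.1.sum ≤ C)
    (h2 : ∀ s ∈ l, l.count s * D ≤ (L.map fun p => p.1.count s * p.2).sum)
    (h3 : (L.map Prod.snd).sum ≤ W) (hp : Packable (inst C l) (k + 1)) :
    ∀ n : ℕ, k + 1 ≤ n → ∃ I : List ℚ, IsInstance I ∧ OPT I = n ∧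
      (k : ℝ) + 1 - (W : ℝ) / D ≤ (OPT I : ℝ) - LP I := by
  intro n hn
  obtain ⟨m, rfl⟩ := Nat.exists_eq_add_of_le hn
  have hpos : ∀ s ∈ List.replicate m C ++ l, 0 < s ∧ s ≤ C := by
    intro s hs
    rcases List.mem_append.mp hs with h | h
    · rw [List.eq_of_mem_replicate h]; exact ⟨hC, le_refl C⟩
    · exact ⟨(hl s h).1, (hl s h).2.le⟩
  have hOPT : OPT (inst C (List.replicate m C ++ l)) = k + 1 + m := by
    refine OPT_eq (packable_replicate hC hp m) ?_
    intro j hj hpj
    have hpj' : Packable (inst C (List.replicate m C ++ l)) (k + m) := hpj.mono (by omega)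
    exact hs (packN_of_replicate (fun s hs => (hl s hs).1) m hC
      (packN_of_packable hC _ _ hpj'))
  refine ⟨inst C (List.replicate m C ++ l), isInstance_inst _ hpos, hOPT, ?_⟩
  rw [hOPT]
  have hLP : LP (inst C (List.replicate m C ++ l)) ≤ ((W + m * D : ℕ) : ℝ) / D := by
    refine LP_le hC hD _ (([C], m * D) :: L) ?_ ?_ ?_
    · intro p hp
      rcases List.mem_cons.mp hp with rfl | hp
      · simp
      · exact h1 p hp
    · intro s hs
      rw [List.count_append, List.map_cons, List.sum_cons]
      by_cases hsC : s = C
      · subst hsC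
        have e1 : List.count s l = 0 := by
          rw [List.count_eq_zero]
          intro hmem
          exact absurd (hl s hmem).2 (lt_irrefl _)
        rw [e1, List.count_replicate_self]
        simp only [add_zero, List.nodup_cons, List.not_mem_nil, not_false_eq_true, List.nodup_nil, and_self, List.mem_cons, or_false, List.count_eq_one_of_mem, one_mul, le_add_iff_nonneg_right, zero_le]
      · have hs' : s ∈ l := by
          rcases List.mem_append.mp hs with h | h
          · exact absurd (List.eq_of_mem_replicate h) hsC
          · exact h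
        have e1 : List.count s (List.replicate m C) = 0 := by
          rw [List.count_eq_zero]
          intro hmem
          exact hsC (List.eq_of_mem_replicate hmem)
        rw [e1, zero_add]
        exact le_trans (h2 s hs') (Nat.le_add_left _ _)
    · rw [List.map_cons, List.sum_cons]
      dsimp only
      omega
  have hD' : (0 : ℝ) < D := by exact_mod_cast hD
  have e : ((W + m * D : ℕ) : ℝ) / D = (W : ℝ) / D + m := by
    push_cast
    (clear * - hD; field_simp)
  rw [e] at hLP
  push_cast
  linarith only [hLP]



end Vale.Agent.P302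
end
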