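import Vale.Agent.P302.Bdl.B1

set_option linter.all false

section
/-!
Nested gadgets of type (x, s, s).
-/

namespace Vale.Agent.P302

theorem subperm_map_sum_le {α : Type*} (u : α → ℕ) {l m : List α} (h : l.Subperm m) :
    (l.map u).sum ≤ (m.map u).sum := by
  obtain ⟨l', hp, hs⟩ := h
  rw [← (hp.map u).sum_eq]
  exact (hs.map u).sum_le_sum (fun _ _ => Nat.zero_le _)

theorem sum_map_const_le {α : Type*} (l : List α) (f : α → ℕ) (c : ℕ) (h : ∀ a ∈ l, c ≤ f a) :
    l.length * c ≤ (l.map f).sum := by
  induction l with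
  | nil => simp
  | cons a l ih =>
    rw [List.length_cons, List.map_cons, List.sum_cons]
    have h1 := h a (by simp)
    have h2 := ih (fun b hb => h b (List.mem_cons_of_mem _ hb))
    nlinarith

/-- At most `n - 1` disjoint feasible bins with one item of `X` and two items of `S`. -/
def FBt (X S : List ℤ) (n : ℕ) : Prop :=
  ∀ bs : List (List ℤ × List ℤ),
    (∀ b ∈ bs, b.1.length = 1 ∧ b.2.length = 2 ∧ b.1.sum + b.2.sum ≤ 0) →
    (bs.map Prod.fst).flatten.Subperm X → (bs.map Prod.snd).flatten.Subperm S → bs.length < n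

/-- translation of a bin -/
def sh (a b : ℤ) (z : List ℤ × List ℤ) : List ℤ × List ℤ :=
  (z.1.map (· + a), z.2.map (· + b))

theorem sh_fst (a b : ℤ) (bs : List (List ℤ × List ℤ)) :
    ((bs.map (sh a b)).map Prod.fst).flatten = ((bs.map Prod.fst).flatten).map (· + a) := by
  rw [List.map_flatten, List.map_map, List.map_map]
  rfl

theorem sh_snd (a b : ℤ) (bs : List (List ℤ × List ℤ)) :
    ((bs.map (sh a b)).map Prod.snd).flatten = ((bs.map Prod.snd).flatten).map (· + b) := by
  rw [List.map_flatten, List.map_map, List.map_map]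
  rfl

theorem extract {α β : Type*} (bs : List α) (f : α → List β) (p : α → Bool) (X : List β)
    (q : β → Bool) (hX : (bs.map f).flatten.Subperm X)
    (hq : ∀ b ∈ bs, p b = true → ∀ v ∈ f b, q v = true) :
    (((bs.filter p).map f).flatten).Subperm (X.filter q) := by
  have h1 : (((bs.filter p).map f).flatten).Sublist (bs.map f).flatten :=
    ((List.filter_sublist).map f).flatten
  have h2 : (((bs.filter p).map f).flatten).Subperm X := h1.subperm.trans hX
  have h3 : (((bs.filter p).map f).flatten).filter q = ((bs.filter p).map f).flatten := by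
    rw [List.filter_eq_self]
    intro v hv
    obtain ⟨l, hl, hvl⟩ := List.mem_flatten.mp hv
    obtain ⟨b, hb, rfl⟩ := List.mem_map.mp hl
    rw [List.mem_filter] at hb
    exact hq b hb.1 hb.2 v hvl
  rw [← h3]
  exact h2.filter q

theorem FBt_mono {X S X' S' : List ℤ} {n : ℕ} (h : FBt X S n) (hX : X'.Subperm X)
    (hS : S'.Subperm S) : FBt X' S' n := fun bs h1 h2 h3 => h bs h1 (h2.trans hX) (h3.trans hS)

structure Gad where
  X : List ℤ
  S : List ℤ
  x0 : ℤ
  s0 : ℤ
  R : ℤ
  N : ℕ

structure Gad.Ok (g : Gad) : Prop where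
  hR : 0 < g.R
  hX : ∀ v ∈ g.X, -g.R ≤ v ∧ v ≤ g.R
  hS : ∀ v ∈ g.S, -g.R ≤ v ∧ v ≤ g.R
  hx : -g.R ≤ g.x0 ∧ g.x0 ≤ g.R
  hs : -g.R ≤ g.s0 ∧ g.s0 ≤ g.R
  lX : g.X.length = g.N
  lS : g.S.length = 2 * g.N
  hN : 0 < g.N
  good : ∀ EX ES : List ℤ, (∀ e ∈ EX, g.x0 ≤ e) → (∀ e ∈ ES, g.s0 ≤ e) →
    FBt (g.X ++ EX) (g.S ++ ES) g.N

/-- the next gadget -/
def Gad.next (g : Gad) : Gad where
  X := g.X.map (· + (-(8 * (4 * g.R)))) ++ g.X ++ [g.x0 + (-(8 * (4 * g.R))), -(2 * (4 * g.R))]
  S := g.S.map (· + 4 * (4 * g.R)) ++ g.S ++ [g.s0, g.s0, -(3 * (4 * g.R)), g.s0 + 4 * (4 * g.R)]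
  x0 := g.x0
  s0 := g.s0 + 4 * (4 * g.R)
  R := 8 * (4 * g.R) + g.R
  N := 2 * g.N + 2

def uX (M v : ℤ) : ℕ := if v < -(5 * M) then 2 else if v < -M then 1 else 0
def uS (M v : ℤ) : ℕ := if 2 * M ≤ v then 0 else if -M ≤ v then 1 else 2

def pA (M : ℤ) (b : List ℤ × List ℤ) : Bool :=
  b.1.all (fun v => decide (v < -(5 * M))) && b.2.all (fun v => decide (2 * M ≤ v))
def pB (M : ℤ) (b : List ℤ × List ℤ) : Bool :=
  b.1.all (fun v => decide (-M ≤ v)) && b.2.all (fun v => decide (-M ≤ v) && decide (v < 2 * M))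

theorem map_u_const {l : List ℤ} (u : ℤ → ℕ) (c : ℕ) (h : ∀ v ∈ l, u v = c) :
    (l.map u).sum = c * l.length := by
  rw [List.map_congr_left h]
  simp [mul_comm]

theorem Gad.Ok.next_good {g : Gad} (h : g.Ok) (EX ES : List ℤ) (hEX : ∀ e ∈ EX, g.next.x0 ≤ e)
    (hES : ∀ e ∈ ES, g.next.s0 ≤ e) : FBt (g.next.X ++ EX) (g.next.S ++ ES) g.next.N := by
  intro bs hbs hX hS
  obtain ⟨M, hM⟩ : ∃ M, M = 4 * g.R := ⟨_, rfl⟩
  have hR := h.hR
  have hx := h.hx
  have hs := h.hs
  simp only [Gad.next, ← hM] at hEX hES hX hS ⊢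
  set X' := g.X.map (· + (-(8 * M))) ++ g.X ++ [g.x0 + (-(8 * M)), -(2 * M)] ++ EX with hX'
  set S' := g.S.map (· + 4 * M) ++ g.S ++ [g.s0, g.s0, -(3 * M), g.s0 + 4 * M] ++ ES with hS'
  -- ranges
  have rX : ∀ v ∈ X', -(8 * M) - g.R ≤ v ∧ (-(5 * M) ≤ v → -(2 * M) ≤ v) ∧ (-M ≤ v → -g.R ≤ v) := by
    intro v hv
    simp only [hX', List.mem_append, List.mem_map, List.mem_cons, List.not_mem_nil, or_false] at hv
    rcases hv with ((⟨w, hw, rfl⟩ | hw) | rfl | rfl) | hw
    · have := h.hX w hw; refine ⟨?_, ?_, ?_⟩ <;> intros <;> omega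
    · have := h.hX v hw; refine ⟨?_, ?_, ?_⟩ <;> intros <;> omega
    · refine ⟨?_, ?_, ?_⟩ <;> intros <;> omega
    · refine ⟨?_, ?_, ?_⟩ <;> intros <;> omega
    · have := hEX v hw; refine ⟨?_, ?_, ?_⟩ <;> intros <;> omega
  have rS : ∀ v ∈ S', -(3 * M) ≤ v ∧ (-M ≤ v → -g.R ≤ v) ∧ (2 * M ≤ v → 4 * M - g.R ≤ v) := by
    intro v hv
    simp only [hS', List.mem_append, List.mem_map, List.mem_cons, List.not_mem_nil, or_false] at hv
    rcases hv with ((⟨w, hw, rfl⟩ | hw) | rfl | rfl | rfl | rfl) | hw
    · have := h.hS w hw; refine ⟨?_, ?_, ?_⟩ <;> intros <;> omega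
    · have := h.hS v hw; refine ⟨?_, ?_, ?_⟩ <;> intros <;> omega
    · refine ⟨?_, ?_, ?_⟩ <;> intros <;> omega
    · refine ⟨?_, ?_, ?_⟩ <;> intros <;> omega
    · refine ⟨?_, ?_, ?_⟩ <;> intros <;> omega
    · refine ⟨?_, ?_, ?_⟩ <;> intros <;> omega
    · have := hES v hw; refine ⟨?_, ?_, ?_⟩ <;> intros <;> omega
  -- every bin
  have key : ∀ b ∈ bs, 3 ≤ (b.1.map (uX M)).sum + (b.2.map (uS M)).sum +
      ((if pA M b then 1 else 0) + (if pB M b then 1 else 0)) := by
    intro b hb
    obtain ⟨h1, h2, h3⟩ := hbs b hb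
    obtain ⟨x, hx1⟩ := List.length_eq_one_iff.mp h1
    obtain ⟨s, t, hst⟩ := List.length_eq_two.mp h2
    have mx : x ∈ X' := hX.subset (List.mem_flatten.mpr ⟨b.1, List.mem_map_of_mem hb, by simp [hx1]⟩)
    have ms : s ∈ S' := hS.subset (List.mem_flatten.mpr ⟨b.2, List.mem_map_of_mem hb, by simp [hst]⟩)
    have mt : t ∈ S' := hS.subset (List.mem_flatten.mpr ⟨b.2, List.mem_map_of_mem hb, by simp [hst]⟩)
    have a1 := rX x mx
    have a2 := rS s ms
    have a3 := rS t mt
    simp only [pA, pB, hx1, hst, List.map_cons, List.map_nil, List.sum_cons, List.sum_nil,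
      List.all_cons, List.all_nil, Bool.and_true, uX, uS, Bool.and_eq_true, decide_eq_true_eq,
      add_zero] at h3 ⊢
    split_ifs <;> omega
  have tot := sum_map_const_le bs _ 3 key
  rw [List.sum_map_add, List.sum_map_add, List.sum_map_add] at tot
  have e1 : (bs.map fun b => (b.1.map (uX M)).sum).sum ≤ (X'.map (uX M)).sum := by
    have := subperm_map_sum_le (uX M) hX
    rwa [List.map_flatten, List.sum_flatten, List.map_map, List.map_map] at this
  have e2 : (bs.map fun b => (b.2.map (uS M)).sum).sum ≤ (S'.map (uS M)).sum := by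
    have := subperm_map_sum_le (uS M) hS
    rwa [List.map_flatten, List.sum_flatten, List.map_map, List.map_map] at this
  have e3 : ∀ p : List ℤ × List ℤ → Bool, (bs.map fun b => if p b then 1 else 0).sum =
      (bs.filter p).length := by
    intro p
    rw [← List.countP_eq_length_filter]
    clear * -
    induction bs with
    | nil => simp
    | cons b bs ih => simp only [List.map_cons, List.sum_cons, ih, List.countP_cons]; ring
  rw [e3, e3] at tot
  have f1 : (X'.map (uX M)).sum = 2 * g.N + 3 := by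
    have a1 : ((g.X.map (· + (-(8 * M)))).map (uX M)).sum = 2 * g.N := by
      rw [map_u_const (uX M) 2, List.length_map, h.lX]
      intro v hv
      obtain ⟨w, hw, rfl⟩ := List.mem_map.mp hv
      have := h.hX w hw
      simp only [uX]; rw [if_pos (by omega)]
    have a2 : (g.X.map (uX M)).sum = 0 := by
      rw [map_u_const (uX M) 0, zero_mul]
      intro v hw
      have := h.hX v hw
      simp only [uX]; rw [if_neg (by omega), if_neg (by omega)]
    have a3 : (EX.map (uX M)).sum = 0 := by
      rw [map_u_const (uX M) 0, zero_mul]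
      intro v hw
      have := hEX v hw
      simp only [uX]; rw [if_neg (by omega), if_neg (by omega)]
    have a4 : uX M (g.x0 + (-(8 * M))) = 2 := by simp only [uX]; rw [if_pos (by omega)]
    have a5 : uX M (-(2 * M)) = 1 := by
      simp only [uX]; rw [if_neg (by omega), if_pos (by omega)]
    simp only [hX', List.map_append, List.sum_append, a1, a2, a3, List.map_cons, List.map_nil,
      List.sum_cons, List.sum_nil, a4, a5]
    omega
  have f2 : (S'.map (uS M)).sum = 2 * g.N + 4 := by
    have a1 : ((g.S.map (· + 4 * M)).map (uS M)).sum = 0 := by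
      rw [map_u_const (uS M) 0, zero_mul]
      intro v hv
      obtain ⟨w, hw, rfl⟩ := List.mem_map.mp hv
      have := h.hS w hw
      simp only [uS]; rw [if_pos (by omega)]
    have a2 : (g.S.map (uS M)).sum = 2 * g.N := by
      rw [map_u_const (uS M) 1, one_mul, h.lS]
      intro v hw
      have := h.hS v hw
      simp only [uS]; rw [if_neg (by omega), if_pos (by omega)]
    have a3 : (ES.map (uS M)).sum = 0 := by
      rw [map_u_const (uS M) 0, zero_mul]
      intro v hw
      have := hES v hw
      simp only [uS]; rw [if_pos (by omega)]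
    have a4 : uS M g.s0 = 1 := by simp only [uS]; rw [if_neg (by omega), if_pos (by omega)]
    have a5 : uS M (-(3 * M)) = 2 := by
      simp only [uS]; rw [if_neg (by omega), if_neg (by omega)]
    have a6 : uS M (g.s0 + 4 * M) = 0 := by simp only [uS]; rw [if_pos (by omega)]
    simp only [hS', List.map_append, List.sum_append, a1, a2, a3, List.map_cons, List.map_nil,
      List.sum_cons, List.sum_nil, a4, a5, a6]
    omega
  -- the fragile bins
  have fA : (bs.filter (pA M)).length < g.N := by
    have c1 := extract bs Prod.fst (pA M) X' (fun v => decide (v < -(5 * M))) hX (by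
      intro b _ hp v hv
      simp only [pA, Bool.and_eq_true, List.all_eq_true] at hp
      exact hp.1 v hv)
    have c2 := extract bs Prod.snd (pA M) S' (fun v => decide (2 * M ≤ v)) hS (by
      intro b _ hp v hv
      simp only [pA, Bool.and_eq_true, List.all_eq_true] at hp
      exact hp.2 v hv)
    have d1 : (X'.filter (fun v => decide (v < -(5 * M)))) =
        (g.X ++ [g.x0]).map (· + (-(8 * M))) := by
      have b1 : (g.X.map (· + (-(8 * M)))).filter (fun v => decide (v < -(5 * M))) =
          g.X.map (· + (-(8 * M))) := by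
        rw [List.filter_eq_self]
        intro v hv
        obtain ⟨w, hw, rfl⟩ := List.mem_map.mp hv
        have := h.hX w hw
        rw [decide_eq_true_eq]; omega
      have b2 : g.X.filter (fun v => decide (v < -(5 * M))) = [] := by
        rw [List.filter_eq_nil_iff]
        intro v hv
        have := h.hX v hv
        rw [decide_eq_true_eq]; omega
      have b3 : EX.filter (fun v => decide (v < -(5 * M))) = [] := by
        rw [List.filter_eq_nil_iff]
        intro v hv
        have := hEX v hv
        rw [decide_eq_true_eq]; omega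
      have b4 : decide (g.x0 + (-(8 * M)) < -(5 * M)) = true := by rw [decide_eq_true_eq]; omega
      have b5 : decide (-(2 * M) < -(5 * M)) = false := by rw [decide_eq_false_iff_not]; omega
      simp only [hX', List.filter_append, b1, b2, b3, List.filter_cons, b4, b5, List.filter_nil,
        if_true, List.append_nil, List.map_append, List.map_cons, List.map_nil, Bool.false_eq_true,
        if_false]
    have d2 : (S'.filter (fun v => decide (2 * M ≤ v))) =
        (g.S ++ ([g.s0] ++ ES.map (· + (-(4 * M))))).map (· + 4 * M) := by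
      have b1 : (g.S.map (· + 4 * M)).filter (fun v => decide (2 * M ≤ v)) =
          g.S.map (· + 4 * M) := by
        rw [List.filter_eq_self]
        intro v hv
        obtain ⟨w, hw, rfl⟩ := List.mem_map.mp hv
        have := h.hS w hw
        rw [decide_eq_true_eq]; omega
      have b2 : g.S.filter (fun v => decide (2 * M ≤ v)) = [] := by
        rw [List.filter_eq_nil_iff]
        intro v hv
        have := h.hS v hv
        rw [decide_eq_true_eq]; omega
      have b3 : ES.filter (fun v => decide (2 * M ≤ v)) = ES := by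
        rw [List.filter_eq_self]
        intro v hv
        have := hES v hv
        rw [decide_eq_true_eq]; omega
      have b4 : decide (2 * M ≤ g.s0) = false := by rw [decide_eq_false_iff_not]; omega
      have b5 : decide (2 * M ≤ -(3 * M)) = false := by rw [decide_eq_false_iff_not]; omega
      have b6 : decide (2 * M ≤ g.s0 + 4 * M) = true := by rw [decide_eq_true_eq]; omega
      have b7 : (ES.map (· + (-(4 * M)))).map (· + 4 * M) = ES := by
        rw [List.map_map]
        conv_rhs => rw [← List.map_id ES]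
        apply List.map_congr_left
        intro v _
        simp
      simp only [hS', List.filter_append, b1, b2, b3, List.filter_cons, b4, b5, b6, List.filter_nil,
        if_true, List.append_nil, List.map_append, List.map_cons, List.map_nil, Bool.false_eq_true,
        if_false, b7, List.append_assoc, List.nil_append]
    rw [d1] at c1
    rw [d2] at c2
    have := h.good [g.x0] ([g.s0] ++ ES.map (· + (-(4 * M)))) (by simp) (by
      intro e he
      rcases List.mem_append.mp he with he | he
      · simp only [List.mem_singleton] at he; omega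
      · obtain ⟨w, hw, rfl⟩ := List.mem_map.mp he
        have := hES w hw
        omega) ((bs.filter (pA M)).map (sh (8 * M) (-(4 * M)))) ?_ ?_ ?_
    · rwa [List.length_map] at this
    · intro b hb
      obtain ⟨b', hb', rfl⟩ := List.mem_map.mp hb
      obtain ⟨h1, h2, h3⟩ := hbs b' (List.mem_of_mem_filter hb')
      obtain ⟨x, hx1⟩ := List.length_eq_one_iff.mp h1
      obtain ⟨s, t, hst⟩ := List.length_eq_two.mp h2
      simp only [sh, hx1, hst, List.map_cons, List.map_nil, List.length_cons, List.length_nil,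
        List.sum_cons, List.sum_nil] at h3 ⊢
      refine ⟨by first | rfl | trivial, by first | rfl | trivial, by omega⟩
    · rw [sh_fst]
      have := c1.map (f := fun v : ℤ => v + 8 * M) (fun a b hab => by simpa using hab)
      refine this.trans (List.Perm.subperm ?_)
      rw [List.map_map]
      have : ((fun v : ℤ => v + 8 * M) ∘ fun x => x + (-(8 * M))) = id := by
        funext v; simp
      rw [this, List.map_id]
    · rw [sh_snd]
      have := c2.map (f := fun v : ℤ => v + -(4 * M)) (fun a b hab => by simpa using hab)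
      refine this.trans (List.Perm.subperm ?_)
      rw [List.map_map]
      have : ((fun v : ℤ => v + -(4 * M)) ∘ fun x => x + 4 * M) = id := by
        funext v; simp
      rw [this, List.map_id]
  have fB : (bs.filter (pB M)).length < g.N := by
    have c1 := extract bs Prod.fst (pB M) X' (fun v => decide (-M ≤ v)) hX (by
      intro b _ hp v hv
      simp only [pB, Bool.and_eq_true, List.all_eq_true] at hp
      exact hp.1 v hv)
    have c2 := extract bs Prod.snd (pB M) S' (fun v => decide (-M ≤ v) && decide (v < 2 * M)) hS (by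
      intro b _ hp v hv
      simp only [pB, Bool.and_eq_true, List.all_eq_true] at hp ⊢
      exact hp.2 v hv)
    have d1 : (X'.filter (fun v => decide (-M ≤ v))) = g.X ++ EX := by
      have b1 : (g.X.map (· + (-(8 * M)))).filter (fun v => decide (-M ≤ v)) = [] := by
        rw [List.filter_eq_nil_iff]
        intro v hv
        obtain ⟨w, hw, rfl⟩ := List.mem_map.mp hv
        have := h.hX w hw
        rw [decide_eq_true_eq]; omega
      have b2 : g.X.filter (fun v => decide (-M ≤ v)) = g.X := by
        rw [List.filter_eq_self]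
        intro v hv
        have := h.hX v hv
        rw [decide_eq_true_eq]; omega
      have b3 : EX.filter (fun v => decide (-M ≤ v)) = EX := by
        rw [List.filter_eq_self]
        intro v hv
        have := hEX v hv
        rw [decide_eq_true_eq]; omega
      have b4 : decide (-M ≤ g.x0 + (-(8 * M))) = false := by rw [decide_eq_false_iff_not]; omega
      have b5 : decide (-M ≤ -(2 * M)) = false := by rw [decide_eq_false_iff_not]; omega
      simp only [hX', List.filter_append, b1, b2, b3, List.filter_cons, b4, b5, List.filter_nil,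
        List.append_nil, List.nil_append, Bool.false_eq_true, if_false]
    have d2 : (S'.filter (fun v => decide (-M ≤ v) && decide (v < 2 * M))) =
        g.S ++ [g.s0, g.s0] := by
      have b1 : (g.S.map (· + 4 * M)).filter (fun v => decide (-M ≤ v) && decide (v < 2 * M)) = [] := by
        rw [List.filter_eq_nil_iff]
        intro v hv
        obtain ⟨w, hw, rfl⟩ := List.mem_map.mp hv
        have := h.hS w hw
        rw [Bool.and_eq_true, decide_eq_true_eq, decide_eq_true_eq]; omega
      have b2 : g.S.filter (fun v => decide (-M ≤ v) && decide (v < 2 * M)) = g.S := by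
        rw [List.filter_eq_self]
        intro v hv
        have := h.hS v hv
        rw [Bool.and_eq_true, decide_eq_true_eq, decide_eq_true_eq]; omega
      have b3 : ES.filter (fun v => decide (-M ≤ v) && decide (v < 2 * M)) = [] := by
        rw [List.filter_eq_nil_iff]
        intro v hv
        have := hES v hv
        rw [Bool.and_eq_true, decide_eq_true_eq, decide_eq_true_eq]; omega
      have b4 : (decide (-M ≤ g.s0) && decide (g.s0 < 2 * M)) = true := by
        rw [Bool.and_eq_true, decide_eq_true_eq, decide_eq_true_eq]; omega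
      have b5 : (decide (-M ≤ -(3 * M)) && decide (-(3 * M) < 2 * M)) = false := by
        rw [Bool.and_eq_false_iff, decide_eq_false_iff_not, decide_eq_false_iff_not]; omega
      have b6 : (decide (-M ≤ g.s0 + 4 * M) && decide (g.s0 + 4 * M < 2 * M)) = false := by
        rw [Bool.and_eq_false_iff, decide_eq_false_iff_not, decide_eq_false_iff_not]; omega
      simp only [hS', List.filter_append, b1, b2, b3, List.filter_cons, b4, b5, b6, List.filter_nil,
        if_true, List.append_nil, List.nil_append, Bool.false_eq_true, if_false]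
    rw [d1] at c1
    rw [d2] at c2
    exact h.good EX [g.s0, g.s0] hEX (by simp) (bs.filter (pB M))
      (fun b hb => hbs b (List.mem_of_mem_filter hb)) c1 c2
  rw [f1] at e1
  rw [f2] at e2
  have := h.hN
  omega

theorem Gad.Ok.next {g : Gad} (h : g.Ok) : g.next.Ok where
  hR := by have := h.hR; simp only [Gad.next]; omega
  hX := by
    intro v hv
    have hR := h.hR
    have hx := h.hx
    simp only [Gad.next, List.mem_append, List.mem_map, List.mem_cons, List.not_mem_nil,
      or_false] at hv ⊢
    rcases hv with (⟨w, hw, rfl⟩ | hw) | rfl | rfl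
    · have := h.hX w hw; omega
    · have := h.hX v hw; omega
    · omega
    · omega
  hS := by
    intro v hv
    have hR := h.hR
    have hs := h.hs
    simp only [Gad.next, List.mem_append, List.mem_map, List.mem_cons, List.not_mem_nil,
      or_false] at hv ⊢
    rcases hv with (⟨w, hw, rfl⟩ | hw) | rfl | rfl | rfl | rfl
    · have := h.hS w hw; omega
    · have := h.hS v hw; omega
    · omega
    · omega
    · omega
    · omega
  hx := by have := h.hR; have := h.hx; simp only [Gad.next]; omega
  hs := by have := h.hR; have := h.hs; simp only [Gad.next]; omega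
  lX := by simp only [Gad.next, List.length_append, List.length_map, h.lX, List.length_cons,
    List.length_nil]; omega
  lS := by simp only [Gad.next, List.length_append, List.length_map, h.lS, List.length_cons,
    List.length_nil]; omega
  hN := by simp only [Gad.next]; omega
  good := h.next_good

end Vale.Agent.P302
end

section
/-!
The basic gadgets.
-/

namespace Vale.Agent.P302

def okp (τ u v : ℤ) : Bool := !(decide (u = v)) || decide (u = τ)

theorem clamp_mem {L E : List ℤ} {τ : ℤ} (hτ : τ ∈ L) (hL : ∀ v ∈ L, v ≤ τ) (hE : ∀ e ∈ E, τ ≤ e)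
    {v : ℤ} (hv : v ∈ L ++ E) : min v τ ∈ L := by
  rcases List.mem_append.mp hv with h | h
  · rw [min_eq_left (hL v h)]; exact h
  · rw [min_eq_right (hE v h)]; exact hτ

theorem clamp_pairwise {L E l : List ℤ} {τ : ℤ} (hnd : L.Nodup) (hL : ∀ v ∈ L, v ≤ τ)
    (hE : ∀ e ∈ E, τ ≤ e) (hl : l.Subperm (L ++ E)) :
    l.Pairwise fun u v => okp τ (min u τ) (min v τ) = true := by
  have h1 : (l.filter fun v => decide (v < τ)).Subperm ((L ++ E).filter fun v => decide (v < τ)) :=
    hl.filter _
  have h2 : E.filter (fun v => decide (v < τ)) = [] := by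
    rw [List.filter_eq_nil_iff]
    intro v hv
    have := hE v hv
    rw [decide_eq_true_eq]; omega
  rw [List.filter_append, h2, List.append_nil] at h1
  have h3 : (l.filter fun v => decide (v < τ)).Nodup := by
    obtain ⟨l', hp, hs⟩ := h1
    exact hp.nodup_iff.mp (hs.nodup (hnd.filter _))
  rw [List.Nodup, List.pairwise_filter] at h3
  refine h3.imp ?_
  intro u v h
  simp only [decide_eq_true_eq] at h
  simp only [okp, Bool.or_eq_true, Bool.not_eq_true', decide_eq_false_iff_not, decide_eq_true_eq]
  by_contra hcon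
  push Not at hcon
  obtain ⟨h4, h5⟩ := hcon
  have hu : u < τ := by
    by_contra hge
    exact h5 (min_eq_right (by omega))
  have hv : v < τ := by
    by_contra hge
    rw [min_eq_right (show τ ≤ v by omega)] at h4
    exact h5 h4
  rw [min_eq_left hu.le, min_eq_left hv.le] at h4
  exact h hu hv h4

def X0 : List ℤ := [-4, 1, 4]
def S0 : List ℤ := [-5, -2, -1, 0, 2, 4]

def T0 : List (ℤ × ℤ × ℤ) :=
  (X0 ×ˢ (S0 ×ˢ S0)).filter fun a => decide (a.1 + a.2.1 + a.2.2 ≤ 0) && okp 4 a.2.1 a.2.2

def cmp0 (a b : ℤ × ℤ × ℤ) : Bool :=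
  okp 4 a.1 b.1 && (okp 4 a.2.1 b.2.1 && okp 4 a.2.1 b.2.2 && okp 4 a.2.2 b.2.1 && okp 4 a.2.2 b.2.2)

def chk0 : Bool :=
  T0.all fun a => T0.all fun b => !(cmp0 a b) || T0.all fun c => !(cmp0 a c && cmp0 b c)

theorem chk0_true : chk0 = true := by decide +kernel

def gad0 : Gad := ⟨X0, S0, 4, 4, 5, 3⟩

theorem gad0_good (EX ES : List ℤ) (hEX : ∀ e ∈ EX, (4 : ℤ) ≤ e) (hES : ∀ e ∈ ES, (4 : ℤ) ≤ e) :
    FBt (X0 ++ EX) (S0 ++ ES) 3 := by
  intro bs hbs hX hS
  by_contra hlen
  rw [not_lt] at hlen
  match bs, hlen with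
  | b1 :: b2 :: b3 :: rest, _ =>
    obtain ⟨p1, q1, r1⟩ := hbs b1 (by simp)
    obtain ⟨p2, q2, r2⟩ := hbs b2 (by simp)
    obtain ⟨p3, q3, r3⟩ := hbs b3 (by simp)
    obtain ⟨x1, hx1⟩ := List.length_eq_one_iff.mp p1
    obtain ⟨x2, hx2⟩ := List.length_eq_one_iff.mp p2
    obtain ⟨x3, hx3⟩ := List.length_eq_one_iff.mp p3
    obtain ⟨s1, t1, hs1⟩ := List.length_eq_two.mp q1
    obtain ⟨s2, t2, hs2⟩ := List.length_eq_two.mp q2
    obtain ⟨s3, t3, hs3⟩ := List.length_eq_two.mp q3
    simp only [List.map_cons, List.flatten_cons, hx1, hx2, hx3] at hX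
    simp only [List.map_cons, List.flatten_cons, hs1, hs2, hs3] at hS
    simp only [hx1, hs1, List.sum_cons, List.sum_nil, add_zero] at r1
    simp only [hx2, hs2, List.sum_cons, List.sum_nil, add_zero] at r2
    simp only [hx3, hs3, List.sum_cons, List.sum_nil, add_zero] at r3
    have mX : ∀ v ∈ X0 ++ EX, min v 4 ∈ X0 := fun v hv =>
      clamp_mem (by decide) (by decide) hEX hv
    have mS : ∀ v ∈ S0 ++ ES, min v 4 ∈ S0 := fun v hv =>
      clamp_mem (by decide) (by decide) hES hv
    have cX := clamp_pairwise (L := X0) (τ := 4) (by decide) (by decide) hEX hX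
    have cS := clamp_pairwise (L := S0) (τ := 4) (by decide) (by decide) hES hS
    have nx1 := mX x1 (hX.subset (by simp))
    have nx2 := mX x2 (hX.subset (by simp))
    have nx3 := mX x3 (hX.subset (by simp))
    have ns1 := mS s1 (hS.subset (by simp))
    have ns2 := mS s2 (hS.subset (by simp))
    have ns3 := mS s3 (hS.subset (by simp))
    have nt1 := mS t1 (hS.subset (by simp))
    have nt2 := mS t2 (hS.subset (by simp))
    have nt3 := mS t3 (hS.subset (by simp))
    simp only [List.cons_append, List.nil_append, List.pairwise_cons, List.mem_cons,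
      List.mem_append, forall_eq_or_imp] at cX cS
    obtain ⟨⟨x12, x13, _⟩, ⟨x23, _⟩, _⟩ := cX
    obtain ⟨⟨a1, a2, a3, a4, a5, _⟩, ⟨b1', b2', b3', b4', _⟩, ⟨c1, c2, c3, _⟩, ⟨d1, d2, _⟩, ⟨e1, _⟩, _⟩ := cS
    have m1 : ((min x1 4, min s1 4, min t1 4) : ℤ × ℤ × ℤ) ∈ T0 := by
      simp only [T0, List.mem_filter, List.mem_product, Bool.and_eq_true, decide_eq_true_eq]
      refine ⟨⟨nx1, ns1, nt1⟩, ?_, a1⟩
      have := min_le_left x1 4; have := min_le_left s1 4; have := min_le_left t1 4
      omega
    have m2 : ((min x2 4, min s2 4, min t2 4) : ℤ × ℤ × ℤ) ∈ T0 := by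
      simp only [T0, List.mem_filter, List.mem_product, Bool.and_eq_true, decide_eq_true_eq]
      refine ⟨⟨nx2, ns2, nt2⟩, ?_, c1⟩
      have := min_le_left x2 4; have := min_le_left s2 4; have := min_le_left t2 4
      omega
    have m3 : ((min x3 4, min s3 4, min t3 4) : ℤ × ℤ × ℤ) ∈ T0 := by
      simp only [T0, List.mem_filter, List.mem_product, Bool.and_eq_true, decide_eq_true_eq]
      refine ⟨⟨nx3, ns3, nt3⟩, ?_, e1⟩
      have := min_le_left x3 4; have := min_le_left s3 4; have := min_le_left t3 4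
      omega
    have k1 : cmp0 (min x1 4, min s1 4, min t1 4) (min x2 4, min s2 4, min t2 4) = true := by
      simp only [cmp0, Bool.and_eq_true]; exact ⟨x12, ⟨⟨a2, a3⟩, b1'⟩, b2'⟩
    have k2 : cmp0 (min x1 4, min s1 4, min t1 4) (min x3 4, min s3 4, min t3 4) = true := by
      simp only [cmp0, Bool.and_eq_true]; exact ⟨x13, ⟨⟨a4, a5⟩, b3'⟩, b4'⟩
    have k3 : cmp0 (min x2 4, min s2 4, min t2 4) (min x3 4, min s3 4, min t3 4) = true := by
      simp only [cmp0, Bool.and_eq_true]; exact ⟨x23, ⟨⟨c2, c3⟩, d1⟩, d2⟩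
    have h := chk0_true
    simp only [chk0, List.all_eq_true] at h
    have h1 := h _ m1 _ m2
    rw [k1, Bool.not_true, Bool.false_or, List.all_eq_true] at h1
    have h2 := h1 _ m3
    rw [k2, k3] at h2
    exact absurd h2 (by decide)

theorem gad0_ok : gad0.Ok where
  hR := by decide
  hX := by decide
  hS := by decide
  hx := by decide
  hs := by decide
  lX := rfl
  lS := rfl
  hN := by decide
  good := gad0_good

/-- the sequence of nested gadgets -/
def gad : ℕ → Gad
  | 0 => gad0
  | n + 1 => (gad n).next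

theorem gad_ok : ∀ n, (gad n).Ok
  | 0 => gad0_ok
  | n + 1 => (gad_ok n).next

end Vale.Agent.P302
end

section
/-!
Nested gadgets of type (s, s, s).
-/

namespace Vale.Agent.P302

/-- At most `n - 1` disjoint feasible bins with three items of `V`. -/
def FB1 (V : List ℤ) (n : ℕ) : Prop :=
  ∀ bs : List (List ℤ), (∀ b ∈ bs, b.length = 3 ∧ b.sum ≤ 0) → bs.flatten.Subperm V → bs.length < n

structure Gad1 where
  V : List ℤ
  v0 : ℤ
  R : ℤ
  N : ℕ

structure Gad1.Ok (g : Gad1) : Prop where
  hR : 0 < g.R
  hV : ∀ v ∈ g.V, -g.R ≤ v ∧ v ≤ g.R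
  hv : -g.R ≤ g.v0 ∧ g.v0 ≤ g.R
  lV : g.V.length = 3 * g.N
  hN : 0 < g.N
  good : ∀ E : List ℤ, (∀ e ∈ E, g.v0 ≤ e) → FB1 (g.V ++ E) g.N

/-- the scale used in the recursion. -/
def Gad1.M (c : Gad1) (g : Gad) : ℤ := 4 * (g.R + c.R)

/-- the next gadget -/
def Gad1.next (c : Gad1) (g : Gad) : Gad1 where
  V := g.X.map (· + (-(8 * c.M g))) ++ g.S.map (· + 4 * c.M g) ++ c.V ++
    [c.v0, c.v0, -(3 * c.M g), -(3 * c.M g), g.x0 + (-(8 * c.M g)), g.s0 + 4 * c.M g]
  v0 := g.s0 + 4 * c.M g
  R := 9 * c.M g
  N := g.N + c.N + 2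

def uV (M v : ℤ) : ℕ := if v < -(5 * M) then 3 else if v < -M then 2 else if v < 2 * M then 1 else 0

def lowP (M v : ℤ) : Bool := decide (v < -(5 * M))
def topP (M v : ℤ) : Bool := decide (2 * M ≤ v)
def midP (M v : ℤ) : Bool := decide (-M ≤ v) && decide (v < 2 * M)

def qA (M : ℤ) (b : List ℤ) : Bool :=
  decide ((b.filter (lowP M)).length = 1) && decide ((b.filter (topP M)).length = 2)
def qB (M : ℤ) (b : List ℤ) : Bool := b.all (midP M)

theorem sum_ite_filter {α : Type*} (bs : List α) (p : α → Bool) :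
    (bs.map fun b => if p b then 1 else 0).sum = (bs.filter p).length := by
  rw [← List.countP_eq_length_filter]
  induction bs with
  | nil => simp
  | cons b bs ih => simp only [List.map_cons, List.sum_cons, ih, List.countP_cons]; ring

theorem sub_filter {α : Type*} (bs : List (List α)) (p : List α → Bool) (V : List α)
    (q : α → Bool) (hV : bs.flatten.Subperm V) :
    (((bs.filter p).map (List.filter q)).flatten).Subperm (V.filter q) := by
  have h1 : ((bs.filter p).flatten).Sublist bs.flatten := (List.filter_sublist).flatten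
  have h2 := (h1.subperm.trans hV).filter q
  rwa [List.filter_flatten] at h2

theorem map_flatten_map {α β : Type*} (f : α → β) (h : List α → List α) (bs : List (List α)) :
    (bs.map fun b => (h b).map f).flatten = ((bs.map h).flatten).map f := by
  rw [List.map_flatten, List.map_map]
  rfl

theorem Gad1.Ok.next_good {c : Gad1} {g : Gad} (hc : c.Ok) (hg : g.Ok) (E : List ℤ)
    (hE : ∀ e ∈ E, (c.next g).v0 ≤ e) : FB1 ((c.next g).V ++ E) (c.next g).N := by
  intro bs hbs hV
  obtain ⟨M, hM⟩ : ∃ M, M = c.M g := ⟨_, rfl⟩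
  have hM2 : M = 4 * (g.R + c.R) := hM
  have hR := hg.hR
  have hx := hg.hx
  have hs := hg.hs
  have hRc := hc.hR
  have hvc := hc.hv
  simp only [Gad1.next, ← hM] at hE hV ⊢
  set V' := g.X.map (· + (-(8 * M))) ++ g.S.map (· + 4 * M) ++ c.V ++
    [c.v0, c.v0, -(3 * M), -(3 * M), g.x0 + (-(8 * M)), g.s0 + 4 * M] ++ E with hV'
  have rV : ∀ v ∈ V', -(8 * M) - g.R ≤ v ∧ (-(5 * M) ≤ v → -(3 * M) ≤ v) ∧
      (-M ≤ v → -c.R ≤ v) ∧ (2 * M ≤ v → 4 * M - g.R ≤ v) := by
    intro v hv
    simp only [hV', List.mem_append, List.mem_map, List.mem_cons, List.not_mem_nil, or_false] at hv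
    rcases hv with ((((⟨w, hw, rfl⟩ | ⟨w, hw, rfl⟩) | hw) | rfl | rfl | rfl | rfl | rfl | rfl)) | hw
    · have := hg.hX w hw; refine ⟨?_, ?_, ?_, ?_⟩ <;> intros <;> omega
    · have := hg.hS w hw; refine ⟨?_, ?_, ?_, ?_⟩ <;> intros <;> omega
    · have := hc.hV v hw; refine ⟨?_, ?_, ?_, ?_⟩ <;> intros <;> omega
    · refine ⟨?_, ?_, ?_, ?_⟩ <;> intros <;> omega
    · refine ⟨?_, ?_, ?_, ?_⟩ <;> intros <;> omega
    · refine ⟨?_, ?_, ?_, ?_⟩ <;> intros <;> omega
    · refine ⟨?_, ?_, ?_, ?_⟩ <;> intros <;> omega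
    · refine ⟨?_, ?_, ?_, ?_⟩ <;> intros <;> omega
    · refine ⟨?_, ?_, ?_, ?_⟩ <;> intros <;> omega
    · have := hE v hw; refine ⟨?_, ?_, ?_, ?_⟩ <;> intros <;> omega
  have mV : ∀ b ∈ bs, ∀ v ∈ b, v ∈ V' := fun b hb v hv =>
    hV.subset (List.mem_flatten.mpr ⟨b, hb, hv⟩)
  have key : ∀ b ∈ bs, 4 ≤ (b.map (uV M)).sum +
      ((if qA M b then 1 else 0) + (if qB M b then 1 else 0)) := by
    intro b hb
    obtain ⟨h1, h3⟩ := hbs b hb
    obtain ⟨x, y, z, rfl⟩ := List.length_eq_three.mp h1
    have a1 := rV x (mV _ hb x (by simp))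
    have a2 := rV y (mV _ hb y (by simp))
    have a3 := rV z (mV _ hb z (by simp))
    simp only [List.sum_cons, List.sum_nil, add_zero] at h3
    by_cases hA : qA M [x, y, z] = true
    · have h4 : 3 ≤ (([x, y, z] : List ℤ).map (uV M)).sum := by
        simp only [qA, Bool.and_eq_true, decide_eq_true_eq] at hA
        obtain ⟨hA1, _⟩ := hA
        obtain ⟨w, hw⟩ := List.length_eq_one_iff.mp hA1
        have hw2 : w ∈ ([x, y, z] : List ℤ).filter (lowP M) := by rw [hw]; simp
        rw [List.mem_filter] at hw2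
        have hw3 : uV M w = 3 := by
          have := hw2.2
          simp only [lowP, decide_eq_true_eq] at this
          simp only [uV]; rw [if_pos this]
        have := List.single_le_sum (l := ([x, y, z] : List ℤ).map (uV M)) (fun _ _ => Nat.zero_le _) _
          (List.mem_map_of_mem hw2.1)
        omega
      rw [if_pos hA]; omega
    · by_cases hB : qB M [x, y, z] = true
      · have h4 : 3 ≤ (([x, y, z] : List ℤ).map (uV M)).sum := by
          simp only [qB, List.all_cons, List.all_nil, Bool.and_true, Bool.and_eq_true, midP,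
            decide_eq_true_eq] at hB
          simp only [List.map_cons, List.map_nil, List.sum_cons, List.sum_nil, uV]
          split_ifs <;> omega
        rw [if_pos hB]; omega
      · rw [if_neg hA, if_neg hB]
        simp only [qA, List.filter_cons, List.filter_nil, lowP, topP, Bool.and_eq_true,
          decide_eq_true_eq] at hA
        simp only [qB, List.all_cons, List.all_nil, Bool.and_true, Bool.and_eq_true, midP,
            decide_eq_true_eq] at hB
        simp only [List.map_cons, List.map_nil, List.sum_cons, List.sum_nil, uV]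
        by_cases x1 : x < -(5 * M)
        · by_cases y1 : y < -(5 * M)
          · simp only [x1, y1, if_true]; split_ifs <;> omega
          · by_cases z1 : z < -(5 * M)
            · simp only [x1, y1, z1, if_true, if_false]; split_ifs <;> omega
            · by_cases y2 : 2 * M ≤ y
              · by_cases z2 : 2 * M ≤ z
                · exfalso
                  apply hA
                  have x2 : ¬ 2 * M ≤ x := by omega
                  simp [x1, y1, z1, x2, y2, z2]
                · simp only [x1, y1, z1, if_true, if_false]; split_ifs <;> omega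
              · simp only [x1, y1, z1, if_true, if_false]; split_ifs <;> omega
        · by_cases y1 : y < -(5 * M)
          · by_cases z1 : z < -(5 * M)
            · simp only [x1, y1, z1, if_true, if_false]; split_ifs <;> omega
            · by_cases x2 : 2 * M ≤ x
              · by_cases z2 : 2 * M ≤ z
                · exfalso
                  apply hA
                  have y2 : ¬ 2 * M ≤ y := by omega
                  simp [x1, y1, z1, x2, y2, z2]
                · simp only [x1, y1, z1, if_true, if_false]; split_ifs <;> omega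
              · simp only [x1, y1, z1, if_true, if_false]; split_ifs <;> omega
          · by_cases z1 : z < -(5 * M)
            · by_cases x2 : 2 * M ≤ x
              · by_cases y2 : 2 * M ≤ y
                · exfalso
                  apply hA
                  have z2 : ¬ 2 * M ≤ z := by omega
                  simp [x1, y1, z1, x2, y2, z2]
                · simp only [x1, y1, z1, if_true, if_false]; split_ifs <;> omega
              · simp only [x1, y1, z1, if_true, if_false]; split_ifs <;> omega
            · simp only [x1, y1, z1, if_false]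
              split_ifs <;> omega
  have tot := sum_map_const_le bs _ 4 key
  rw [List.sum_map_add, List.sum_map_add] at tot
  have e1 : (bs.map fun b => (b.map (uV M)).sum).sum ≤ (V'.map (uV M)).sum := by
    have := subperm_map_sum_le (uV M) hV
    rwa [List.map_flatten, List.sum_flatten, List.map_map] at this
  rw [sum_ite_filter, sum_ite_filter] at tot
  have f1 : (V'.map (uV M)).sum = 3 * g.N + 3 * c.N + 9 := by
    have a1 : ((g.X.map (· + (-(8 * M)))).map (uV M)).sum = 3 * g.N := by
      rw [map_u_const (uV M) 3, List.length_map, hg.lX]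
      intro v hv
      obtain ⟨w, hw, rfl⟩ := List.mem_map.mp hv
      have := hg.hX w hw
      simp only [uV]; rw [if_pos (by omega)]
    have a2 : ((g.S.map (· + 4 * M)).map (uV M)).sum = 0 := by
      rw [map_u_const (uV M) 0, zero_mul]
      intro v hv
      obtain ⟨w, hw, rfl⟩ := List.mem_map.mp hv
      have := hg.hS w hw
      simp only [uV]; rw [if_neg (by omega), if_neg (by omega), if_neg (by omega)]
    have a3 : (c.V.map (uV M)).sum = 3 * c.N := by
      rw [map_u_const (uV M) 1, one_mul, hc.lV]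
      intro v hw
      have := hc.hV v hw
      simp only [uV]; rw [if_neg (by omega), if_neg (by omega), if_pos (by omega)]
    have a4 : (E.map (uV M)).sum = 0 := by
      rw [map_u_const (uV M) 0, zero_mul]
      intro v hw
      have := hE v hw
      simp only [uV]; rw [if_neg (by omega), if_neg (by omega), if_neg (by omega)]
    have b1 : uV M c.v0 = 1 := by
      simp only [uV]; rw [if_neg (by omega), if_neg (by omega), if_pos (by omega)]
    have b2 : uV M (-(3 * M)) = 2 := by
      simp only [uV]; rw [if_neg (by omega), if_pos (by omega)]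
    have b3 : uV M (g.x0 + (-(8 * M))) = 3 := by simp only [uV]; rw [if_pos (by omega)]
    have b4 : uV M (g.s0 + 4 * M) = 0 := by
      simp only [uV]; rw [if_neg (by omega), if_neg (by omega), if_neg (by omega)]
    simp only [hV', List.map_append, List.sum_append, a1, a2, a3, a4, List.map_cons, List.map_nil,
      List.sum_cons, List.sum_nil, b1, b2, b3, b4]
    omega
  have fA : (bs.filter (qA M)).length < g.N := by
    have c1 := sub_filter bs (qA M) V' (lowP M) hV
    have c2 := sub_filter bs (qA M) V' (topP M) hV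
    have d1 : V'.filter (lowP M) = (g.X ++ [g.x0]).map (· + (-(8 * M))) := by
      have b1 : (g.X.map (· + (-(8 * M)))).filter (lowP M) = g.X.map (· + (-(8 * M))) := by
        rw [List.filter_eq_self]
        intro v hv
        obtain ⟨w, hw, rfl⟩ := List.mem_map.mp hv
        have := hg.hX w hw
        rw [lowP, decide_eq_true_eq]; omega
      have b2 : (g.S.map (· + 4 * M)).filter (lowP M) = [] := by
        rw [List.filter_eq_nil_iff]
        intro v hv
        obtain ⟨w, hw, rfl⟩ := List.mem_map.mp hv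
        have := hg.hS w hw
        rw [lowP, decide_eq_true_eq]; omega
      have b3 : c.V.filter (lowP M) = [] := by
        rw [List.filter_eq_nil_iff]
        intro v hv
        have := hc.hV v hv
        rw [lowP, decide_eq_true_eq]; omega
      have b4 : E.filter (lowP M) = [] := by
        rw [List.filter_eq_nil_iff]
        intro v hv
        have := hE v hv
        rw [lowP, decide_eq_true_eq]; omega
      have b5 : lowP M c.v0 = false := by rw [lowP, decide_eq_false_iff_not]; omega
      have b6 : lowP M (-(3 * M)) = false := by rw [lowP, decide_eq_false_iff_not]; omega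
      have b7 : lowP M (g.x0 + (-(8 * M))) = true := by rw [lowP, decide_eq_true_eq]; omega
      have b8 : lowP M (g.s0 + 4 * M) = false := by rw [lowP, decide_eq_false_iff_not]; omega
      simp only [hV', List.filter_append, b1, b2, b3, b4, List.filter_cons, b5, b6, b7, b8,
        List.filter_nil, if_true, List.append_nil, List.map_append, List.map_cons, List.map_nil,
        Bool.false_eq_true, if_false]
    have d2 : V'.filter (topP M) = (g.S ++ ([g.s0] ++ E.map (· + (-(4 * M))))).map (· + 4 * M) := by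
      have b1 : (g.S.map (· + 4 * M)).filter (topP M) = g.S.map (· + 4 * M) := by
        rw [List.filter_eq_self]
        intro v hv
        obtain ⟨w, hw, rfl⟩ := List.mem_map.mp hv
        have := hg.hS w hw
        rw [topP, decide_eq_true_eq]; omega
      have b2 : (g.X.map (· + (-(8 * M)))).filter (topP M) = [] := by
        rw [List.filter_eq_nil_iff]
        intro v hv
        obtain ⟨w, hw, rfl⟩ := List.mem_map.mp hv
        have := hg.hX w hw
        rw [topP, decide_eq_true_eq]; omega
      have b3 : c.V.filter (topP M) = [] := by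
        rw [List.filter_eq_nil_iff]
        intro v hv
        have := hc.hV v hv
        rw [topP, decide_eq_true_eq]; omega
      have b4 : E.filter (topP M) = E := by
        rw [List.filter_eq_self]
        intro v hv
        have := hE v hv
        rw [topP, decide_eq_true_eq]; omega
      have b5 : topP M c.v0 = false := by rw [topP, decide_eq_false_iff_not]; omega
      have b6 : topP M (-(3 * M)) = false := by rw [topP, decide_eq_false_iff_not]; omega
      have b7 : topP M (g.x0 + (-(8 * M))) = false := by rw [topP, decide_eq_false_iff_not]; omega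
      have b8 : topP M (g.s0 + 4 * M) = true := by rw [topP, decide_eq_true_eq]; omega
      have b9 : (E.map (· + (-(4 * M)))).map (· + 4 * M) = E := by
        rw [List.map_map]
        conv_rhs => rw [← List.map_id E]
        apply List.map_congr_left
        intro v _
        simp
      simp only [hV', List.filter_append, b1, b2, b3, b4, List.filter_cons, b5, b6, b7, b8,
        List.filter_nil, if_true, List.append_nil, List.map_append, List.map_cons, List.map_nil,
        Bool.false_eq_true, if_false, b9, List.append_assoc, List.nil_append]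
    rw [d1] at c1
    rw [d2] at c2
    have := hg.good [g.x0] ([g.s0] ++ E.map (· + (-(4 * M)))) (by simp) (by
      intro e he
      rcases List.mem_append.mp he with he | he
      · simp only [List.mem_singleton] at he; omega
      · obtain ⟨w, hw, rfl⟩ := List.mem_map.mp he
        have := hE w hw
        omega) ((bs.filter (qA M)).map fun b =>
          ((b.filter (lowP M)).map (· + 8 * M), (b.filter (topP M)).map (· + (-(4 * M))))) ?_ ?_ ?_
    · rwa [List.length_map] at this
    · intro b hb
      obtain ⟨b', hb', rfl⟩ := List.mem_map.mp hb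
      rw [List.mem_filter] at hb'
      obtain ⟨h1, h3⟩ := hbs b' hb'.1
      have hA := hb'.2
      simp only [qA, Bool.and_eq_true, decide_eq_true_eq] at hA
      obtain ⟨hA1, hA2⟩ := hA
      dsimp only
      refine ⟨by rw [List.length_map, hA1], by rw [List.length_map, hA2], ?_⟩
      obtain ⟨x, y, z, rfl⟩ := List.length_eq_three.mp h1
      simp only [List.sum_cons, List.sum_nil, add_zero] at h3
      simp only [List.filter_cons, List.filter_nil, lowP, topP, decide_eq_true_eq] at hA1 hA2 ⊢
      by_cases x1 : x < -(5 * M) <;> by_cases y1 : y < -(5 * M) <;> by_cases z1 : z < -(5 * M) <;>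
      by_cases x2 : 2 * M ≤ x <;> by_cases y2 : 2 * M ≤ y <;> by_cases z2 : 2 * M ≤ z <;>
      first
      | (exfalso; omega)
      | (exfalso; simp [x1, y1, z1] at hA1; done)
      | (exfalso; simp [x2, y2, z2] at hA2; done)
      | (simp only [x1, y1, z1, x2, y2, z2, if_true, if_false, List.map_cons, List.map_nil,
          List.sum_cons, List.sum_nil]; omega)
    · rw [List.map_map]
      have e : (Prod.fst ∘ fun b : List ℤ => ((b.filter (lowP M)).map (· + 8 * M),
          (b.filter (topP M)).map (· + (-(4 * M))))) = fun b => (b.filter (lowP M)).map (· + 8 * M) := rfl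
      rw [e, map_flatten_map]
      have := c1.map (f := fun v : ℤ => v + 8 * M) (fun a b hab => by simpa using hab)
      refine this.trans (List.Perm.subperm ?_)
      rw [List.map_map]
      have : ((fun v : ℤ => v + 8 * M) ∘ fun x => x + (-(8 * M))) = id := by
        funext v; simp
      rw [this, List.map_id]
    · rw [List.map_map]
      have e : (Prod.snd ∘ fun b : List ℤ => ((b.filter (lowP M)).map (· + 8 * M),
          (b.filter (topP M)).map (· + (-(4 * M))))) = fun b => (b.filter (topP M)).map (· + (-(4 * M))) := rfl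
      rw [e, map_flatten_map]
      have := c2.map (f := fun v : ℤ => v + -(4 * M)) (fun a b hab => by simpa using hab)
      refine this.trans (List.Perm.subperm ?_)
      rw [List.map_map]
      have : ((fun v : ℤ => v + -(4 * M)) ∘ fun x => x + 4 * M) = id := by
        funext v; simp
      rw [this, List.map_id]
  have fB : (bs.filter (qB M)).length < c.N := by
    have c1 := sub_filter bs (qB M) V' (midP M) hV
    have d0 : (bs.filter (qB M)).map (List.filter (midP M)) = bs.filter (qB M) := by
      conv_rhs => rw [← List.map_id (bs.filter (qB M))]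
      apply List.map_congr_left
      intro b hb
      rw [List.mem_filter] at hb
      have := hb.2
      simp only [qB, List.all_eq_true] at this
      rw [id, List.filter_eq_self]
      exact this
    have d1 : V'.filter (midP M) = c.V ++ [c.v0, c.v0] := by
      have b1 : (g.X.map (· + (-(8 * M)))).filter (midP M) = [] := by
        rw [List.filter_eq_nil_iff]
        intro v hv
        obtain ⟨w, hw, rfl⟩ := List.mem_map.mp hv
        have := hg.hX w hw
        rw [midP, Bool.and_eq_true, decide_eq_true_eq, decide_eq_true_eq]; omega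
      have b2 : (g.S.map (· + 4 * M)).filter (midP M) = [] := by
        rw [List.filter_eq_nil_iff]
        intro v hv
        obtain ⟨w, hw, rfl⟩ := List.mem_map.mp hv
        have := hg.hS w hw
        rw [midP, Bool.and_eq_true, decide_eq_true_eq, decide_eq_true_eq]; omega
      have b3 : c.V.filter (midP M) = c.V := by
        rw [List.filter_eq_self]
        intro v hv
        have := hc.hV v hv
        rw [midP, Bool.and_eq_true, decide_eq_true_eq, decide_eq_true_eq]; omega
      have b4 : E.filter (midP M) = [] := by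
        rw [List.filter_eq_nil_iff]
        intro v hv
        have := hE v hv
        rw [midP, Bool.and_eq_true, decide_eq_true_eq, decide_eq_true_eq]; omega
      have b5 : midP M c.v0 = true := by
        rw [midP, Bool.and_eq_true, decide_eq_true_eq, decide_eq_true_eq]; omega
      have b6 : midP M (-(3 * M)) = false := by
        rw [midP, Bool.and_eq_false_iff, decide_eq_false_iff_not, decide_eq_false_iff_not]; omega
      have b7 : midP M (g.x0 + (-(8 * M))) = false := by
        rw [midP, Bool.and_eq_false_iff, decide_eq_false_iff_not, decide_eq_false_iff_not]; omega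
      have b8 : midP M (g.s0 + 4 * M) = false := by
        rw [midP, Bool.and_eq_false_iff, decide_eq_false_iff_not, decide_eq_false_iff_not]; omega
      simp only [hV', List.filter_append, b1, b2, b3, b4, List.filter_cons, b5, b6, b7, b8,
        List.filter_nil, if_true, List.append_nil, List.nil_append, Bool.false_eq_true, if_false]
    rw [d0, d1] at c1
    exact hc.good [c.v0, c.v0] (by simp) (bs.filter (qB M))
      (fun b hb => hbs b (List.mem_of_mem_filter hb)) c1
  rw [f1] at e1
  have := hg.hN
  have := hc.hN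
  omega

theorem Gad1.Ok.next {c : Gad1} {g : Gad} (hc : c.Ok) (hg : g.Ok) : (c.next g).Ok where
  hR := by
    have := hg.hR; have := hc.hR
    have hM : c.M g = 4 * (g.R + c.R) := rfl
    simp only [Gad1.next]; omega
  hV := by
    intro v hv
    have := hg.hR; have := hc.hR; have := hg.hx; have := hg.hs; have := hc.hv
    have hM : c.M g = 4 * (g.R + c.R) := rfl
    simp only [Gad1.next, List.mem_append, List.mem_map, List.mem_cons, List.not_mem_nil,
      or_false] at hv ⊢
    rcases hv with (((⟨w, hw, rfl⟩ | ⟨w, hw, rfl⟩) | hw) | rfl | rfl | rfl | rfl | rfl | rfl)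
    · have := hg.hX w hw; omega
    · have := hg.hS w hw; omega
    · have := hc.hV v hw; omega
    · omega
    · omega
    · omega
    · omega
    · omega
    · omega
  hv := by
    have := hg.hR; have := hc.hR; have := hg.hs
    have hM : c.M g = 4 * (g.R + c.R) := rfl
    simp only [Gad1.next]; omega
  lV := by
    simp only [Gad1.next, List.length_append, List.length_map, hg.lX, hg.lS, hc.lV,
      List.length_cons, List.length_nil]; omega
  hN := by simp only [Gad1.next]; omega
  good := fun E hE => hc.next_good hg E hE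

end Vale.Agent.P302
end

section
/-!
Base gadget of type (s, s, s), the sequences of gadgets and their fractional solutions.
-/

namespace Vale.Agent.P302

def V1 : List ℤ := [15, 7, 2, -4, -8, -15]

def T1 : List (ℤ × ℤ × ℤ) :=
  (V1 ×ˢ (V1 ×ˢ V1)).filter fun a => decide (a.1 + a.2.1 + a.2.2 ≤ 0) &&
    (okp 15 a.1 a.2.1 && okp 15 a.1 a.2.2 && okp 15 a.2.1 a.2.2)

def cmp1 (a b : ℤ × ℤ × ℤ) : Bool :=
  (okp 15 a.1 b.1 && okp 15 a.1 b.2.1 && okp 15 a.1 b.2.2) &&
  (okp 15 a.2.1 b.1 && okp 15 a.2.1 b.2.1 && okp 15 a.2.1 b.2.2) &&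
  (okp 15 a.2.2 b.1 && okp 15 a.2.2 b.2.1 && okp 15 a.2.2 b.2.2)

def chk1 : Bool := T1.all fun a => T1.all fun b => !(cmp1 a b)

theorem chk1_true : chk1 = true := by decide +kernel

theorem gadc0_good (E : List ℤ) (hE : ∀ e ∈ E, (15 : ℤ) ≤ e) : FB1 (V1 ++ E) 2 := by
  intro bs hbs hV
  by_contra hlen
  rw [not_lt] at hlen
  match bs, hlen with
  | b1 :: b2 :: rest, _ =>
    obtain ⟨q1, r1⟩ := hbs b1 (by simp)
    obtain ⟨q2, r2⟩ := hbs b2 (by simp)
    obtain ⟨x1, y1, z1, hs1⟩ := List.length_eq_three.mp q1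
    obtain ⟨x2, y2, z2, hs2⟩ := List.length_eq_three.mp q2
    simp only [List.flatten_cons, hs1, hs2] at hV
    simp only [hs1, List.sum_cons, List.sum_nil, add_zero] at r1
    simp only [hs2, List.sum_cons, List.sum_nil, add_zero] at r2
    have mV : ∀ v ∈ V1 ++ E, min v 15 ∈ V1 := fun v hv =>
      clamp_mem (by decide) (by decide) hE hv
    have cV := clamp_pairwise (L := V1) (τ := 15) (by decide) (by decide) hE hV
    have nx1 := mV x1 (hV.subset (by simp))
    have ny1 := mV y1 (hV.subset (by simp))
    have nz1 := mV z1 (hV.subset (by simp))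
    have nx2 := mV x2 (hV.subset (by simp))
    have ny2 := mV y2 (hV.subset (by simp))
    have nz2 := mV z2 (hV.subset (by simp))
    simp only [List.cons_append, List.nil_append, List.pairwise_cons, List.mem_cons,
      List.mem_append, forall_eq_or_imp] at cV
    obtain ⟨⟨a1, a2, a3, a4, a5, _⟩, ⟨b1', b2', b3', b4', _⟩, ⟨c1, c2, c3, _⟩, ⟨d1, d2, _⟩, ⟨e1, _⟩, _⟩ := cV
    have m1 : ((min x1 15, min y1 15, min z1 15) : ℤ × ℤ × ℤ) ∈ T1 := by
      simp only [T1, List.mem_filter, List.mem_product, Bool.and_eq_true, decide_eq_true_eq]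
      refine ⟨⟨nx1, ny1, nz1⟩, ?_, ⟨⟨a1, a2⟩, b1'⟩⟩
      have := min_le_left x1 15; have := min_le_left y1 15; have := min_le_left z1 15
      omega
    have m2 : ((min x2 15, min y2 15, min z2 15) : ℤ × ℤ × ℤ) ∈ T1 := by
      simp only [T1, List.mem_filter, List.mem_product, Bool.and_eq_true, decide_eq_true_eq]
      refine ⟨⟨nx2, ny2, nz2⟩, ?_, ⟨⟨d1, d2⟩, e1⟩⟩
      have := min_le_left x2 15; have := min_le_left y2 15; have := min_le_left z2 15
      omega
    have k1 : cmp1 (min x1 15, min y1 15, min z1 15) (min x2 15, min y2 15, min z2 15) = true := by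
      simp only [cmp1, Bool.and_eq_true]
      exact ⟨⟨⟨⟨a3, a4⟩, a5⟩, ⟨⟨b2', b3'⟩, b4'⟩⟩, ⟨⟨c1, c2⟩, c3⟩⟩
    have h := chk1_true
    simp only [chk1, List.all_eq_true] at h
    have h1 := h _ m1 _ m2
    rw [k1] at h1
    exact absurd h1 (by decide)

def gadc0 : Gad1 := ⟨V1, 15, 15, 2⟩

theorem gadc0_ok : gadc0.Ok where
  hR := by decide
  hV := by decide
  hv := by decide
  lV := rfl
  hN := by decide
  good := gadc0_good

def gadc (n : ℕ) : ℕ → Gad1
  | 0 => gadc0
  | k + 1 => (gadc n k).next (gad n)

theorem gadc_ok (n : ℕ) : ∀ k, (gadc n k).Ok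
  | 0 => gadc0_ok
  | k + 1 => (gadc_ok n k).next (gad_ok n)

/-! ### fractional solutions -/

/-- multiplicity of `a` in `l` -/
def cnt {α : Type*} [DecidableEq α] (l : List α) (a : α) : ℕ := l.count a

theorem cnt_append {α : Type*} [DecidableEq α] (l m : List α) (a : α) :
    cnt (l ++ m) a = cnt l a + cnt m a := List.count_append

theorem cnt_cons {α : Type*} [DecidableEq α] (b : α) (l : List α) (a : α) :
    cnt (b :: l) a = cnt l a + if b = a then 1 else 0 := by
  simp only [cnt, List.count_cons, beq_iff_eq]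

/-- indicator -/
noncomputable def ind {α : Type*} [DecidableEq α] (a b : α) : ℝ := if a = b then 1 else 0

theorem ccnt_cons {α : Type*} [DecidableEq α] (b : α) (l : List α) (a : α) :
    (cnt (b :: l) a : ℝ) = cnt l a + ind b a := by
  rw [cnt_cons, ind]; push_cast; rfl

theorem ccnt_append {α : Type*} [DecidableEq α] (l m : List α) (a : α) :
    (cnt (l ++ m) a : ℝ) = cnt l a + cnt m a := by
  rw [cnt_append]; push_cast; rfl

theorem ind_shift (a c v : ℤ) : ind a (v - c) = ind (a + c) v := by
  unfold ind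
  congr 1
  rw [eq_iff_iff]
  constructor <;> intro h <;> omega

theorem cnt_nil {α : Type*} [DecidableEq α] (a : α) : cnt ([] : List α) a = 0 := rfl

theorem cnt_map {α β : Type*} [DecidableEq α] [DecidableEq β] {f : α → β}
    (hf : Function.Injective f) (l : List α) (a : α) : cnt (l.map f) (f a) = cnt l a :=
  List.count_map_of_injective _ _ hf _

theorem cnt_eq_zero {α : Type*} [DecidableEq α] {l : List α} {a : α} (h : a ∉ l) : cnt l a = 0 :=
  List.count_eq_zero.mpr h

/-- coverage of `a` by a weighted list of patterns -/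
noncomputable def cov {α : Type*} [DecidableEq α] (F : List (List α × ℝ)) (a : α) : ℝ :=
  (F.map fun p => (cnt p.1 a : ℝ) * p.2).sum

noncomputable def tot {α : Type*} (F : List (List α × ℝ)) : ℝ := (F.map Prod.snd).sum

theorem cov_nil {α : Type*} [DecidableEq α] (a : α) : cov ([] : List (List α × ℝ)) a = 0 := rfl

theorem cov_cons {α : Type*} [DecidableEq α] (p : List α × ℝ) (F : List (List α × ℝ)) (a : α) :
    cov (p :: F) a = (cnt p.1 a : ℝ) * p.2 + cov F a := by
  simp [cov]

theorem cov_append {α : Type*} [DecidableEq α] (F G : List (List α × ℝ)) (a : α) :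
    cov (F ++ G) a = cov F a + cov G a := by
  simp [cov]

theorem tot_append {α : Type*} (F G : List (List α × ℝ)) : tot (F ++ G) = tot F + tot G := by
  simp [tot]

theorem tot_cons {α : Type*} (p : List α × ℝ) (F : List (List α × ℝ)) :
    tot (p :: F) = p.2 + tot F := by
  simp [tot]

theorem tot_nil {α : Type*} : tot ([] : List (List α × ℝ)) = 0 := rfl

/-- apply a map to all items of all patterns -/
def mp {α β : Type*} (f : α → β) (F : List (List α × ℝ)) : List (List β × ℝ) :=
  F.map fun p => (p.1.map f, p.2)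

theorem tot_mp {α β : Type*} (f : α → β) (F : List (List α × ℝ)) : tot (mp f F) = tot F := by
  simp [tot, mp, Function.comp_def]

theorem mem_mp {α β : Type*} {f : α → β} {F : List (List α × ℝ)} {p : List β × ℝ}
    (h : p ∈ mp f F) : ∃ p' ∈ F, p = (p'.1.map f, p'.2) := by
  obtain ⟨p', h1, h2⟩ := List.mem_map.mp h
  exact ⟨p', h1, h2.symm⟩

/-- an item of the labelled instance: `true` marks the big item of a pattern. -/
abbrev BZ := Bool × ℤ

def fB (a b : ℤ) (z : BZ) : BZ := (z.1, z.2 + (if z.1 then a else b))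

theorem fB_inj (a b : ℤ) : Function.Injective (fB a b) := by
  rintro ⟨p, x⟩ ⟨q, y⟩ h
  simp only [fB, Prod.mk.injEq] at h
  obtain ⟨rfl, h2⟩ := h
  have : x = y := by linarith
  rw [this]

theorem cov_mp {α β : Type*} [DecidableEq α] [DecidableEq β] {f : α → β} (hf : Function.Injective f)
    (F : List (List α × ℝ)) (a : α) : cov (mp f F) (f a) = cov F a := by
  unfold cov mp
  rw [List.map_map]
  congr 1
  apply List.map_congr_left
  intro p _
  simp only [Function.comp_apply]
  rw [cnt_map hf]

/-- the items of a gadget -/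
def Gad.items (g : Gad) : List BZ := g.X.map (fun v => (true, v)) ++ g.S.map (fun v => (false, v))

def PX (x s t : ℤ) : List BZ := [(true, x), (false, s), (false, t)]

noncomputable def F0 : List (List BZ × ℝ) :=
  [(PX (-4) 4 0, 1/2), (PX 1 (-1) (-1), 1/2), (PX 4 (-2) (-2), 1/2), (PX (-4) 2 2, 1/2),
    (PX 1 4 (-5), 1/2), (PX 4 0 (-5), 1/2)]

noncomputable def th : ℕ → ℝ
  | 0 => 0
  | n + 1 => (1 + 2 * th n) / 3

noncomputable def FF : ℕ → List (List BZ × ℝ)
  | 0 => F0
  | n + 1 =>
    let g := gad n
    let M := 4 * g.R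
    mp (fB (-(8 * M)) (4 * M)) (FF n) ++ FF n ++
      [(PX (g.x0 + (-(8 * M))) g.s0 (g.s0 + 4 * M), 1 - th n),
       (PX (-(2 * M)) g.s0 g.s0, (1 - th n) / 3),
       (PX (-(2 * M)) (-(3 * M)) (g.s0 + 4 * M), (2 + th n) / 3),
       (PX g.x0 (-(3 * M)) g.s0, (1 - th n) / 3)]

theorem th_eq (n : ℕ) : th n = 1 - (2 / 3) ^ n := by
  induction n with
  | zero => simp [th]
  | succ n ih => simp only [th, ih, pow_succ]; ring

theorem th_nonneg (n : ℕ) : 0 ≤ th n := by
  rw [th_eq]
  have : (2 / 3 : ℝ) ^ n ≤ 1 := pow_le_one₀ (by norm_num) (by norm_num)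
  linarith

theorem th_le_one (n : ℕ) : th n ≤ 1 := by
  rw [th_eq]
  have : (0 : ℝ) ≤ (2 / 3 : ℝ) ^ n := by positivity
  linarith

/-- good patterns of type (x, s, s) -/
def goodP (p : List BZ) : Prop := (p.map Prod.fst).Perm [true, false, false] ∧
  (p.map Prod.snd).sum ≤ 0

theorem FF_good (n : ℕ) : ∀ p ∈ FF n, goodP p.1 ∧ 0 ≤ p.2 := by
  induction n with
  | zero =>
    intro p hp
    simp only [FF, F0, List.mem_cons, List.not_mem_nil, or_false] at hp
    rcases hp with rfl | rfl | rfl | rfl | rfl | rfl <;>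
    exact ⟨⟨by simp [PX], by simp [PX]⟩, by norm_num⟩
  | succ n ih =>
    intro p hp
    have hR := (gad_ok n).hR
    have hx := (gad_ok n).hx
    have hs := (gad_ok n).hs
    have h0 := th_nonneg n
    have h1 := th_le_one n
    simp only [FF, List.mem_append, List.mem_cons, List.not_mem_nil, or_false] at hp
    rcases hp with (hp | hp) | rfl | rfl | rfl | rfl
    · obtain ⟨p', hp', rfl⟩ := mem_mp hp
      obtain ⟨⟨g1, g2⟩, g3⟩ := ih p' hp'
      refine ⟨⟨?_, ?_⟩, g3⟩
      · dsimp only
        rw [List.map_map]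
        exact g1
      · dsimp only
        rw [List.map_map]
        have e : (p'.1.map (Prod.snd ∘ fB (-(8 * (4 * (gad n).R))) (4 * (4 * (gad n).R)))).sum =
            (p'.1.map Prod.snd).sum + ((p'.1.map Prod.fst).map fun b : Bool =>
              if b then (-(8 * (4 * (gad n).R))) else (4 * (4 * (gad n).R))).sum := by
          rw [List.map_map, ← List.sum_map_add]
          rfl
        rw [e, (g1.map _).sum_eq]
        simp only [List.map_cons, List.map_nil, List.sum_cons, List.sum_nil, if_true,
          Bool.false_eq_true, if_false]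
        omega
    · exact ih p hp
    · exact ⟨⟨by simp [PX], by simp only [PX, List.map_cons, List.map_nil, List.sum_cons, List.sum_nil]; omega⟩, by linarith⟩
    · exact ⟨⟨by simp [PX], by simp only [PX, List.map_cons, List.map_nil, List.sum_cons, List.sum_nil]; omega⟩, by linarith⟩
    · exact ⟨⟨by simp [PX], by simp only [PX, List.map_cons, List.map_nil, List.sum_cons, List.sum_nil]; omega⟩, by linarith⟩
    · exact ⟨⟨by simp [PX], by simp only [PX, List.map_cons, List.map_nil, List.sum_cons, List.sum_nil]; omega⟩, by linarith⟩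

theorem FF_tot (n : ℕ) : tot (FF n) = (gad n).N + th n := by
  induction n with
  | zero => simp only [FF, F0, tot_cons, tot_nil, gad, gad0, th]; norm_num
  | succ n ih =>
    simp only [FF, tot_append, tot_mp, tot_cons, tot_nil, gad, Gad.next, th, ih]
    push_cast
    ring

theorem cnt_items_true (g : Gad) (v : ℤ) : cnt g.items (true, v) = cnt g.X v := by
  rw [Gad.items, cnt_append,
    cnt_map (f := fun v : ℤ => ((true, v) : BZ)) (fun a b h => by simpa using h) g.X v,
    cnt_eq_zero (l := g.S.map _) (by simp), add_zero]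

theorem cnt_items_false (g : Gad) (v : ℤ) : cnt g.items (false, v) = cnt g.S v := by
  rw [Gad.items, cnt_append,
    cnt_map (f := fun v : ℤ => ((false, v) : BZ)) (fun a b h => by simpa using h) g.S v,
    cnt_eq_zero (l := g.X.map _) (by simp), zero_add]

theorem cnt_shift (l : List ℤ) (a v : ℤ) : cnt (l.map (· + a)) v = cnt l (v - a) := by
  have := cnt_map (f := (· + a)) (fun x y h => by simpa using h) l (v - a)
  simpa using this

theorem ind_tt (x v : ℤ) : ind ((true, x) : BZ) (true, v) = ind x v := by simp [ind]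
theorem ind_ff (x v : ℤ) : ind ((false, x) : BZ) (false, v) = ind x v := by simp [ind]
theorem ind_tf (x v : ℤ) : ind ((true, x) : BZ) (false, v) = 0 := by simp [ind]
theorem ind_ft (x v : ℤ) : ind ((false, x) : BZ) (true, v) = 0 := by simp [ind]

theorem cnt_PX_true (x s t v : ℤ) : (cnt (PX x s t) (true, v) : ℝ) = ind x v := by
  simp only [PX, ccnt_cons, cnt_nil, ind_tt, ind_ft]
  push_cast
  ring

theorem cnt_PX_false (x s t v : ℤ) : (cnt (PX x s t) (false, v) : ℝ) = ind s v + ind t v := by
  simp only [PX, ccnt_cons, cnt_nil, ind_tf, ind_ff]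
  push_cast
  ring

theorem cov_fB_true (a b : ℤ) (F : List (List BZ × ℝ)) (v : ℤ) :
    cov (mp (fB a b) F) (true, v) = cov F (true, v - a) := by
  rw [← cov_mp (fB_inj a b) F (true, v - a)]
  simp [fB]

theorem cov_fB_false (a b : ℤ) (F : List (List BZ × ℝ)) (v : ℤ) :
    cov (mp (fB a b) F) (false, v) = cov F (false, v - b) := by
  rw [← cov_mp (fB_inj a b) F (false, v - b)]
  simp [fB]

theorem FF_cov_true (n : ℕ) : ∀ v : ℤ, cov (FF n) (true, v) =
    (cnt (gad n).X v : ℝ) + th n * ind (gad n).x0 v := by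
  induction n with
  | zero =>
    intro v
    simp only [FF, F0, cov_cons, cov_nil, cnt_PX_true, gad, gad0, X0, th, ccnt_cons, cnt_nil]
    push_cast
    ring
  | succ n ih =>
    intro v
    simp only [FF, cov_append, cov_fB_true, cov_cons, cov_nil, cnt_PX_true, ih, gad, Gad.next,
      ccnt_append, cnt_shift, ccnt_cons, cnt_nil, th, ind_shift]
    push_cast
    ring

theorem FF_cov_false (n : ℕ) : ∀ v : ℤ, cov (FF n) (false, v) =
    (cnt (gad n).S v : ℝ) + 2 * th n * ind (gad n).s0 v := by
  induction n with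
  | zero =>
    intro v
    simp only [FF, F0, cov_cons, cov_nil, cnt_PX_false, gad, gad0, S0, th, ccnt_cons, cnt_nil]
    push_cast
    ring
  | succ n ih =>
    intro v
    simp only [FF, cov_append, cov_fB_false, cov_cons, cov_nil, cnt_PX_false, ih, gad, Gad.next,
      ccnt_append, cnt_shift, ccnt_cons, cnt_nil, th, ind_shift]
    push_cast
    ring

end Vale.Agent.P302
end

section
/-!
Fractional solutions of the gadgets of type (s, s, s).
-/

namespace Vale.Agent.P302

def fV (M : ℤ) (z : BZ) : ℤ := z.2 + (if z.1 then (-(8 * M)) else 4 * M)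

theorem cnt_fV (M : ℤ) (l : List BZ) (v : ℤ) :
    cnt (l.map (fV M)) v = cnt l (true, v - -(8 * M)) + cnt l (false, v - 4 * M) := by
  induction l with
  | nil => simp [cnt_nil]
  | cons a l ih =>
    obtain ⟨b, x⟩ := a
    rw [List.map_cons, cnt_cons, cnt_cons, cnt_cons, ih]
    cases b with
    | true =>
      have e1 : (fV M (true, x) = v) ↔ ((true, x) = ((true, v - -(8 * M)) : BZ)) := by
        simp only [fV, if_true, Prod.mk.injEq, true_and]
        constructor <;> intro h <;> omega
      have e2 : ¬ ((true, x) = ((false, v - 4 * M) : BZ)) := by simp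
      simp only [e1, e2, if_false]
      ring
    | false =>
      have e1 : (fV M (false, x) = v) ↔ ((false, x) = ((false, v - 4 * M) : BZ)) := by
        simp only [fV, Bool.false_eq_true, if_false, Prod.mk.injEq, true_and]
        constructor <;> intro h <;> omega
      have e2 : ¬ ((false, x) = ((true, v - -(8 * M)) : BZ)) := by simp
      simp only [e1, e2, if_false]
      ring

theorem cov_fV (M : ℤ) (F : List (List BZ × ℝ)) (v : ℤ) :
    cov (mp (fV M) F) v = cov F (true, v - -(8 * M)) + cov F (false, v - 4 * M) := by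
  induction F with
  | nil => simp [mp, cov_nil]
  | cons p F ih =>
    have e : mp (fV M) (p :: F) = (p.1.map (fV M), p.2) :: mp (fV M) F := rfl
    rw [e, cov_cons, cov_cons, cov_cons, ih, cnt_fV]
    push_cast
    ring

noncomputable def tc (n : ℕ) : ℕ → ℝ
  | 0 => 0
  | k + 1 => (1 + tc n k + th n) / 4

noncomputable def G0 : List (List ℤ × ℝ) :=
  [([2, 2, -4], 1/2), ([7, 7, -15], 1/2), ([15, -8, -8], 1/2), ([15, -4, -15], 1/2)]

noncomputable def GG (n : ℕ) : ℕ → List (List ℤ × ℝ)
  | 0 => G0
  | k + 1 =>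
    let c := gadc n k
    let g := gad n
    let M := c.M g
    mp (fV M) (FF n) ++ GG n k ++
      [([c.v0, g.x0 + (-(8 * M)), g.s0 + 4 * M], 1 - th n),
       ([c.v0, c.v0, -(3 * M)], (1 + th n - 3 * tc n k) / 2),
       ([-(3 * M), -(3 * M), g.s0 + 4 * M], 1 - (1 + th n - 3 * tc n k) / 4)]

theorem tc_eq (n k : ℕ) : tc n k = (1 + th n) / 3 * (1 - (1 / 4) ^ k) := by
  induction k with
  | zero => simp [tc]
  | succ n ih => simp only [tc, ih, pow_succ]; ring

theorem tc_nonneg (n k : ℕ) : 0 ≤ tc n k := by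
  rw [tc_eq]
  have h1 := th_nonneg n
  have : (1 / 4 : ℝ) ^ k ≤ 1 := pow_le_one₀ (by norm_num) (by norm_num)
  have h2 : (0 : ℝ) ≤ 1 - (1 / 4) ^ k := by linarith
  positivity

theorem tc_le (n k : ℕ) : 3 * tc n k ≤ 1 + th n := by
  rw [tc_eq]
  have h1 := th_nonneg n
  have : (0 : ℝ) ≤ (1 / 4 : ℝ) ^ k := by positivity
  nlinarith

theorem tc_le' (n k : ℕ) : tc n k ≤ 2 / 3 := by
  have h1 := th_le_one n
  have h2 := tc_le n k
  linarith

theorem GG_good (n k : ℕ) : ∀ p ∈ GG n k, p.1.length = 3 ∧ p.1.sum ≤ 0 ∧ 0 ≤ p.2 := by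
  induction k with
  | zero =>
    intro p hp
    simp only [GG, G0, List.mem_cons, List.not_mem_nil, or_false] at hp
    rcases hp with rfl | rfl | rfl | rfl <;>
    exact ⟨by simp, by simp, by norm_num⟩
  | succ k ih =>
    intro p hp
    have hR := (gad_ok n).hR
    have hx := (gad_ok n).hx
    have hs := (gad_ok n).hs
    have hRc := (gadc_ok n k).hR
    have hv := (gadc_ok n k).hv
    have h0 := th_nonneg n
    have h1 := th_le_one n
    have h2 := tc_nonneg n k
    have h3 := tc_le n k
    have hM : (gadc n k).M (gad n) = 4 * ((gad n).R + (gadc n k).R) := rfl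
    simp only [GG, List.mem_append, List.mem_cons, List.not_mem_nil, or_false] at hp
    rcases hp with (hp | hp) | rfl | rfl | rfl
    · obtain ⟨p', hp', rfl⟩ := mem_mp hp
      obtain ⟨⟨g1, g2⟩, g3⟩ := FF_good n p' hp'
      refine ⟨?_, ?_, g3⟩
      · have := g1.length_eq
        rw [List.length_map] at this
        rw [List.length_map, this]; rfl
      · dsimp only
        have e : (p'.1.map (fV ((gadc n k).M (gad n)))).sum =
            (p'.1.map Prod.snd).sum + ((p'.1.map Prod.fst).map fun b : Bool =>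
              if b then (-(8 * ((gadc n k).M (gad n)))) else (4 * ((gadc n k).M (gad n)))).sum := by
          rw [List.map_map, ← List.sum_map_add]
          rfl
        rw [e, (g1.map _).sum_eq]
        simp only [List.map_cons, List.map_nil, List.sum_cons, List.sum_nil, if_true,
          Bool.false_eq_true, if_false]
        omega
    · exact ih p hp
    · exact ⟨by simp, by simp only [List.sum_cons, List.sum_nil]; omega, by linarith⟩
    · exact ⟨by simp, by simp only [List.sum_cons, List.sum_nil]; omega, by linarith⟩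
    · exact ⟨by simp, by simp only [List.sum_cons, List.sum_nil]; omega, by linarith⟩

theorem GG_tot (n k : ℕ) : tot (GG n k) = (gadc n k).N + tc n k := by
  induction k with
  | zero => simp only [GG, G0, tot_cons, tot_nil, gadc, gadc0, tc]; norm_num
  | succ k ih =>
    simp only [GG, tot_append, tot_mp, tot_cons, tot_nil, gadc, Gad1.next, tc, ih, FF_tot]
    push_cast
    ring

theorem GG_cov (n k : ℕ) : ∀ v : ℤ, cov (GG n k) v =
    (cnt (gadc n k).V v : ℝ) + 3 * tc n k * ind (gadc n k).v0 v := by
  induction k with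
  | zero =>
    intro v
    simp only [GG, G0, cov_cons, cov_nil, gadc, gadc0, V1, tc, ccnt_cons, cnt_nil]
    push_cast
    ring
  | succ k ih =>
    intro v
    simp only [GG, cov_append, cov_fV, cov_cons, cov_nil, ih, gadc, Gad1.next,
      ccnt_append, cnt_shift, ccnt_cons, cnt_nil, tc, FF_cov_true, FF_cov_false, ind_shift]
    push_cast
    ring

end Vale.Agent.P302
end

section
/-!
The lower bound for the number of bins.
-/

namespace Vale.Agent.P302

/-- labelled items: main size and perturbation -/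
abbrev It := ℕ × ℤ

structure Pk where
  T : List ℕ
  I : List It
  N : ℕ
  θ : ℝ
  R : ℤ
  F : List (List It × ℝ)
  eps : ℕ

structure Pk.Ok (lab : ℕ → ℤ) (g : Pk) : Prop where
  hI : ∀ a ∈ g.I, a.1 ∈ g.T ∧ -g.R ≤ a.2 ∧ a.2 ≤ g.R
  hT : ∀ t ∈ g.T, -g.R ≤ lab t ∧ lab t ≤ g.R
  hW : ∀ w : ℕ → ℕ, (g.I.map fun a => w a.1).sum = g.N * (g.T.map w).sum
  hN : 0 < g.N
  few : ∀ E : List It, (∀ a ∈ E, a.1 ∈ g.T → lab a.1 ≤ a.2) → ∀ bs : List (List It),
    (∀ b ∈ bs, (b.map Prod.fst).Perm g.T ∧ (b.map Prod.snd).sum ≤ 0) →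
    bs.flatten.Subperm (g.I ++ E) → bs.length < g.N
  hF : ∀ p ∈ g.F, (p.1.map Prod.fst).Perm g.T ∧ (p.1.map Prod.snd).sum ≤ 0 ∧ 0 ≤ p.2
  hFb : ∀ p ∈ g.F, ∀ a ∈ p.1, -g.R ≤ a.2 ∧ a.2 ≤ g.R
  hcov : ∀ a : It, (cnt g.I a : ℝ) + g.θ * (cnt g.T a.1) * ind (lab a.1) a.2 ≤ cov g.F a
  htot : tot g.F ≤ g.N + g.θ

/-- the items of an instance -/
def items (lab : ℕ → ℤ) (gs : List Pk) (core : List ℕ) : List It :=
  (gs.map Pk.I).flatten ++ core.map fun t => (t, lab t)

/-- the size of an item -/
def sz (S : ℕ) (a : It) : ℕ := ((a.1 : ℤ) * S + a.2).toNat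

theorem lift_perm {β : Type*} [DecidableEq β] (f : β → ℕ) : ∀ (m : List ℕ) (l : List β),
    (l.map f).Perm m → ∃ l', l.Perm l' ∧ l'.map f = m := by
  intro m
  induction m with
  | nil =>
    intro l h
    have := h.eq_nil
    rw [List.map_eq_nil_iff] at this
    subst this
    exact ⟨[], List.Perm.refl _, rfl⟩
  | cons a m ih =>
    intro l h
    have ha : a ∈ l.map f := h.symm.subset (by simp)
    obtain ⟨b, hb, rfl⟩ := List.mem_map.mp ha
    have hp := List.perm_cons_erase hb
    have h2 : ((l.erase b).map f).Perm m := by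
      have := (hp.map f).symm.trans h
      rw [List.map_cons] at this
      exact this.cons_inv
    obtain ⟨l', g1, g2⟩ := ih _ h2
    exact ⟨b :: l', hp.trans (g1.cons b), by rw [List.map_cons, g2]⟩

theorem labelled_bins {β : Type*} [DecidableEq β] (f : β → ℕ) {C : ℕ} : ∀ (k : ℕ) (l : List β),
    PackN C k (l.map f) → ∃ bs : List (List β), bs.length = k ∧ l.Perm bs.flatten ∧
      ∀ b ∈ bs, (b.map f).sum ≤ C := by
  intro k
  induction k with
  | zero =>
    intro l h
    simp only [PackN, List.map_eq_nil_iff] at h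
    subst h
    exact ⟨[], rfl, by simp, by simp⟩
  | succ k ih =>
    intro l h
    obtain ⟨A, B, h1, h2, h3⟩ := h
    obtain ⟨l', g1, g2⟩ := lift_perm f _ l h1
    obtain ⟨A', B', rfl, hA, hB⟩ := List.map_eq_append_iff.mp g2
    subst hA hB
    obtain ⟨bs, e1, e2, e3⟩ := ih B' h3
    refine ⟨A' :: bs, by simp [e1], ?_, ?_⟩
    · rw [List.flatten_cons]
      exact g1.trans (e2.append_left A')
    · intro D hD
      rcases List.mem_cons.mp hD with rfl | hD
      · exact h2
      · exact e3 D hD

theorem sum_sz {S : ℕ} {R : ℤ} (hR : 0 ≤ R) (hRS : R < S) (b : List It)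
    (hb : ∀ a ∈ b, 0 < a.1 ∧ -R ≤ a.2 ∧ a.2 ≤ R) :
    ((b.map (sz S)).sum : ℤ) = ((b.map Prod.fst).sum : ℤ) * S + (b.map Prod.snd).sum ∧
      -(((b.map Prod.fst).sum : ℤ) * R) ≤ (b.map Prod.snd).sum ∧
      (b.map Prod.snd).sum ≤ ((b.map Prod.fst).sum : ℤ) * R := by
  induction b with
  | nil => simp
  | cons a b ih =>
    obtain ⟨h1, h2, h2'⟩ := ih (fun c hc => hb c (List.mem_cons_of_mem _ hc))
    obtain ⟨h3, h4, h5⟩ := hb a (by simp)
    have h3' : (1 : ℤ) ≤ a.1 := by exact_mod_cast h3
    have hsz : ((sz S a : ℕ) : ℤ) = (a.1 : ℤ) * S + a.2 := by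
      unfold sz
      rw [Int.toNat_of_nonneg]
      nlinarith
    simp only [List.map_cons, List.sum_cons, Nat.cast_add]
    rw [hsz, h1]
    have h6 : 0 ≤ ((a.1 : ℤ) - 1) * R := mul_nonneg (by linarith) hR
    refine ⟨by ring, by linarith, by linarith⟩

/-- properties of feasible bins -/
theorem bin_types {S L : ℕ} {R : ℤ} (hR : 0 ≤ R) (hS : ((L : ℤ) + 1) * R < S) (b : List It)
    (hb : ∀ a ∈ b, 0 < a.1 ∧ -R ≤ a.2 ∧ a.2 ≤ R) (hsum : (b.map (sz S)).sum ≤ L * S) :
    (b.map Prod.fst).sum ≤ L ∧ ((b.map Prod.fst).sum = L → (b.map Prod.snd).sum ≤ 0) := by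
  have hL : (0 : ℤ) ≤ L := by positivity
  have hRS : R < S := by nlinarith
  obtain ⟨h1, h2, _⟩ := sum_sz hR hRS b hb
  have hsum' : ((b.map (sz S)).sum : ℤ) ≤ (L : ℤ) * S := by exact_mod_cast hsum
  rw [h1] at hsum'
  constructor
  · by_contra hcon
    rw [not_le] at hcon
    have h3 : ((L : ℤ) + 1) ≤ ((b.map Prod.fst).sum : ℕ) := by exact_mod_cast hcon
    have h4 : ((b.map Prod.fst).sum : ℤ) * (S - R) ≤ (L : ℤ) * S := by linarith
    have h5 : ((L : ℤ) + 1) * (S - R) ≤ ((b.map Prod.fst).sum : ℕ) * ((S : ℤ) - R) :=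
      mul_le_mul_of_nonneg_right h3 (by linarith)
    nlinarith
  · intro h
    rw [h] at hsum'
    linarith

theorem perm_of_vec {tys A B : List ℕ} (hA : ∀ t ∈ A, t ∈ tys) (hB : ∀ t ∈ B, t ∈ tys)
    (h : vec tys A = vec tys B) : A.Perm B := by
  rw [List.perm_iff_count]
  intro t
  by_cases ht : t ∈ tys
  · simp only [vec, List.reverse_inj] at h
    exact List.map_inj_left.mp h t ht
  · rw [List.count_eq_zero.mpr (fun h => ht (hA t h)), List.count_eq_zero.mpr (fun h => ht (hB t h))]

theorem sum_bonus' {α : Type*} (bs : List α) (vc : α → List ℕ) (tys : List ℕ) : ∀ gs : List Pk,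
    (∀ g ∈ gs, (bs.filter fun b => vc b = vec tys g.T).length ≤ g.N - 1) →
    (bs.map fun b => bonus (gs.map fun g => (vec tys g.T, g.eps)) (vc b)).sum ≤
      (gs.map fun g => g.eps * (g.N - 1)).sum := by
  intro gs
  induction gs with
  | nil => intro _; simp [bonus]
  | cons p ps ih =>
    intro h
    have h1 := ih (fun q hq => h q (List.mem_cons_of_mem _ hq))
    have h2 := h p (by simp)
    simp only [List.map_cons, bonus, List.sum_cons] at h1 ⊢
    rw [List.sum_map_add]
    refine add_le_add ?_ h1
    refine le_trans (le_of_eq ?_) (Nat.mul_le_mul_left p.eps h2)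
    clear h h1 h2 ih
    induction bs with
    | nil => simp
    | cons B bs ih =>
      rw [List.map_cons, List.sum_cons, List.filter_cons]
      by_cases hB : vc B = vec tys p.T
      · simp only [hB, decide_true, if_true, List.length_cons, ih]
        ring
      · simp only [hB, decide_false, Ne.symm hB, if_false, ih]
        simp

theorem items_types {lab : ℕ → ℤ} {gs : List Pk} {core tys : List ℕ} {R : ℤ}
    (hok : ∀ g ∈ gs, g.Ok lab) (h0 : ∀ t ∈ tys, 0 < t)
    (hg : ∀ g ∈ gs, g.R ≤ R ∧ ∀ t ∈ g.T, t ∈ tys) (hc : ∀ t ∈ core, t ∈ tys ∧ -R ≤ lab t ∧ lab t ≤ R) :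
    ∀ a ∈ items lab gs core, a.1 ∈ tys ∧ 0 < a.1 ∧ -R ≤ a.2 ∧ a.2 ≤ R := by
  intro a ha
  rcases List.mem_append.mp ha with h | h
  · obtain ⟨l, hl, hal⟩ := List.mem_flatten.mp h
    obtain ⟨g, hgm, rfl⟩ := List.mem_map.mp hl
    obtain ⟨h1, h2, h3⟩ := (hok g hgm).hI a hal
    obtain ⟨h4, h5⟩ := hg g hgm
    have h6 := h5 _ h1
    exact ⟨h6, h0 _ h6, by linarith, by linarith⟩
  · obtain ⟨t, ht, rfl⟩ := List.mem_map.mp h
    obtain ⟨h1, h2, h3⟩ := hc t ht
    exact ⟨h1, h0 _ h1, h2, h3⟩

theorem items_weight {lab : ℕ → ℤ} (w : ℕ → ℕ) (core : List ℕ) (q : ℕ) : ∀ (gs : List Pk),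
    (∀ g ∈ gs, g.Ok lab) → (∀ g ∈ gs, (g.T.map w).sum = q + g.eps) →
    ((items lab gs core).map fun a => w a.1).sum =
      (gs.map fun g => g.N * (q + g.eps)).sum + (core.map w).sum := by
  intro gs
  induction gs with
  | nil =>
    intro _ _
    simp only [items, List.map_nil, List.flatten_nil, List.nil_append, List.map_map,
      List.sum_nil, zero_add]
    rfl
  | cons g gs ih =>
    intro h1 h2
    have := ih (fun g hg => h1 g (List.mem_cons_of_mem _ hg)) (fun g hg => h2 g (List.mem_cons_of_mem _ hg))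
    have e : items lab (g :: gs) core = g.I ++ items lab gs core := by
      simp [items]
    rw [e, List.map_append, List.sum_append, this, (h1 g (by simp)).hW w, h2 g (by simp),
      List.map_cons, List.sum_cons]
    ring

theorem not_packN_nested {lab : ℕ → ℤ} {gs : List Pk} {core tys : List ℕ} {R : ℤ} {S L KA q : ℕ}
    {w : ℕ → ℕ} (hok : ∀ g ∈ gs, g.Ok lab) (h0 : ∀ t ∈ tys, 0 < t) (hnd : tys.Nodup)
    (hg : ∀ g ∈ gs, g.R ≤ R ∧ ∀ t ∈ g.T, t ∈ tys) (hc : ∀ t ∈ core, t ∈ tys ∧ -R ≤ lab t ∧ lab t ≤ R)
    (hR : 0 ≤ R) (hS : ((L : ℤ) + 1) * R < S)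
    (hT : ∀ g ∈ gs, g.T.sum = L) (hw : ∀ g ∈ gs, (g.T.map w).sum = q + g.eps)
    (hdis : gs.Pairwise fun g h => ∀ t ∈ g.T, t ∉ h.T)
    (hknap : ∀ cn : ℕ → ℕ, (tys.map fun t => cn t * t).sum ≤ L →
      (tys.map fun t => cn t * w t).sum ≤
        q + bonus (gs.map fun g => (vec tys g.T, g.eps)) (tys.map cn).reverse)
    (hK : KA * q < (core.map w).sum + (gs.map Pk.eps).sum) :
    ¬ PackN (L * S) ((gs.map Pk.N).sum + KA) ((items lab gs core).map (sz S)) := by
  intro hpack
  obtain ⟨bs, g1, g2, g3⟩ := labelled_bins (sz S) _ _ hpack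
  have hty := items_types hok h0 hg hc
  have hmem : ∀ b ∈ bs, ∀ a ∈ b, a ∈ items lab gs core := fun b hb a ha =>
    g2.symm.subset (List.mem_flatten.mpr ⟨b, hb, ha⟩)
  have hbt : ∀ b ∈ bs, (b.map Prod.fst).sum ≤ L ∧
      ((b.map Prod.fst).sum = L → (b.map Prod.snd).sum ≤ 0) := by
    intro b hb
    refine bin_types hR hS b (fun a ha => ?_) (g3 b hb)
    exact (hty a (hmem b hb a ha)).2
  have htys : ∀ b ∈ bs, ∀ t ∈ b.map Prod.fst, t ∈ tys := by
    intro b hb t ht
    obtain ⟨a, ha, rfl⟩ := List.mem_map.mp ht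
    exact (hty a (hmem b hb a ha)).1
  -- weight of one bin
  have hbin : ∀ b ∈ bs, (b.map fun a => w a.1).sum ≤
      q + bonus (gs.map fun g => (vec tys g.T, g.eps)) (vec tys (b.map Prod.fst)) := by
    intro b hb
    have hT' := htys b hb
    have e1 := sum_map_eq_count tys hnd id (b.map Prod.fst) hT'
    have e2 := sum_map_eq_count tys hnd w (b.map Prod.fst) hT'
    rw [List.map_id] at e1
    have h := hknap (fun t => (b.map Prod.fst).count t) (by
      have := (hbt b hb).1
      rw [e1] at this
      exact this)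
    rw [List.map_map] at e2
    have e3 : (b.map fun a => w a.1) = b.map (w ∘ Prod.fst) := rfl
    rw [e3, e2]
    exact h
  -- few fragile bins
  have hfew : ∀ g ∈ gs, (bs.filter fun b => vec tys (b.map Prod.fst) = vec tys g.T).length ≤
      g.N - 1 := by
    intro g hgm
    have hN := (hok g hgm).hN
    have hsplit : ∃ E : List It, (items lab gs core).Perm (g.I ++ E) ∧
        ∀ a ∈ E, a.1 ∈ g.T → lab a.1 ≤ a.2 := by
      obtain ⟨gs1, gs2, hgs⟩ := List.append_of_mem hgm
      refine ⟨(gs1.map Pk.I).flatten ++ ((gs2.map Pk.I).flatten ++ core.map fun t => (t, lab t)),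
        ?_, ?_⟩
      · unfold items
        rw [hgs, List.map_append, List.map_cons, List.flatten_append, List.flatten_cons,
          List.append_assoc, List.append_assoc]
        exact List.perm_append_comm_assoc _ _ _
      · intro a ha hat
        rw [hgs, List.pairwise_append, List.pairwise_cons] at hdis
        obtain ⟨_, ⟨hd1, _⟩, hd2⟩ := hdis
        rcases List.mem_append.mp ha with h | h
        · exfalso
          obtain ⟨l, hl, hal⟩ := List.mem_flatten.mp h
          obtain ⟨g', hg', rfl⟩ := List.mem_map.mp hl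
          have h1 := (hok g' (by rw [hgs]; simp [hg'])).hI a hal
          exact hd2 g' hg' g (by simp) a.1 h1.1 hat
        · rcases List.mem_append.mp h with h | h
          · exfalso
            obtain ⟨l, hl, hal⟩ := List.mem_flatten.mp h
            obtain ⟨g', hg', rfl⟩ := List.mem_map.mp hl
            have h1 := (hok g' (by rw [hgs]; simp [hg'])).hI a hal
            exact hd1 g' hg' a.1 hat h1.1
          · obtain ⟨t, _, rfl⟩ := List.mem_map.mp h
            exact le_refl _
    obtain ⟨E, hE1, hE2⟩ := hsplit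
    have := (hok g hgm).few E hE2 (bs.filter fun b => vec tys (b.map Prod.fst) = vec tys g.T) ?_ ?_
    · omega
    · intro b hb
      rw [List.mem_filter] at hb
      obtain ⟨hb1, hb2⟩ := hb
      have hperm : (b.map Prod.fst).Perm g.T :=
        perm_of_vec (htys b hb1) (hg g hgm).2 (by simpa using hb2)
      refine ⟨hperm, (hbt b hb1).2 ?_⟩
      rw [hperm.sum_eq, hT g hgm]
    · have h1 : ((bs.filter fun b => vec tys (b.map Prod.fst) = vec tys g.T).flatten).Sublist
          bs.flatten := (List.filter_sublist).flatten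
      exact h1.subperm.trans (g2.symm.subperm.trans hE1.subperm)
  have hbon := sum_bonus' bs (fun b => vec tys (b.map Prod.fst)) tys gs hfew
  have htot : ((items lab gs core).map fun a => w a.1).sum =
      (bs.map fun b => (b.map fun a => w a.1).sum).sum := by
    rw [(g2.map _).sum_eq, List.map_flatten, List.sum_flatten, List.map_map]
    rfl
  have hle : (bs.map fun b => (b.map fun a => w a.1).sum).sum ≤
      (bs.map fun b => q + bonus (gs.map fun g => (vec tys g.T, g.eps))
        (vec tys (b.map Prod.fst))).sum :=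
    List.sum_le_sum fun B hB => hbin B hB
  rw [List.sum_map_add] at hle
  have hk : (bs.map fun _ => q).sum = ((gs.map Pk.N).sum + KA) * q := by simp [g1]
  rw [hk] at hle
  rw [items_weight w core q gs hok hw] at htot
  have hfin : (gs.map fun g => g.N * (q + g.eps)).sum =
      (gs.map Pk.N).sum * q + (gs.map fun g => g.eps * (g.N - 1)).sum + (gs.map Pk.eps).sum := by
    have hN : ∀ g ∈ gs, 0 < g.N := fun g h => (hok g h).hN
    clear * - hN
    induction gs with
    | nil => simp
    | cons g gs ih =>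
      have h1 := ih (fun g h => hN g (List.mem_cons_of_mem _ h))
      have h2 := hN g (by simp)
      obtain ⟨n, hn⟩ : ∃ n, g.N = n + 1 := ⟨g.N - 1, by omega⟩
      simp only [List.map_cons, List.sum_cons, h1, hn, Nat.add_sub_cancel]
      ring
  rw [add_mul] at hle
  omega

end Vale.Agent.P302
end

section
/-!
The two kinds of packages.
-/

namespace Vale.Agent.P302

def fX (tx ts : ℕ) (z : BZ) : It := (if z.1 then tx else ts, z.2)

theorem fX_inj {tx ts : ℕ} (h : tx ≠ ts) : Function.Injective (fX tx ts) := by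
  rintro ⟨p, x⟩ ⟨q, y⟩ he
  simp only [fX, Prod.mk.injEq] at he
  obtain ⟨h1, rfl⟩ := he
  cases p <;> cases q <;> simp_all

noncomputable def pkX (tx ts e n : ℕ) : Pk where
  T := [tx, ts, ts]
  I := (gad n).items.map (fX tx ts)
  N := (gad n).N
  θ := th n
  R := (gad n).R
  F := mp (fX tx ts) (FF n)
  eps := e

theorem cov_nonneg {α : Type*} [DecidableEq α] (F : List (List α × ℝ)) (h : ∀ p ∈ F, 0 ≤ p.2)
    (a : α) : 0 ≤ cov F a := by
  apply List.sum_nonneg
  intro x hx
  obtain ⟨p, hp, rfl⟩ := List.mem_map.mp hx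
  exact mul_nonneg (Nat.cast_nonneg _) (h p hp)

theorem subperm_map {α β : Type*} (f : α → β) {l m : List α} (h : l.Subperm m) :
    (l.map f).Subperm (m.map f) := by
  obtain ⟨l', hp, hs⟩ := h
  exact ⟨l'.map f, hp.map f, hs.map f⟩

theorem filt_flat {α β : Type*} (bs : List (List α)) (p : α → Bool) (f : α → β) :
    (bs.map fun b => (b.filter p).map f).flatten = (bs.flatten.filter p).map f := by
  rw [map_flatten_map, List.filter_flatten]

theorem items_filter_x {tx ts : ℕ} (hne : tx ≠ ts) (g : Gad) :
    ((g.items.map (fX tx ts)).filter fun a => decide (a.1 = tx)).map Prod.snd = g.X := by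
  unfold Gad.items
  rw [List.map_append, List.filter_append, List.map_append]
  have e1 : ((g.X.map fun v => ((true, v) : BZ)).map (fX tx ts)).filter (fun a => decide (a.1 = tx)) =
      (g.X.map fun v => ((true, v) : BZ)).map (fX tx ts) := by
    rw [List.filter_eq_self]
    intro a ha
    obtain ⟨z, hz, rfl⟩ := List.mem_map.mp ha
    obtain ⟨v, _, rfl⟩ := List.mem_map.mp hz
    simp [fX]
  have e2 : ((g.S.map fun v => ((false, v) : BZ)).map (fX tx ts)).filter (fun a => decide (a.1 = tx)) = [] := by
    rw [List.filter_eq_nil_iff]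
    intro a ha
    obtain ⟨z, hz, rfl⟩ := List.mem_map.mp ha
    obtain ⟨v, _, rfl⟩ := List.mem_map.mp hz
    simp [fX, Ne.symm hne]
  rw [e1, e2, List.map_nil, List.append_nil, List.map_map, List.map_map]
  have : ((Prod.snd ∘ fX tx ts) ∘ fun v : ℤ => (true, v)) = id := by
    funext v; simp [fX]
  rw [this, List.map_id]

theorem items_filter_s {tx ts : ℕ} (hne : tx ≠ ts) (g : Gad) :
    ((g.items.map (fX tx ts)).filter fun a => decide (a.1 = ts)).map Prod.snd = g.S := by
  unfold Gad.items
  rw [List.map_append, List.filter_append, List.map_append]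
  have e1 : ((g.S.map fun v => ((false, v) : BZ)).map (fX tx ts)).filter (fun a => decide (a.1 = ts)) =
      (g.S.map fun v => ((false, v) : BZ)).map (fX tx ts) := by
    rw [List.filter_eq_self]
    intro a ha
    obtain ⟨z, hz, rfl⟩ := List.mem_map.mp ha
    obtain ⟨v, _, rfl⟩ := List.mem_map.mp hz
    simp [fX]
  have e2 : ((g.X.map fun v => ((true, v) : BZ)).map (fX tx ts)).filter (fun a => decide (a.1 = ts)) = [] := by
    rw [List.filter_eq_nil_iff]
    intro a ha
    obtain ⟨z, hz, rfl⟩ := List.mem_map.mp ha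
    obtain ⟨v, _, rfl⟩ := List.mem_map.mp hz
    simp [fX, hne]
  rw [e1, e2, List.map_nil, List.nil_append, List.map_map, List.map_map]
  have : ((Prod.snd ∘ fX tx ts) ∘ fun v : ℤ => (false, v)) = id := by
    funext v; simp [fX]
  rw [this, List.map_id]

theorem FF_bd (n : ℕ) : ∀ p ∈ FF n, ∀ z ∈ p.1, -(gad n).R ≤ z.2 ∧ z.2 ≤ (gad n).R := by
  induction n with
  | zero =>
    intro p hp z hz
    simp only [FF, F0, List.mem_cons, List.not_mem_nil, or_false] at hp
    rcases hp with rfl | rfl | rfl | rfl | rfl | rfl <;>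
    · simp only [PX, List.mem_cons, List.not_mem_nil, or_false] at hz
      rcases hz with rfl | rfl | rfl <;> simp [gad, gad0]
  | succ n ih =>
    intro p hp z hz
    have hR := (gad_ok n).hR
    have hx := (gad_ok n).hx
    have hs := (gad_ok n).hs
    simp only [FF, List.mem_append, List.mem_cons, List.not_mem_nil, or_false] at hp
    simp only [gad, Gad.next]
    rcases hp with (hp | hp) | rfl | rfl | rfl | rfl
    · obtain ⟨p', hp', rfl⟩ := mem_mp hp
      obtain ⟨z', hz', rfl⟩ := List.mem_map.mp hz
      have := ih p' hp' z' hz'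
      simp only [fB]
      split_ifs <;> constructor <;> omega
    · have := ih p hp z hz
      constructor <;> omega
    all_goals
      simp only [PX, List.mem_cons, List.not_mem_nil, or_false] at hz
      rcases hz with rfl | rfl | rfl <;> constructor <;> dsimp only <;> omega

theorem GG_bd (n k : ℕ) : ∀ p ∈ GG n k, ∀ v ∈ p.1, -(gadc n k).R ≤ v ∧ v ≤ (gadc n k).R := by
  induction k with
  | zero =>
    intro p hp z hz
    simp only [GG, G0, List.mem_cons, List.not_mem_nil, or_false] at hp
    rcases hp with rfl | rfl | rfl | rfl <;>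
    · simp only [List.mem_cons, List.not_mem_nil, or_false] at hz
      rcases hz with rfl | rfl | rfl <;> simp [gadc, gadc0]
  | succ k ih =>
    intro p hp z hz
    have hR := (gad_ok n).hR
    have hx := (gad_ok n).hx
    have hs := (gad_ok n).hs
    have hRc := (gadc_ok n k).hR
    have hv := (gadc_ok n k).hv
    have hM : (gadc n k).M (gad n) = 4 * ((gad n).R + (gadc n k).R) := rfl
    simp only [GG, List.mem_append, List.mem_cons, List.not_mem_nil, or_false] at hp
    simp only [gadc, Gad1.next]
    rcases hp with (hp | hp) | rfl | rfl | rfl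
    · obtain ⟨p', hp', rfl⟩ := mem_mp hp
      obtain ⟨z', hz', rfl⟩ := List.mem_map.mp hz
      have := FF_bd n p' hp' z' hz'
      simp only [fV]
      split_ifs <;> constructor <;> omega
    · have := ih p hp z hz
      constructor <;> omega
    all_goals
      simp only [List.mem_cons, List.not_mem_nil, or_false] at hz
      rcases hz with rfl | rfl | rfl <;> constructor <;> omega

theorem pkX_ok {lab : ℕ → ℤ} {tx ts e n : ℕ} (hne : tx ≠ ts) (hx : lab tx = (gad n).x0)
    (hs : lab ts = (gad n).s0) : (pkX tx ts e n).Ok lab where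
  hI := by
    intro a ha
    simp only [pkX, Gad.items, List.map_append, List.mem_append, List.mem_map] at ha ⊢
    rcases ha with ⟨z, ⟨v, hv, rfl⟩, rfl⟩ | ⟨z, ⟨v, hv, rfl⟩, rfl⟩
    · exact ⟨by simp [fX], by simpa [fX] using (gad_ok n).hX v hv⟩
    · exact ⟨by simp [fX], by simpa [fX] using (gad_ok n).hS v hv⟩
  hT := by
    intro t ht
    simp only [pkX, List.mem_cons, List.not_mem_nil, or_false] at ht ⊢
    rcases ht with rfl | rfl | rfl
    · rw [hx]; exact (gad_ok n).hx
    · rw [hs]; exact (gad_ok n).hs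
    · rw [hs]; exact (gad_ok n).hs
  hW := by
    intro w
    simp only [pkX, Gad.items, List.map_append, List.sum_append, List.map_map, List.map_cons,
      List.map_nil, List.sum_cons, List.sum_nil]
    have e1 : ((gad n).X.map ((fun a : It => w a.1) ∘ fX tx ts ∘ fun v => (true, v))).sum =
        (gad n).N * w tx := by
      have : ((fun a : It => w a.1) ∘ fX tx ts ∘ fun v : ℤ => (true, v)) = fun _ => w tx := by
        funext v; simp [fX]
      rw [this, List.map_const', List.sum_replicate, (gad_ok n).lX, smul_eq_mul]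
    have e2 : ((gad n).S.map ((fun a : It => w a.1) ∘ fX tx ts ∘ fun v => (false, v))).sum =
        2 * (gad n).N * w ts := by
      have : ((fun a : It => w a.1) ∘ fX tx ts ∘ fun v : ℤ => (false, v)) = fun _ => w ts := by
        funext v; simp [fX]
      rw [this, List.map_const', List.sum_replicate, (gad_ok n).lS, smul_eq_mul]
    rw [e1, e2]
    ring
  hN := (gad_ok n).hN
  few := by
    intro E hE bs hbs hsub
    simp only [pkX] at hE hbs hsub ⊢
    have hg := (gad_ok n).good ((E.filter fun a => decide (a.1 = tx)).map Prod.snd)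
      ((E.filter fun a => decide (a.1 = ts)).map Prod.snd) (by
        intro v hv
        obtain ⟨a, ha, rfl⟩ := List.mem_map.mp hv
        rw [List.mem_filter, decide_eq_true_eq] at ha
        have := hE a ha.1 (by rw [ha.2]; simp)
        rwa [ha.2, hx] at this) (by
        intro v hv
        obtain ⟨a, ha, rfl⟩ := List.mem_map.mp hv
        rw [List.mem_filter, decide_eq_true_eq] at ha
        have := hE a ha.1 (by rw [ha.2]; simp)
        rwa [ha.2, hs] at this)
      (bs.map fun b => ((b.filter fun a => decide (a.1 = tx)).map Prod.snd,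
        (b.filter fun a => decide (a.1 = ts)).map Prod.snd)) ?_ ?_ ?_
    · rwa [List.length_map] at hg
    · intro b hb
      obtain ⟨b', hb', rfl⟩ := List.mem_map.mp hb
      obtain ⟨h1, h2⟩ := hbs b' hb'
      have hc : ∀ t : ℕ, (b'.filter fun a => decide (a.1 = t)).length = [tx, ts, ts].count t := by
        intro t
        rw [← h1.count_eq t, List.count, List.countP_map, List.countP_eq_length_filter]
        congr 1
      dsimp only
      refine ⟨?_, ?_, ?_⟩
      · rw [List.length_map, hc]
        simp [List.count_cons, hne, Ne.symm hne]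
      · rw [List.length_map, hc]
        simp [List.count_cons, hne, Ne.symm hne]
      · have hp : (b'.filter (fun a => decide (a.1 = tx)) ++ b'.filter (fun a => decide (a.1 = ts))).Perm b' := by
          have h3 := List.filter_append_perm (fun a : It => decide (a.1 = tx)) b'
          have h4 : b'.filter (fun x => !decide (x.1 = tx)) = b'.filter (fun a => decide (a.1 = ts)) := by
            apply List.filter_congr
            intro a ha
            have : a.1 ∈ [tx, ts, ts] := h1.subset (List.mem_map_of_mem ha)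
            simp only [List.mem_cons, List.not_mem_nil, or_false] at this
            rcases this with h | h | h
            · simp [h, hne]
            · simp [h, Ne.symm hne]
            · simp [h, Ne.symm hne]
          rwa [h4] at h3
        have := (hp.map Prod.snd).sum_eq
        rw [List.map_append, List.sum_append] at this
        rw [this]
        exact h2
    · rw [List.map_map]
      have h3 := subperm_map Prod.snd (hsub.filter (fun a : It => decide (a.1 = tx)))
      rw [List.filter_append, List.map_append, items_filter_x hne, ← filt_flat] at h3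
      exact h3
    · rw [List.map_map]
      have h3 := subperm_map Prod.snd (hsub.filter (fun a : It => decide (a.1 = ts)))
      rw [List.filter_append, List.map_append, items_filter_s hne, ← filt_flat] at h3
      exact h3
  hF := by
    intro p hp
    obtain ⟨p', hp', rfl⟩ := mem_mp hp
    obtain ⟨⟨g1, g2⟩, g3⟩ := FF_good n p' hp'
    refine ⟨?_, ?_, g3⟩
    · simp only [pkX, List.map_map]
      have e : (p'.1.map (Prod.fst ∘ fX tx ts)) = (p'.1.map Prod.fst).map fun b : Bool =>
          if b then tx else ts := by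
        rw [List.map_map]; rfl
      rw [e]
      exact (g1.map _)
    · simp only [List.map_map]
      exact g2
  hFb := by
    intro p hp a ha
    obtain ⟨p', hp', rfl⟩ := mem_mp hp
    obtain ⟨z, hz, rfl⟩ := List.mem_map.mp ha
    exact FF_bd n p' hp' z hz
  hcov := by
    rintro ⟨t, v⟩
    simp only [pkX]
    by_cases h1 : t = tx
    · subst h1
      have e1 : ((t, v) : It) = fX t ts (true, v) := by simp [fX]
      rw [hx]
      conv_rhs => rw [e1]
      conv_lhs => rw [e1]
      rw [cnt_map (fX_inj hne), cov_mp (fX_inj hne), FF_cov_true, cnt_items_true]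
      have e2 : cnt [t, ts, ts] t = 1 := by
        simp [cnt_cons, cnt_nil, Ne.symm hne]
      rw [e2]
      push_cast
      linarith
    · by_cases h2 : t = ts
      · subst h2
        have e1 : ((t, v) : It) = fX tx t (false, v) := by simp [fX]
        rw [hs]
        conv_rhs => rw [e1]
        conv_lhs => rw [e1]
        rw [cnt_map (fX_inj hne), cov_mp (fX_inj hne), FF_cov_false, cnt_items_false]
        have e2 : cnt [tx, t, t] t = 2 := by
          simp [cnt_cons, cnt_nil, hne]
        rw [e2]
        push_cast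
        linarith
      · have e1 : cnt ((gad n).items.map (fX tx ts)) (t, v) = 0 := by
          apply cnt_eq_zero
          intro hmem
          obtain ⟨z, _, hz⟩ := List.mem_map.mp hmem
          simp only [fX, Prod.mk.injEq] at hz
          obtain ⟨hz, _⟩ := hz
          split_ifs at hz
          · exact h1 hz.symm
          · exact h2 hz.symm
        have e2 : cnt [tx, ts, ts] t = 0 := by
          simp [cnt_cons, cnt_nil, Ne.symm h1, Ne.symm h2]
        rw [e1, e2]
        have := cov_nonneg (mp (fX tx ts) (FF n)) (by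
          intro p hp
          obtain ⟨p', hp', rfl⟩ := mem_mp hp
          exact (FF_good n p' hp').2) (t, v)
        simpa using this
  htot := by
    simp only [pkX]
    rw [tot_mp, FF_tot]

noncomputable def pk1 (t e n k : ℕ) : Pk where
  T := [t, t, t]
  I := (gadc n k).V.map fun v => (t, v)
  N := (gadc n k).N
  θ := tc n k
  R := (gadc n k).R
  F := mp (fun v => (t, v)) (GG n k)
  eps := e

theorem pk1_ok {lab : ℕ → ℤ} {t e n k : ℕ} (hv : lab t = (gadc n k).v0) :
    (pk1 t e n k).Ok lab where
  hI := by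
    intro a ha
    simp only [pk1, List.mem_map] at ha ⊢
    obtain ⟨v, hv, rfl⟩ := ha
    exact ⟨by simp, (gadc_ok n k).hV v hv⟩
  hT := by
    intro s hs
    simp only [pk1, List.mem_cons, List.not_mem_nil, or_false] at hs ⊢
    rcases hs with rfl | rfl | rfl <;> rw [hv] <;> exact (gadc_ok n k).hv
  hW := by
    intro w
    simp only [pk1, List.map_map, List.map_cons, List.map_nil, List.sum_cons, List.sum_nil]
    have : ((fun a : It => w a.1) ∘ fun v : ℤ => (t, v)) = fun _ => w t := by
      funext v; rfl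
    rw [this, List.map_const', List.sum_replicate, (gadc_ok n k).lV, smul_eq_mul]
    ring
  hN := (gadc_ok n k).hN
  few := by
    intro E hE bs hbs hsub
    simp only [pk1] at hE hbs hsub ⊢
    have hmt : ∀ b ∈ bs, ∀ a ∈ b, a.1 = t := by
      intro b hb a ha
      have := (hbs b hb).1.subset (List.mem_map_of_mem ha)
      simpa using this
    have hg := (gadc_ok n k).good ((E.filter fun a => decide (a.1 = t)).map Prod.snd) (by
        intro v hv'
        obtain ⟨a, ha, rfl⟩ := List.mem_map.mp hv'
        rw [List.mem_filter, decide_eq_true_eq] at ha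
        have := hE a ha.1 (by rw [ha.2]; simp)
        rwa [ha.2, hv] at this)
      (bs.map fun b => b.map Prod.snd) ?_ ?_
    · rwa [List.length_map] at hg
    · intro b hb
      obtain ⟨b', hb', rfl⟩ := List.mem_map.mp hb
      obtain ⟨h1, h2⟩ := hbs b' hb'
      have := h1.length_eq
      rw [List.length_map] at this
      exact ⟨by rw [List.length_map, this]; rfl, h2⟩
    · have h3 := subperm_map Prod.snd (hsub.filter (fun a : It => decide (a.1 = t)))
      have e1 : bs.flatten.filter (fun a : It => decide (a.1 = t)) = bs.flatten := by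
        rw [List.filter_eq_self]
        intro a ha
        obtain ⟨b, hb, hab⟩ := List.mem_flatten.mp ha
        simpa using hmt b hb a hab
      have e2 : (((gadc n k).V.map fun v => ((t, v) : It)).filter fun a => decide (a.1 = t)) =
          (gadc n k).V.map fun v => ((t, v) : It) := by
        rw [List.filter_eq_self]
        intro a ha
        obtain ⟨v, _, rfl⟩ := List.mem_map.mp ha
        simp
      rw [e1, List.filter_append, e2, List.map_append, List.map_map] at h3
      have e3 : (Prod.snd ∘ fun v : ℤ => ((t, v) : It)) = id := by funext v; rfl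
      rw [e3, List.map_id, List.map_flatten] at h3
      exact h3
  hF := by
    intro p hp
    obtain ⟨p', hp', rfl⟩ := mem_mp hp
    obtain ⟨g1, g2, g3⟩ := GG_good n k p' hp'
    refine ⟨?_, ?_, g3⟩
    · simp only [pk1, List.map_map]
      have e : (p'.1.map (Prod.fst ∘ fun v : ℤ => ((t, v) : It))) = List.replicate 3 t := by
        have : (Prod.fst ∘ fun v : ℤ => ((t, v) : It)) = fun _ => t := by funext v; rfl
        rw [this, List.map_const', g1]
      rw [e]
      exact List.Perm.refl _
    · simp only [List.map_map]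
      have e : (Prod.snd ∘ fun v : ℤ => ((t, v) : It)) = id := by funext v; rfl
      rw [e, List.map_id]
      exact g2
  hFb := by
    intro p hp a ha
    obtain ⟨p', hp', rfl⟩ := mem_mp hp
    obtain ⟨z, hz, rfl⟩ := List.mem_map.mp ha
    exact GG_bd n k p' hp' z hz
  hcov := by
    rintro ⟨s, v⟩
    simp only [pk1]
    have hinj : Function.Injective (fun v : ℤ => ((t, v) : It)) := fun a b h => by simpa using h
    by_cases h1 : s = t
    · subst h1
      rw [hv]
      have e1 := cnt_map hinj (gadc n k).V v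
      have e2 := cov_mp hinj (GG n k) v
      rw [e1, e2, GG_cov]
      have e3 : cnt [s, s, s] s = 3 := by simp [cnt_cons, cnt_nil]
      rw [e3]
      push_cast
      linarith
    · have e1 : cnt ((gadc n k).V.map fun v => ((t, v) : It)) (s, v) = 0 := by
        apply cnt_eq_zero
        intro hmem
        obtain ⟨z, _, hz⟩ := List.mem_map.mp hmem
        simp only [Prod.mk.injEq] at hz
        exact h1 hz.1.symm
      have e2 : cnt [t, t, t] s = 0 := by
        simp [cnt_cons, cnt_nil, Ne.symm h1]
      rw [e1, e2]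
      have := cov_nonneg (mp (fun v : ℤ => ((t, v) : It)) (GG n k)) (by
        intro p hp
        obtain ⟨p', hp', rfl⟩ := mem_mp hp
        exact (GG_good n k p' hp').2.2) (s, v)
      simpa using this
  htot := by
    simp only [pk1]
    rw [tot_mp, GG_tot]

end Vale.Agent.P302
end

section
/-!
Upper bounds for the value of the linear program, and the family of instances.
-/

namespace Vale.Agent.P302

/-- The LP solution belonging to a list of weighted patterns. -/
noncomputable def solR (C : ℕ) (l : List ℕ) (L : List (List ℕ × ℝ)) :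
    ({σ : ℚ // σ ∈ (inst C l).toFinset} → ℕ) →₀ ℝ :=
  (L.map fun p => Finsupp.single (cfg C l p.1) p.2).sum

theorem solR_sum (C : ℕ) (l : List ℕ) (g : ({σ : ℚ // σ ∈ (inst C l).toFinset} → ℕ) → ℝ) :
    ∀ L : List (List ℕ × ℝ), (solR C l L).sum (fun c t => g c * t) =
      (L.map fun p => g (cfg C l p.1) * p.2).sum := by
  classical
  intro L
  induction L with
  | nil => simp only [solR, List.map_nil, List.sum_nil, Finsupp.sum_zero_index]
  | cons p L ih =>
    have : solR C l (p :: L) = Finsupp.single (cfg C l p.1) p.2 + solR C l L := rfl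
    rw [this, Finsupp.sum_add_index' (by simp) (by intros; ring), ih,
      Finsupp.sum_single_index (by simp), List.map_cons, List.sum_cons]

theorem solR_nonneg (C : ℕ) (l : List ℕ) : ∀ (L : List (List ℕ × ℝ)), (∀ p ∈ L, 0 ≤ p.2) →
    ∀ c, 0 ≤ solR C l L c := by
  classical
  intro L
  induction L with
  | nil => intro _ c; simp only [solR, List.map_nil, List.sum_nil, Finsupp.coe_zero, Pi.zero_apply, Std.le_refl]
  | cons p L ih =>
    intro h c
    have : solR C l (p :: L) = Finsupp.single (cfg C l p.1) p.2 + solR C l L := rfl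
    rw [this, Finsupp.add_apply]
    refine add_nonneg ?_ (ih (fun q hq => h q (List.mem_cons_of_mem _ hq)) c)
    rw [Finsupp.single_apply]
    have := h p (by simp)
    split_ifs <;> simp [this]

theorem solR_support (C : ℕ) (l : List ℕ) : ∀ (L : List (List ℕ × ℝ)) c,
    c ∈ (solR C l L).support → ∃ p ∈ L, c = cfg C l p.1 := by
  classical
  intro L
  induction L with
  | nil => intro c hc; simp only [solR, List.map_nil, List.sum_nil, Finsupp.support_zero, Finset.notMem_empty] at hc
  | cons p L ih =>
    intro c hc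
    have : solR C l (p :: L) = Finsupp.single (cfg C l p.1) p.2 + solR C l L := rfl
    rw [this] at hc
    rcases Finset.mem_union.mp (Finsupp.support_add hc) with h | h
    · have := Finsupp.support_single_subset h
      rw [Finset.mem_singleton] at this
      exact ⟨p, by simp, this⟩
    · obtain ⟨q, hq, e⟩ := ih c h
      exact ⟨q, List.mem_cons_of_mem _ hq, e⟩

theorem LP_le_real {C : ℕ} (hC : 0 < C) (l : List ℕ) (L : List (List ℕ × ℝ))
    (h1 : ∀ p ∈ L, p.1.sum ≤ C ∧ 0 ≤ p.2)
    (h2 : ∀ s ∈ l, (cnt l s : ℝ) ≤ cov L s) : LP (inst C l) ≤ tot L := by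
  have hfe : LPFeasible (inst C l) (solR C l L) := by
    refine ⟨?_, solR_nonneg C l L (fun p hp => (h1 p hp).2), ?_⟩
    · intro c hc
      obtain ⟨p, hp, rfl⟩ := solR_support C l L c hc
      exact isConfig_cfg hC l p.1 (h1 p hp).1
    · intro σ
      obtain ⟨s, hs, hσ⟩ : ∃ s ∈ l, (s : ℚ) / C = (σ : ℚ) := by
        have := σ.2
        rw [List.mem_toFinset] at this
        exact List.mem_map.mp this
      rw [solR_sum C l (fun c => (c σ : ℝ)) L]
      have e1 : ((inst C l).count (σ : ℚ)) = l.count s := by rw [← hσ, count_inst hC]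
      rw [e1]
      have e3 : ∀ p : List ℕ × ℝ, cfg C l p.1 σ = p.1.count s := by
        intro p; unfold cfg; rw [← hσ, count_inst hC]
      simp_rw [e3]
      exact h2 s hs
  refine le_trans (csInf_le ?_ ⟨solR C l L, hfe, rfl⟩) ?_
  · refine ⟨0, ?_⟩
    rintro v ⟨z, hz, rfl⟩
    exact Finset.sum_nonneg fun c _ => hz.2.1 c
  · have := solR_sum C l (fun _ => 1) L
    simp only [one_mul] at this
    rw [this]
    exact le_refl _

/-- Adding items of size one. -/
theorem family_real {C k : ℕ} {g : ℝ} (hC : 0 < C) (l : List ℕ) (hl : ∀ s ∈ l, 0 < s ∧ s ≤ C)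
    (hp : ¬ PackN C k l) (F : List (List ℕ × ℝ)) (hF : ∀ p ∈ F, p.1.sum ≤ C ∧ 0 ≤ p.2)
    (hcov : ∀ s, (cnt l s : ℝ) ≤ cov F s) (hg : tot F + g ≤ k + 1) :
    ∃ n₀ : ℕ, ∀ n : ℕ, n₀ ≤ n → ∃ I : List ℚ, IsInstance I ∧ OPT I = n ∧
      g ≤ (OPT I : ℝ) - LP I := by
  set J : ℕ → List ℚ := fun m => inst C (List.replicate m C ++ l) with hJ
  have hpos : ∀ m, ∀ s ∈ List.replicate m C ++ l, 0 < s ∧ s ≤ C := by
    intro m s hs
    rcases List.mem_append.mp hs with h | h
    · rw [List.eq_of_mem_replicate h]; exact ⟨hC, le_refl C⟩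
    · exact hl s h
  have hinst : ∀ m, IsInstance (J m) := fun m => isInstance_inst _ (hpos m)
  have hpk : ∀ m, Packable (J m) (OPT (J m)) := fun m =>
    Nat.sInf_mem (s := {k : ℕ | Packable (J m) k}) ⟨_, packable_length _ (hinst m)⟩
  have hstep : ∀ m, OPT (J (m + 1)) ≤ OPT (J m) + 1 := by
    intro m
    have h1 := (hpk m).cons_one
    have h2 : J (m + 1) = 1 :: J m := by
      simp only [hJ]
      rw [List.replicate_succ, List.cons_append, inst_cons hC]
    rw [← h2] at h1
    exact Nat.sInf_le h1
  have hlow : ∀ m, k + 1 + m ≤ OPT (J m) := by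
    intro m
    by_contra hlt
    rw [not_le] at hlt
    have h1 : Packable (J m) (k + m) := (hpk m).mono (by omega)
    exact hp (packN_of_replicate (fun s hs => (hl s hs).1) m hC (packN_of_packable hC _ _ h1))
  have hLP : ∀ m : ℕ, LP (J m) ≤ tot F + m := by
    intro m
    have h := LP_le_real hC (List.replicate m C ++ l) (([C], (m : ℝ)) :: F) (by
      intro p hp
      rcases List.mem_cons.mp hp with rfl | hp
      · exact ⟨by simp, Nat.cast_nonneg m⟩
      · exact hF p hp) (by
      intro s _
      rw [ccnt_append, cov_cons, cnt_cons, cnt_nil]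
      have h1 : (cnt (List.replicate m C) s : ℝ) ≤ ((0 + if C = s then 1 else 0 : ℕ) : ℝ) * (m : ℝ) := by
        by_cases hs : C = s
        · subst hs
          have : cnt (List.replicate m C) C = m := List.count_replicate_self
          rw [this]
          simp
        · rw [cnt_eq_zero]
          · simp [hs]
          · intro h
            exact hs (List.eq_of_mem_replicate h).symm
      exact add_le_add h1 (hcov s))
    rw [tot_cons] at h
    linarith
  refine ⟨OPT (J 0), fun n hn => ?_⟩
  have hex : ∃ m, n ≤ OPT (J m) := ⟨n, by have := hlow n; omega⟩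
  classical
  obtain ⟨m, hm1, hm2⟩ : ∃ m, n ≤ OPT (J m) ∧ ∀ m' < m, ¬ n ≤ OPT (J m') :=
    ⟨Nat.find hex, Nat.find_spec hex, fun m' h => Nat.find_min hex h⟩
  have hmn : OPT (J m) = n := by
    cases m with
    | zero => omega
    | succ m =>
      have h1 := hm2 m (Nat.lt_succ_self m)
      have h2 := hstep m
      omega
  refine ⟨J m, hinst m, hmn, ?_⟩
  have h1 := hLP m
  have h2 : ((k + 1 + m : ℕ) : ℝ) ≤ (OPT (J m) : ℝ) := by exact_mod_cast hlow m
  push_cast at h2
  linarith

/-! ### From labelled items to sizes -/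

theorem sum_cnt {α : Type*} [DecidableEq α] (B : Finset α) (m : List α) :
    ∑ a ∈ B, cnt m a = m.countP fun a => decide (a ∈ B) := by
  induction m with
  | nil => simp [cnt_nil]
  | cons b m ih =>
    simp only [cnt_cons, Finset.sum_add_distrib, ih, Finset.sum_ite_eq, List.countP_cons,
      decide_eq_true_eq]

theorem cov_map_le {α : Type*} [DecidableEq α] (f : α → ℕ) (l : List α) (F : List (List α × ℝ))
    (hF : ∀ p ∈ F, 0 ≤ p.2) (h : ∀ a, (cnt l a : ℝ) ≤ cov F a) (s : ℕ) :
    (cnt (l.map f) s : ℝ) ≤ cov (mp f F) s := by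
  classical
  set B : Finset α := l.toFinset.filter fun a => f a = s with hB
  have e1 : (cnt (l.map f) s : ℝ) = ∑ a ∈ B, (cnt l a : ℝ) := by
    rw [← Nat.cast_sum, sum_cnt]
    congr 1
    unfold cnt
    rw [List.count, List.countP_map]
    apply List.countP_congr
    intro a ha
    simp only [hB, Function.comp_apply, beq_iff_eq, decide_eq_true_eq, Finset.mem_filter,
      List.mem_toFinset, ha, true_and]
  have e2 : ∀ F : List (List α × ℝ), (∀ p ∈ F, 0 ≤ p.2) → ∑ a ∈ B, cov F a ≤ cov (mp f F) s := by
    intro F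
    induction F with
    | nil => intro _; simp [mp, cov_nil]
    | cons p F ih =>
      intro hF
      have h1 := ih (fun q hq => hF q (List.mem_cons_of_mem _ hq))
      have h2 : mp f (p :: F) = (p.1.map f, p.2) :: mp f F := rfl
      rw [h2, cov_cons]
      simp_rw [cov_cons]
      rw [Finset.sum_add_distrib]
      refine add_le_add ?_ h1
      rw [← Finset.sum_mul]
      refine mul_le_mul_of_nonneg_right ?_ (hF p (by simp))
      rw [← Nat.cast_sum, sum_cnt]
      norm_cast
      unfold cnt
      rw [List.count, List.countP_map]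
      apply List.countP_mono_left
      intro a _
      simp only [hB, Function.comp_apply, beq_iff_eq, decide_eq_true_eq, Finset.mem_filter]
      exact fun h => h.2
  rw [e1]
  exact le_trans (Finset.sum_le_sum fun a _ => h a) (e2 F hF)

end Vale.Agent.P302
end

section
/-!
The combination: a core instance together with nested gadgets.
-/

namespace Vale.Agent.P302

/-- patterns of the core -/
def coreP (lab : ℕ → ℤ) (P : List (List ℕ × ℝ)) : List (List It × ℝ) :=
  mp (fun t => (t, lab t)) P

def allP (lab : ℕ → ℤ) (gs : List Pk) (P : List (List ℕ × ℝ)) : List (List It × ℝ) :=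
  (gs.map Pk.F).flatten ++ coreP lab P

/-- extra coverage by the gadgets -/
noncomputable def thsum (gs : List Pk) (t : ℕ) : ℝ :=
  (gs.map fun g => g.θ * ((cnt g.T t : ℕ) : ℝ)).sum

theorem thsum_cons (g : Pk) (gs : List Pk) (t : ℕ) :
    thsum (g :: gs) t = g.θ * ((cnt g.T t : ℕ) : ℝ) + thsum gs t := by
  simp [thsum]

theorem cov_items {lab : ℕ → ℤ} {core : List ℕ} {P : List (List ℕ × ℝ)} (a : It) :
    ∀ {gs : List Pk}, (∀ g ∈ gs, g.Ok lab) → (∀ p ∈ P, 0 ≤ p.2) →
    (cnt core a.1 : ℝ) ≤ thsum gs a.1 + cov P a.1 →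
    (cnt (items lab gs core) a : ℝ) ≤ cov (allP lab gs P) a := by
  intro gs hok hP h
  have hinj : Function.Injective (fun t : ℕ => ((t, lab t) : It)) := fun x y hxy => by
    simp only [Prod.mk.injEq] at hxy
    exact hxy.1
  have e1 : ∀ gs : List Pk, (∀ g ∈ gs, g.Ok lab) →
      (cnt (gs.map Pk.I).flatten a : ℝ) + thsum gs a.1 * ind (lab a.1) a.2 ≤
        cov (gs.map Pk.F).flatten a := by
    intro gs
    induction gs with
    | nil => intro _; simp [cnt_nil, cov_nil, thsum]
    | cons g gs ih =>
      intro hok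
      have h1 := ih (fun g' hg' => hok g' (List.mem_cons_of_mem _ hg'))
      have h2 := (hok g (by simp)).hcov a
      simp only [List.map_cons, List.flatten_cons]
      rw [ccnt_append, cov_append, thsum_cons, add_mul]
      linarith
  have h1 := e1 gs hok
  unfold items allP
  rw [ccnt_append, cov_append]
  by_cases hl : lab a.1 = a.2
  · have ha : a = (a.1, lab a.1) := by rw [hl]
    have e2 : cnt (core.map fun t => (t, lab t)) a = cnt core a.1 := by
      conv_lhs => rw [ha]
      exact cnt_map hinj core a.1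
    have e3 : cov (coreP lab P) a = cov P a.1 := by
      conv_lhs => rw [ha]
      exact cov_mp hinj P a.1
    have e4 : ind (lab a.1) a.2 = 1 := by simp [ind, hl]
    rw [e2, e3]
    rw [e4, mul_one] at h1
    linarith
  · have e2 : cnt (core.map fun t => (t, lab t)) a = 0 := by
      apply cnt_eq_zero
      intro hm
      obtain ⟨t, _, rfl⟩ := List.mem_map.mp hm
      exact hl rfl
    have e3 : 0 ≤ cov (coreP lab P) a := cov_nonneg _ (by
      intro p hp
      obtain ⟨p', hp', rfl⟩ := mem_mp hp
      exact hP p' hp') a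
    have e4 : ind (lab a.1) a.2 = 0 := by simp [ind, hl]
    rw [e2]
    rw [e4, mul_zero] at h1
    push_cast
    linarith

theorem tot_flatten (gs : List Pk) : tot (gs.map Pk.F).flatten = (gs.map fun g => tot g.F).sum := by
  induction gs with
  | nil => simp [tot_nil]
  | cons g gs ih => simp only [List.map_cons, List.flatten_cons, List.sum_cons, tot_append, ih]

theorem gap_nested {lab : ℕ → ℤ} {gs : List Pk} {core tys : List ℕ} {R : ℤ} {L KA q : ℕ}
    {w : ℕ → ℕ} {P : List (List ℕ × ℝ)} {γ : ℝ}
    (hok : ∀ g ∈ gs, g.Ok lab) (h0 : ∀ t ∈ tys, 0 < t ∧ t < L) (hnd : tys.Nodup)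
    (hg : ∀ g ∈ gs, g.R ≤ R ∧ ∀ t ∈ g.T, t ∈ tys) (hc : ∀ t ∈ core, t ∈ tys)
    (hlab : ∀ t, -R ≤ lab t ∧ lab t ≤ R) (hL : 0 < L)
    (hR : 0 ≤ R) (hT : ∀ g ∈ gs, g.T.sum = L) (hw : ∀ g ∈ gs, (g.T.map w).sum = q + g.eps)
    (hdis : gs.Pairwise fun g h => ∀ t ∈ g.T, t ∉ h.T)
    (hknap : ∀ cn : ℕ → ℕ, (tys.map fun t => cn t * t).sum ≤ L →
      (tys.map fun t => cn t * w t).sum ≤
        q + bonus (gs.map fun g => (vec tys g.T, g.eps)) (tys.map cn).reverse)
    (hK : KA * q < (core.map w).sum + (gs.map Pk.eps).sum)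
    (hP : ∀ p ∈ P, 0 ≤ p.2 ∧ p.1.sum < L ∧ ∀ t ∈ p.1, 0 < t)
    (hcov : ∀ t ∈ core, (cnt core t : ℝ) ≤ thsum gs t + cov P t)
    (hθ : ∀ g ∈ gs, 0 ≤ g.θ)
    (htot : (gs.map Pk.θ).sum + tot P + γ ≤ KA + 1) :
    ∃ n₀ : ℕ, ∀ n : ℕ, n₀ ≤ n → ∃ I : List ℚ, IsInstance I ∧ OPT I = n ∧
      γ ≤ (OPT I : ℝ) - LP I := by
  obtain ⟨S, hS⟩ : ∃ S : ℕ, ((L : ℤ) + 1) * R < S := ⟨(((L : ℤ) + 1) * R + 1).toNat, by
    have : 0 ≤ ((L : ℤ) + 1) * R + 1 := by positivity
    omega⟩
  have hL1 : (1 : ℤ) ≤ L := by exact_mod_cast hL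
  have hRS : R < S := by nlinarith
  have hLRS : (L : ℤ) * R + R < S := by linarith
  have hS0 : 0 < S := by
    have : (0 : ℤ) < S := by linarith
    exact_mod_cast this
  have hnp := not_packN_nested (S := S) hok (fun t ht => (h0 t ht).1) hnd hg
    (fun t ht => ⟨hc t ht, hlab t⟩) hR hS hT hw hdis hknap hK
  have hty := items_types (core := core) hok (fun t ht => (h0 t ht).1) hg
    (fun t ht => ⟨hc t ht, hlab t⟩)
  refine family_real (C := L * S) (k := (gs.map Pk.N).sum + KA) (Nat.mul_pos hL hS0) _ ?_ hnp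
    (mp (sz S) (allP lab gs P)) ?_ ?_ ?_
  · intro s hs
    obtain ⟨a, ha, rfl⟩ := List.mem_map.mp hs
    obtain ⟨h1, h2, h3, h4⟩ := hty a ha
    have h5 := (h0 _ h1).2
    have h2' : (1 : ℤ) ≤ a.1 := by exact_mod_cast h2
    have h5' : (a.1 : ℤ) + 1 ≤ L := by exact_mod_cast h5
    have hpos : 0 < (a.1 : ℤ) * S + a.2 := by nlinarith
    have hub : (a.1 : ℤ) * S + a.2 ≤ (L : ℤ) * S := by nlinarith
    unfold sz
    constructor
    · omega
    · have : ((((a.1 : ℤ) * S + a.2).toNat : ℕ) : ℤ) ≤ ((L * S : ℕ) : ℤ) := by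
        rw [Int.toNat_of_nonneg hpos.le]
        push_cast
        exact hub
      exact_mod_cast this
  · intro p hp
    obtain ⟨p', hp', rfl⟩ := mem_mp hp
    dsimp only
    rcases List.mem_append.mp hp' with h | h
    · obtain ⟨l, hl, hpl⟩ := List.mem_flatten.mp h
      obtain ⟨g, hgm, rfl⟩ := List.mem_map.mp hl
      obtain ⟨h1, h2, h3⟩ := (hok g hgm).hF p' hpl
      have h4 := (hok g hgm).hFb p' hpl
      have hmem : ∀ a ∈ p'.1, a.1 ∈ g.T := fun a ha => h1.subset (List.mem_map_of_mem ha)
      obtain ⟨e1, _, _⟩ := sum_sz hR hRS p'.1 (fun a ha => by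
        have h5 := (hg g hgm).2 _ (hmem a ha)
        have h6 := (hg g hgm).1
        have h7 := h4 a ha
        exact ⟨(h0 _ h5).1, by linarith, by linarith⟩)
      have e2 : (p'.1.map Prod.fst).sum = L := by rw [h1.sum_eq, hT g hgm]
      rw [e2] at e1
      refine ⟨?_, h3⟩
      have : ((p'.1.map (sz S)).sum : ℤ) ≤ ((L * S : ℕ) : ℤ) := by
        rw [e1]; push_cast; linarith
      exact_mod_cast this
    · obtain ⟨p'', hp'', rfl⟩ := mem_mp h
      obtain ⟨h1, h2, h3⟩ := hP p'' hp''
      dsimp only
      obtain ⟨e1, _, e2⟩ := sum_sz hR hRS (p''.1.map fun t => ((t, lab t) : It)) (fun a ha => by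
        obtain ⟨t, ht, rfl⟩ := List.mem_map.mp ha
        exact ⟨h3 t ht, hlab t⟩)
      have e3 : ((p''.1.map fun t => ((t, lab t) : It)).map Prod.fst).sum = p''.1.sum := by
        rw [List.map_map]
        have : (Prod.fst ∘ fun t => ((t, lab t) : It)) = id := by funext t; rfl
        rw [this, List.map_id]
      rw [e3] at e1 e2
      refine ⟨?_, h1⟩
      have h2' : (p''.1.sum : ℤ) + 1 ≤ L := by exact_mod_cast h2
      have h5 : (p''.1.sum : ℤ) * R ≤ (L : ℤ) * R := mul_le_mul_of_nonneg_right (by linarith) hR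
      have h6 : ((p''.1.sum : ℤ) + 1) * S ≤ (L : ℤ) * S :=
        mul_le_mul_of_nonneg_right h2' (by positivity)
      have : (((p''.1.map fun t => ((t, lab t) : It)).map (sz S)).sum : ℤ) ≤ ((L * S : ℕ) : ℤ) := by
        rw [e1, Nat.cast_mul]; linarith
      exact_mod_cast this
  · intro s
    refine cov_map_le (sz S) (items lab gs core) (allP lab gs P) ?_ ?_ s
    · intro p hp
      rcases List.mem_append.mp hp with h | h
      · obtain ⟨l, hl, hpl⟩ := List.mem_flatten.mp h
        obtain ⟨g, hgm, rfl⟩ := List.mem_map.mp hl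
        exact ((hok g hgm).hF p hpl).2.2
      · obtain ⟨p'', hp'', rfl⟩ := mem_mp h
        exact (hP p'' hp'').1
    · intro a
      refine cov_items a hok (fun p hp => (hP p hp).1) ?_
      by_cases ha : a.1 ∈ core
      · exact hcov a.1 ha
      · rw [cnt_eq_zero ha]
        push_cast
        refine add_nonneg ?_ (cov_nonneg P (fun p hp => (hP p hp).1) _)
        apply List.sum_nonneg
        intro x hx
        obtain ⟨g, hgm, rfl⟩ := List.mem_map.mp hx
        exact mul_nonneg (hθ g hgm) (Nat.cast_nonneg _)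
  · rw [tot_mp]
    unfold allP coreP
    rw [tot_append, tot_flatten, tot_mp]
    have h1 : (gs.map fun g => tot g.F).sum ≤ ((gs.map Pk.N).sum : ℕ) + (gs.map Pk.θ).sum := by
      clear * - hok
      induction gs with
      | nil => simp
      | cons g gs ih =>
        have h1 := ih (fun g' hg' => hok g' (List.mem_cons_of_mem _ hg'))
        have h2 := (hok g (by simp)).htot
        simp only [List.map_cons, List.sum_cons, Nat.cast_add]
        linarith
    rw [Nat.cast_add]
    linarith

/-! ### knapsack check with pruning -/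

def dget (DN j : ℕ) : ℕ := (DN >>> (32 * j)) % 4294967296

/-- Enumerate all vectors of counts which might have weight more than `W`. -/
def knap2 (DN W : ℕ) (ps : List (List ℕ × ℕ)) : List (ℕ × ℕ) → ℕ → ℕ → List ℕ → Bool
  | [], _, wt, pre => Nat.ble wt W || Nat.ble wt (W + bonus ps pre)
  | m :: ts, rem, wt, pre => Nat.ble (rem + 1) (dget DN (W + 1 - wt)) ||
      (List.range (rem / m.1 + 1)).all fun k =>
        knap2 DN W ps ts (rem - k * m.1) (wt + k * m.2) (k :: pre)

def dcheck (DN W : ℕ) (tw : List (ℕ × ℕ)) : Bool :=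
  Nat.beq (dget DN 0) 0 && (List.range (W + 2)).all fun j => tw.all fun p =>
    Nat.ble (dget DN j) (p.1 + dget DN (j - p.2))

theorem dcheck_rep {DN W : ℕ} {tw : List (ℕ × ℕ)} (h : dcheck DN W tw = true) {p : ℕ × ℕ}
    (hp : p ∈ tw) : ∀ c j : ℕ, j ≤ W + 1 → dget DN j ≤ c * p.1 + dget DN (j - c * p.2) := by
  intro c
  induction c with
  | zero => intro j _; simp
  | succ c ih =>
    intro j hj
    simp only [dcheck, Bool.and_eq_true, List.all_eq_true, List.mem_range, Nat.ble_eq] at h
    have h1 := h.2 j (by omega) p hp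
    have h2 := ih (j - p.2) (by omega)
    have e : j - (c + 1) * p.2 = j - p.2 - c * p.2 := by
      rw [add_mul, one_mul]; omega
    rw [e, add_mul, one_mul]
    omega

theorem dcheck_sum {DN W : ℕ} {tw : List (ℕ × ℕ)} (h : dcheck DN W tw = true) (cn : ℕ → ℕ) :
    ∀ ts : List (ℕ × ℕ), (∀ p ∈ ts, p ∈ tw) → ∀ j ≤ W + 1,
      j ≤ (ts.map fun p => cn p.1 * p.2).sum → dget DN j ≤ (ts.map fun p => cn p.1 * p.1).sum := by
  intro ts
  induction ts with
  | nil =>
    intro _ j _ hj
    simp only [List.map_nil, List.sum_nil, Nat.le_zero] at hj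
    subst hj
    simp only [dcheck, Bool.and_eq_true] at h
    have := Nat.eq_of_beq_eq_true h.1
    omega
  | cons p ts ih =>
    intro hts j hj hsum
    rw [List.map_cons, List.sum_cons] at hsum ⊢
    have h1 := dcheck_rep h (hts p (by simp)) (cn p.1) j hj
    have h2 := ih (fun q hq => hts q (List.mem_cons_of_mem _ hq)) (j - cn p.1 * p.2) (by omega)
      (by omega)
    omega

theorem knap2_sound {DN W : ℕ} {tw : List (ℕ × ℕ)} (hD : dcheck DN W tw = true)
    (ps : List (List ℕ × ℕ)) (cn : ℕ → ℕ) : ∀ (ts : List (ℕ × ℕ)) (rem wt : ℕ) (pre : List ℕ),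
    (∀ p ∈ ts, p ∈ tw ∧ 0 < p.1) → (ts.map fun p => cn p.1 * p.1).sum ≤ rem →
    knap2 DN W ps ts rem wt pre = true →
    wt + (ts.map fun p => cn p.1 * p.2).sum ≤
      W + bonus ps ((ts.map fun p => cn p.1).reverse ++ pre) := by
  intro ts
  induction ts with
  | nil =>
    intro rem wt pre _ _ h
    simp only [knap2, Bool.or_eq_true, Nat.ble_eq] at h
    simp only [List.map_nil, List.sum_nil, add_zero, List.reverse_nil, List.nil_append]
    omega
  | cons m ts ih =>
    intro rem wt pre hpos hsum h
    simp only [knap2, Bool.or_eq_true, List.all_eq_true, List.mem_range, Nat.ble_eq] at h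
    rcases h with h | h
    · have h1 := dcheck_sum hD cn (m :: ts) (fun p hp => (hpos p hp).1) (W + 1 - wt) (by omega)
      by_contra hcon
      have h2 := h1 (by omega)
      omega
    · rw [List.map_cons, List.sum_cons] at hsum
      have hm : 0 < m.1 := (hpos m (by simp)).2
      have h1 := h (cn m.1) (by
        rw [Nat.lt_succ_iff, Nat.le_div_iff_mul_le hm]; omega)
      have h2 := ih (rem - cn m.1 * m.1) (wt + cn m.1 * m.2) (cn m.1 :: pre)
        (fun t ht => hpos t (List.mem_cons_of_mem _ ht)) (by omega) h1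
      rw [List.map_cons, List.sum_cons, List.map_cons, List.reverse_cons, List.append_assoc,
        List.singleton_append]
      omega

end Vale.Agent.P302
end

section
/-!
The numerical criterion.
-/

namespace Vale.Agent.P302

def labf (x0 s0 v0 : ℤ) (t3 : ℕ) : List (ℕ × ℕ × ℕ) → ℕ → ℤ
  | [], t => if t = t3 then v0 else 0
  | a :: xs, t => if t = a.1 then x0 else if t = a.2.1 then s0 else labf x0 s0 v0 t3 xs t

theorem labf_bd {x0 s0 v0 R : ℤ} (h1 : -R ≤ x0 ∧ x0 ≤ R) (h2 : -R ≤ s0 ∧ s0 ≤ R)
    (h3 : -R ≤ v0 ∧ v0 ≤ R) (hR : 0 ≤ R) (t3 t : ℕ) : ∀ xs : List (ℕ × ℕ × ℕ),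
    -R ≤ labf x0 s0 v0 t3 xs t ∧ labf x0 s0 v0 t3 xs t ≤ R := by
  intro xs
  induction xs with
  | nil => simp only [labf]; split_ifs; exacts [h3, ⟨by linarith, hR⟩]
  | cons a xs ih => simp only [labf]; split_ifs; exacts [h1, h2, ih]

/-- no common sizes -/
def disj (a b : ℕ × ℕ × ℕ) : Prop := a.1 ≠ b.1 ∧ a.1 ≠ b.2.1 ∧ a.2.1 ≠ b.1 ∧ a.2.1 ≠ b.2.1

instance (a b : ℕ × ℕ × ℕ) : Decidable (disj a b) := by unfold disj; infer_instance

theorem labf_mem {x0 s0 v0 : ℤ} {t3 : ℕ} : ∀ {xs : List (ℕ × ℕ × ℕ)}, xs.Pairwise disj →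
    (∀ a ∈ xs, a.1 ≠ a.2.1) → ∀ a ∈ xs, labf x0 s0 v0 t3 xs a.1 = x0 ∧
      labf x0 s0 v0 t3 xs a.2.1 = s0 := by
  intro xs
  induction xs with
  | nil => intro _ _ a ha; simp at ha
  | cons b xs ih =>
    intro hp hn a ha
    rw [List.pairwise_cons] at hp
    rcases List.mem_cons.mp ha with rfl | ha
    · have := hn a (by simp)
      simp only [labf, if_true, if_neg (Ne.symm this), and_self]
    · obtain ⟨h1, h2, h3, h4⟩ := hp.1 a ha
      simp only [labf, if_neg (Ne.symm h1), if_neg (Ne.symm h3), if_neg (Ne.symm h2),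
        if_neg (Ne.symm h4)]
      exact ih hp.2 (fun c hc => hn c (List.mem_cons_of_mem _ hc)) a ha

theorem labf_t3 {x0 s0 v0 : ℤ} {t3 : ℕ} : ∀ {xs : List (ℕ × ℕ × ℕ)},
    (∀ a ∈ xs, a.1 ≠ t3 ∧ a.2.1 ≠ t3) → labf x0 s0 v0 t3 xs t3 = v0 := by
  intro xs
  induction xs with
  | nil => intro _; simp [labf]
  | cons b xs ih =>
    intro hn
    obtain ⟨h1, h2⟩ := hn b (by simp)
    simp only [labf, if_neg (Ne.symm h1), if_neg (Ne.symm h2)]
    exact ih fun c hc => hn c (List.mem_cons_of_mem _ hc)

def wtf : List (ℕ × ℕ) → ℕ → ℕ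
  | [], _ => 0
  | p :: tw, t => if t = p.1 then p.2 else wtf tw t

theorem wtf_mem : ∀ {tw : List (ℕ × ℕ)}, (tw.map Prod.fst).Nodup → ∀ p ∈ tw, wtf tw p.1 = p.2 := by
  intro tw
  induction tw with
  | nil => intro _ p hp; simp at hp
  | cons a tw ih =>
    intro hnd p hp
    rw [List.map_cons, List.nodup_cons] at hnd
    rcases List.mem_cons.mp hp with rfl | hp
    · simp [wtf]
    · have : p.1 ≠ a.1 := fun h => hnd.1 (by rw [← h]; exact List.mem_map_of_mem hp)
      simp only [wtf, if_neg this]
      exact ih hnd.2 p hp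

/-- the gadgets -/
noncomputable def gsf (xs : List (ℕ × ℕ × ℕ)) (t3 e3 n k : ℕ) : List Pk :=
  xs.map (fun a => pkX a.1 a.2.1 a.2.2 n) ++ [pk1 t3 e3 n k]

def psf (tys : List ℕ) (xs : List (ℕ × ℕ × ℕ)) (t3 e3 : ℕ) : List (List ℕ × ℕ) :=
  xs.map (fun a => (vec tys [a.1, a.2.1, a.2.1], a.2.2)) ++ [(vec tys [t3, t3, t3], e3)]

theorem psf_eq (tys : List ℕ) (xs : List (ℕ × ℕ × ℕ)) (t3 e3 n k : ℕ) :
    (gsf xs t3 e3 n k).map (fun g => (vec tys g.T, g.eps)) = psf tys xs t3 e3 := by
  simp [gsf, psf, pkX, pk1, Function.comp_def]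

theorem thsum_gsf (xs : List (ℕ × ℕ × ℕ)) (t3 e3 n k t : ℕ) :
    thsum (gsf xs t3 e3 n k) t = th n * ((xs.map fun a => cnt [a.1, a.2.1, a.2.1] t).sum : ℕ) +
      tc n k * (cnt [t3, t3, t3] t : ℕ) := by
  induction xs with
  | nil => simp [gsf, thsum, pk1]
  | cons a xs ih =>
    have e : gsf (a :: xs) t3 e3 n k = pkX a.1 a.2.1 a.2.2 n :: gsf xs t3 e3 n k := rfl
    rw [e, thsum_cons, ih, List.map_cons, List.sum_cons, Nat.cast_add]
    simp only [pkX]
    ring

/-- weighted patterns with denominators -/
noncomputable def frac (D : ℕ) (P : List (List ℕ × ℕ)) : List (List ℕ × ℝ) :=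
  P.map fun p => (p.1, (p.2 : ℝ) / D)

theorem cov_frac (D : ℕ) (P : List (List ℕ × ℕ)) (t : ℕ) :
    cov (frac D P) t = ((P.map fun p => p.2 * cnt p.1 t).sum : ℕ) / (D : ℝ) := by
  induction P with
  | nil => simp [frac, cov_nil]
  | cons p P ih =>
    have e : frac D (p :: P) = (p.1, (p.2 : ℝ) / D) :: frac D P := rfl
    rw [e, cov_cons, ih, List.map_cons, List.sum_cons, Nat.cast_add, Nat.cast_mul]
    ring

theorem tot_frac (D : ℕ) (P : List (List ℕ × ℕ)) :
    tot (frac D P) = ((P.map Prod.snd).sum : ℕ) / (D : ℝ) := by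
  induction P with
  | nil => simp [frac, tot_nil]
  | cons p P ih =>
    have e : frac D (p :: P) = (p.1, (p.2 : ℝ) / D) :: frac D P := rfl
    rw [e, tot_cons, ih, List.map_cons, List.sum_cons, Nat.cast_add]
    ring

/-- all decidable conditions -/
structure Chk (xs : List (ℕ × ℕ × ℕ)) (t3 e3 L KA q : ℕ) (tw : List (ℕ × ℕ)) (DN D ax a3 : ℕ)
    (core : List ℕ) (P : List (List ℕ × ℕ)) : Prop where
  c1 : xs.Pairwise disj
  c2 : ∀ a ∈ xs, a.1 ≠ a.2.1 ∧ a.1 ≠ t3 ∧ a.2.1 ≠ t3
  c3 : ∀ p ∈ tw, 0 < p.1 ∧ p.1 < L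
  c4 : (tw.map Prod.fst).Nodup
  c5 : ∀ a ∈ xs, a.1 ∈ tw.map Prod.fst ∧ a.2.1 ∈ tw.map Prod.fst ∧ a.1 + 2 * a.2.1 = L ∧
    wtf tw a.1 + 2 * wtf tw a.2.1 = q + a.2.2
  c6 : t3 ∈ tw.map Prod.fst ∧ 3 * t3 = L ∧ 3 * wtf tw t3 = q + e3
  c7 : ∀ t ∈ core, t ∈ tw.map Prod.fst
  c8 : dcheck DN q tw = true
  c9 : knap2 DN q (psf (tw.map Prod.fst) xs t3 e3) tw L 0 [] = true
  c10 : KA * q < (core.map (wtf tw)).sum + (xs.map fun a => a.2.2).sum + e3
  c11 : ∀ p ∈ P, p.1.sum < L ∧ ∀ t ∈ p.1, 0 < t
  c12 : ∀ t ∈ core, D * cnt core t ≤ ax * (xs.map fun a => cnt [a.1, a.2.1, a.2.1] t).sum +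
    a3 * cnt [t3, t3, t3] t + (P.map fun p => p.2 * cnt p.1 t).sum
  c13 : 0 < D

theorem nested_check {xs : List (ℕ × ℕ × ℕ)} {t3 e3 L KA q : ℕ} {tw : List (ℕ × ℕ)}
    {DN D ax a3 : ℕ} {core : List ℕ} {P : List (List ℕ × ℕ)}
    (h : Chk xs t3 e3 L KA q tw DN D ax a3 core P) (n k : ℕ) {γ : ℝ}
    (hax : (ax : ℝ) / D ≤ th n) (ha3 : (a3 : ℝ) / D ≤ tc n k)
    (hfin : (xs.length : ℝ) + 2 / 3 + ((P.map Prod.snd).sum : ℕ) / (D : ℝ) + γ ≤ KA + 1) :
    ∃ n₀ : ℕ, ∀ n : ℕ, n₀ ≤ n → ∃ I : List ℚ, IsInstance I ∧ OPT I = n ∧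
      γ ≤ (OPT I : ℝ) - LP I := by
  have hR1 := (gad_ok n).hR
  have hR2 := (gadc_ok n k).hR
  have hD : (0 : ℝ) < D := by exact_mod_cast h.c13
  set R : ℤ := (gad n).R + (gadc n k).R with hRdef
  set lab := labf (gad n).x0 (gad n).s0 (gadc n k).v0 t3 xs with hlab
  have hlx := labf_mem (x0 := (gad n).x0) (s0 := (gad n).s0) (v0 := (gadc n k).v0) (t3 := t3) h.c1
    (fun a ha => (h.c2 a ha).1)
  have hlt := labf_t3 (x0 := (gad n).x0) (s0 := (gad n).s0) (v0 := (gadc n k).v0) (xs := xs)
    (fun a ha => (h.c2 a ha).2)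
  have hok : ∀ g ∈ gsf xs t3 e3 n k, g.Ok lab := by
    intro g hg
    rcases List.mem_append.mp hg with hg | hg
    · obtain ⟨a, ha, rfl⟩ := List.mem_map.mp hg
      exact pkX_ok (h.c2 a ha).1 (hlx a ha).1 (hlx a ha).2
    · rw [List.mem_singleton] at hg
      subst hg
      exact pk1_ok hlt
  refine gap_nested (lab := lab) (gs := gsf xs t3 e3 n k) (core := core) (tys := tw.map Prod.fst)
    (R := R) (L := L) (KA := KA) (q := q) (w := wtf tw) (P := frac D P) hok ?_ h.c4 ?_ h.c7 ?_ ?_ ?_
    ?_ ?_ ?_ ?_ ?_ ?_ ?_ ?_ ?_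
  · intro t ht
    obtain ⟨p, hp, rfl⟩ := List.mem_map.mp ht
    exact h.c3 p hp
  · intro g hg
    rcases List.mem_append.mp hg with hg | hg
    · obtain ⟨a, ha, rfl⟩ := List.mem_map.mp hg
      refine ⟨by simp only [pkX]; omega, ?_⟩
      intro t ht
      simp only [pkX, List.mem_cons, List.not_mem_nil, or_false] at ht
      rcases ht with rfl | rfl | rfl
      · exact (h.c5 a ha).1
      · exact (h.c5 a ha).2.1
      · exact (h.c5 a ha).2.1
    · rw [List.mem_singleton] at hg
      subst hg
      refine ⟨by simp only [pk1]; omega, ?_⟩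
      intro t ht
      simp only [pk1, List.mem_cons, List.not_mem_nil, or_false] at ht
      rcases ht with rfl | rfl | rfl <;> exact h.c6.1
  · intro t
    have h1 := (gad_ok n).hx
    have h2 := (gad_ok n).hs
    have h3 := (gadc_ok n k).hv
    exact labf_bd (by omega) (by omega) (by omega) (by omega) t3 t xs
  · obtain ⟨p, hp, _⟩ := List.mem_map.mp h.c6.1
    have := (h.c3 p hp).2
    omega
  · omega
  · intro g hg
    rcases List.mem_append.mp hg with hg | hg
    · obtain ⟨a, ha, rfl⟩ := List.mem_map.mp hg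
      have := (h.c5 a ha).2.2.1
      simp only [pkX, List.sum_cons, List.sum_nil]
      omega
    · rw [List.mem_singleton] at hg
      subst hg
      have := h.c6.2.1
      simp only [pk1, List.sum_cons, List.sum_nil]
      omega
  · intro g hg
    rcases List.mem_append.mp hg with hg | hg
    · obtain ⟨a, ha, rfl⟩ := List.mem_map.mp hg
      have := (h.c5 a ha).2.2.2
      simp only [pkX, List.map_cons, List.map_nil, List.sum_cons, List.sum_nil]
      omega
    · rw [List.mem_singleton] at hg
      subst hg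
      have := h.c6.2.2
      simp only [pk1, List.map_cons, List.map_nil, List.sum_cons, List.sum_nil]
      omega
  · unfold gsf
    rw [List.pairwise_append]
    refine ⟨?_, List.pairwise_singleton _ _, ?_⟩
    · rw [List.pairwise_map]
      refine h.c1.imp ?_
      intro a b hab t ht1 ht2
      obtain ⟨h1, h2, h3, h4⟩ := hab
      simp only [pkX, List.mem_cons, List.not_mem_nil, or_false] at ht1 ht2
      omega
    · intro g hg g' hg' t ht1 ht2
      obtain ⟨a, ha, rfl⟩ := List.mem_map.mp hg
      rw [List.mem_singleton] at hg'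
      subst hg'
      obtain ⟨_, h2, h3⟩ := h.c2 a ha
      simp only [pkX, pk1, List.mem_cons, List.not_mem_nil, or_false] at ht1 ht2
      omega
  · intro cn hcn
    rw [psf_eq]
    have h1 := knap2_sound h.c8 (psf (tw.map Prod.fst) xs t3 e3) cn tw L 0 []
      (fun p hp => ⟨hp, (h.c3 p hp).1⟩) (by rw [List.map_map] at hcn; exact hcn) h.c9
    rw [zero_add, List.append_nil] at h1
    have e1 : ((tw.map Prod.fst).map fun t => cn t * wtf tw t) = tw.map fun p => cn p.1 * p.2 := by
      rw [List.map_map]
      apply List.map_congr_left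
      intro p hp
      simp only [Function.comp_apply, wtf_mem h.c4 p hp]
    rw [e1, List.map_map]
    exact h1
  · have e1 : ((gsf xs t3 e3 n k).map Pk.eps).sum = (xs.map fun a => a.2.2).sum + e3 := by
      simp [gsf, pkX, pk1, Function.comp_def]
    rw [e1, ← add_assoc]
    exact h.c10
  · intro p hp
    obtain ⟨p', hp', rfl⟩ := List.mem_map.mp hp
    exact ⟨by positivity, h.c11 p' hp'⟩
  · intro t ht
    rw [thsum_gsf, cov_frac]
    have h1 := h.c12 t ht
    have h2 : ((D : ℕ) : ℝ) * (cnt core t : ℕ) ≤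
        (ax : ℝ) * ((xs.map fun a => cnt [a.1, a.2.1, a.2.1] t).sum : ℕ) +
        (a3 : ℝ) * (cnt [t3, t3, t3] t : ℕ) + ((P.map fun p => p.2 * cnt p.1 t).sum : ℕ) := by
      exact_mod_cast h1
    have h3 : (cnt core t : ℝ) ≤ (ax : ℝ) / D * ((xs.map fun a => cnt [a.1, a.2.1, a.2.1] t).sum : ℕ) +
        (a3 : ℝ) / D * (cnt [t3, t3, t3] t : ℕ) +
        ((P.map fun p => p.2 * cnt p.1 t).sum : ℕ) / (D : ℝ) := by
      have e : (ax : ℝ) / D * ((xs.map fun a => cnt [a.1, a.2.1, a.2.1] t).sum : ℕ) +
        (a3 : ℝ) / D * (cnt [t3, t3, t3] t : ℕ) +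
        ((P.map fun p => p.2 * cnt p.1 t).sum : ℕ) / (D : ℝ) =
        ((ax : ℝ) * ((xs.map fun a => cnt [a.1, a.2.1, a.2.1] t).sum : ℕ) +
        (a3 : ℝ) * (cnt [t3, t3, t3] t : ℕ) + ((P.map fun p => p.2 * cnt p.1 t).sum : ℕ)) / D := by
        ring
      rw [e, le_div_iff₀ hD]
      linarith
    refine h3.trans ?_
    have h4 := mul_le_mul_of_nonneg_right hax
      (Nat.cast_nonneg (α := ℝ) (xs.map fun a => cnt [a.1, a.2.1, a.2.1] t).sum)
    have h5 := mul_le_mul_of_nonneg_right ha3 (Nat.cast_nonneg (α := ℝ) (cnt [t3, t3, t3] t))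
    linarith
  · intro g hg
    rcases List.mem_append.mp hg with hg | hg
    · obtain ⟨a, ha, rfl⟩ := List.mem_map.mp hg
      exact th_nonneg n
    · rw [List.mem_singleton] at hg
      subst hg
      exact tc_nonneg n k
  · rw [tot_frac]
    have e1 : ((gsf xs t3 e3 n k).map Pk.θ).sum = xs.length * th n + tc n k := by
      simp [gsf, pkX, pk1, Function.comp_def]
    rw [e1]
    have h1 := th_le_one n
    have h2 := tc_le' n k
    have h3 : (xs.length : ℝ) * th n ≤ xs.length * 1 :=
      mul_le_mul_of_nonneg_left h1 (Nat.cast_nonneg _)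
    linarith

end Vale.Agent.P302
end
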