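import Vale.Agent.P302.Bdl.B2

set_option linter.all false

/-!
Data of the instance with gap 7619/5000.
-/

namespace Vale.Agent.P302.D42

def xs : List (ℕ × ℕ × ℕ) :=
  [(963384, 118308, 3), (681816, 259092, 3), (635134, 282433, 1), (588206, 305897, 1), (541032, 329484, 1)]
def tw : List (ℕ × ℕ) :=
  [(963384, 39), (800007, 30), (681822, 27), (681816, 27), (658975, 24), (635134, 23), (588213, 21), (588206, 21), (541032, 19), (518191, 18), (400007, 15), (400000, 15), (329491, 12), (329484, 12), (305897, 11), (282433, 10), (259092, 9), (118308, 3)]
def core : List ℕ :=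
  [963384, 800007, 681822, 681816, 658975, 635134, 588213, 588206, 541032, 518191, 400007, 400000, 400000, 400000, 329491, 329491, 329484, 329484, 305897, 305897, 282433, 282433, 282433, 259092, 259092, 259092, 259092, 118308, 118308]
def P : List (List ℕ × ℕ) :=
  [([963384, 118308], 42),
   ([400007, 400007, 329491], 10000030),
   ([681822, 259092, 118308, 118308], 21),
   ([681816, 400007], 42),
   ([658975, 518191], 42000000),
   ([635134, 541032], 42),
   ([588213, 588213], 21000000),
   ([588206, 588206], 21),
   ([681822, 400007], 21999898),
   ([400000, 259092, 259092, 259092], 22000003),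
   ([681822, 400000], 20000081),
   ([800007, 329491], 42000000),
   ([329484, 282433, 282433, 282433], 84),
   ([305897, 305897, 305897, 259092], 28),
   ([329491, 282433, 282433, 282433], 13999944),
   ([329491, 329491, 259092, 259092], 9000013)]
def DN : ℕ := 1979043224470509184061837386582306139617737067274437446412678232694166618333230739865225961979223516652132809015132948565156869312360080802530076940597338342540538895603197068238227559777081950022624997188007694497348134632767657687352111332226893484399542466831504028818729637318371301799055325656677894403039731208127984377100790450868492109989912827168771681312690361374590717129618905977523886530602451332704271073280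

theorem chk : Chk xs 400000 3 1200000 11 42 tw DN 42000000 41999958 27999972 core P where
  c1 := by decide +kernel
  c2 := by decide +kernel
  c3 := by decide +kernel
  c4 := by decide +kernel
  c5 := by decide +kernel
  c6 := by decide +kernel
  c7 := by decide +kernel
  c8 := by decide +kernel
  c9 := by decide +kernel
  c10 := by decide +kernel
  c11 := by decide +kernel
  c12 := by decide +kernel
  c13 := by decide +kernel

theorem final : ∃ n₀ : ℕ, ∀ n : ℕ, n₀ ≤ n → ∃ I : List ℚ, IsInstance I ∧ OPT I = n ∧
    (7619 / 5000 : ℝ) ≤ (OPT I : ℝ) - LP I := by
  have h1 : (999999 / 1000000 : ℝ) ≤ th 35 := by rw [th_eq]; norm_num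
  refine nested_check chk 35 11 ?_ ?_ ?_
  · refine le_trans (le_of_eq ?_) h1
    norm_num
  · rw [tc_eq]
    have h2 : (0 : ℝ) ≤ 1 - (1 / 4) ^ 11 := by norm_num
    have h3 : (1 + 999999 / 1000000 : ℝ) / 3 ≤ (1 + th 35) / 3 := by linarith
    refine le_trans ?_ (mul_le_mul_of_nonneg_right h3 h2)
    norm_num
  · have e1 : xs.length = 5 := rfl
    have e2 : (P.map Prod.snd).sum = 202000249 := by decide +kernel
    rw [e1, e2]
    norm_num

end Vale.Agent.P302.D42
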