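import Vale.Agent.P302.Bdl.B2

set_option linter.all false

section
/-!
General data driven recursion: renaming of gadgets, families of gadgets.
-/

namespace Vale.Agent.P302

theorem lift_perm' {β γ : Type*} [DecidableEq β] (f : β → γ) : ∀ (m : List γ) (l : List β),
    (l.map f).Perm m → ∃ l' : List β, l.Perm l' ∧ l'.map f = m := by
  intro m
  induction m with
  | nil =>
    intro l h
    have := h.eq_nil
    rw [List.map_eq_nil_iff] at this
    subst this
    exact ⟨[], List.Perm.refl _, rfl⟩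
  | cons a m ih =>
    intro l h
    have ha : a ∈ l.map f := h.symm.subset (by simp)
    obtain ⟨b, hb, rfl⟩ := List.mem_map.mp ha
    have hp := List.perm_cons_erase hb
    have h2 : ((l.erase b).map f).Perm m := by
      have := (hp.map f).symm.trans h
      rw [List.map_cons] at this
      exact List.Perm.cons_inv this
    obtain ⟨l', h3, h4⟩ := ih _ h2
    exact ⟨b :: l', hp.trans (h3.cons b), by rw [List.map_cons, h4]⟩

theorem lift_subperm {β γ : Type*} [DecidableEq β] (f : β → γ) {l : List γ} {m : List β}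
    (h : l.Subperm (m.map f)) : ∃ l' : List β, l'.Subperm m ∧ l'.map f = l := by
  obtain ⟨l0, hp, hs⟩ := h
  obtain ⟨l1, h1, rfl⟩ := List.sublist_map_iff.mp hs
  obtain ⟨l2, h2, h3⟩ := lift_perm' f l l1 hp
  exact ⟨l2, h2.symm.subperm.trans h1.subperm, h3⟩

theorem split_map {β γ : Type*} (f : β → γ) : ∀ (bs : List (List γ)) (l : List β),
    l.map f = bs.flatten → ∃ bs' : List (List β), bs'.map (List.map f) = bs ∧ bs'.flatten = l := by
  intro bs
  induction bs with
  | nil =>
    intro l h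
    simp only [List.flatten_nil, List.map_eq_nil_iff] at h
    exact ⟨[], rfl, by simp [h]⟩
  | cons b bs ih =>
    intro l h
    rw [List.flatten_cons] at h
    obtain ⟨l1, l2, rfl, h1, h2⟩ := List.map_eq_append_iff.mp h
    obtain ⟨bs', h3, h4⟩ := ih l2 h2
    exact ⟨l1 :: bs', by simp [h1, h3], by simp [h4]⟩

theorem lift_bins {β γ : Type*} [DecidableEq β] (f : β → γ) {bs : List (List γ)} {m : List β}
    (h : bs.flatten.Subperm (m.map f)) :
    ∃ bs' : List (List β), bs'.map (List.map f) = bs ∧ bs'.flatten.Subperm m := by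
  obtain ⟨l, h1, h2⟩ := lift_subperm f h
  obtain ⟨bs', h3, h4⟩ := split_map f bs l h2
  exact ⟨bs', h3, by rw [h4]; exact h1⟩

/-- restrict the extra items to the types in use -/
theorem restrict_extra {bs : List (List It)} {I E : List It} {T : List ℕ}
    (hb : ∀ b ∈ bs, (b.map Prod.fst).Perm T) (h : bs.flatten.Subperm (I ++ E)) :
    bs.flatten.Subperm (I ++ E.filter fun a => decide (a.1 ∈ T)) := by
  have h1 := h.filter (fun a : It => decide (a.1 ∈ T))
  have h2 : bs.flatten.filter (fun a : It => decide (a.1 ∈ T)) = bs.flatten := by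
    rw [List.filter_eq_self]
    intro a ha
    obtain ⟨b, hbm, hab⟩ := List.mem_flatten.mp ha
    rw [decide_eq_true_eq]
    exact (hb b hbm).subset (List.mem_map_of_mem hab)
  rw [h2, List.filter_append] at h1
  refine h1.trans ?_
  exact (List.Sublist.append (List.filter_sublist) (List.Sublist.refl _)).subperm

/-- the number of bins depends on `lab` only through the types in `T`. -/
theorem Pk.Ok.congr {lab lab' : ℕ → ℤ} {g : Pk} (h : g.Ok lab) (hl : ∀ t ∈ g.T, lab t = lab' t)
    : g.Ok lab' where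
  hI := h.hI
  hT := by
    intro t ht
    rw [← hl t ht]; exact h.hT t ht
  hW := h.hW
  hN := h.hN
  few := by
    intro E hE
    exact h.few E fun a ha hat => by rw [hl _ hat]; exact hE a ha hat
  hF := h.hF
  hFb := h.hFb
  hcov := by
    intro a
    by_cases ha : a.1 ∈ g.T
    · rw [← hl _ ha]; exact h.hcov a
    · have h1 := h.hcov a
      have h2 : cnt g.T a.1 = 0 := cnt_eq_zero ha
      rw [h2] at h1 ⊢
      simpa using h1
  htot := h.htot

theorem Pk.Ok.eps {lab : ℕ → ℤ} {g : Pk} (h : g.Ok lab) (e : ℕ) :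
    ({ g with eps := e } : Pk).Ok lab where
  hI := h.hI
  hT := h.hT
  hW := h.hW
  hN := h.hN
  few := h.few
  hF := h.hF
  hFb := h.hFb
  hcov := h.hcov
  htot := h.htot

/-- there is a gadget of type `T` with extra mass `θ`. -/
def Has (T : List ℕ) (θ : ℝ) : Prop :=
  ∃ (lab : ℕ → ℤ) (g : Pk), g.T = T ∧ g.θ = θ ∧ g.Ok lab

def rn (f : ℕ → ℕ) (a : It) : It := (f a.1, a.2)

theorem cov_nonneg' {g : Pk} {lab : ℕ → ℤ} (h : g.Ok lab) (a : It) : 0 ≤ cov g.F a :=
  cov_nonneg g.F (fun p hp => (h.hF p hp).2.2) a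

theorem cnt_map_rn {f : ℕ → ℕ} {T : List ℕ} (hf : ∀ s ∈ T, ∀ t ∈ T, f s = f t → s = t)
    {l : List It} (hl : ∀ a ∈ l, a.1 ∈ T) {t : ℕ} (ht : t ∈ T) (v : ℤ) :
    cnt (l.map (rn f)) (f t, v) = cnt l (t, v) := by
  induction l with
  | nil => simp [cnt_nil]
  | cons a l ih =>
    rw [List.map_cons, cnt_cons, cnt_cons, ih (fun b hb => hl b (List.mem_cons_of_mem _ hb))]
    have ha := hl a (by simp)
    obtain ⟨s, w⟩ := a
    have : (rn f (s, w) = (f t, v)) ↔ ((s, w) : It) = (t, v) := by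
      simp only [rn, Prod.mk.injEq]
      constructor
      · rintro ⟨h1, h2⟩; exact ⟨hf s ha t ht h1, h2⟩
      · rintro ⟨h1, h2⟩; exact ⟨by rw [h1], h2⟩
    simp only [this]

theorem cov_map_rn {f : ℕ → ℕ} {T : List ℕ} (hf : ∀ s ∈ T, ∀ t ∈ T, f s = f t → s = t)
    {F : List (List It × ℝ)} (hl : ∀ p ∈ F, ∀ a ∈ p.1, a.1 ∈ T) {t : ℕ} (ht : t ∈ T) (v : ℤ) :
    cov (mp (rn f) F) (f t, v) = cov F (t, v) := by
  induction F with
  | nil => simp [mp, cov_nil]
  | cons p F ih =>
    have e : mp (rn f) (p :: F) = (p.1.map (rn f), p.2) :: mp (rn f) F := rfl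
    rw [e, cov_cons, cov_cons, ih (fun q hq => hl q (List.mem_cons_of_mem _ hq)),
      cnt_map_rn hf (hl p (by simp)) ht]

theorem cnt_map_ty {f : ℕ → ℕ} {T : List ℕ} (hf : ∀ s ∈ T, ∀ t ∈ T, f s = f t → s = t)
    {l : List ℕ} (hl : ∀ a ∈ l, a ∈ T) {t : ℕ} (ht : t ∈ T) :
    cnt (l.map f) (f t) = cnt l t := by
  induction l with
  | nil => simp [cnt_nil]
  | cons a l ih =>
    rw [List.map_cons, cnt_cons, cnt_cons, ih (fun b hb => hl b (List.mem_cons_of_mem _ hb))]
    have ha := hl a (by simp)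
    have : (f a = f t) ↔ (a = t) := ⟨hf a ha t ht, fun h => by rw [h]⟩
    simp only [this]

theorem Has.rename {T : List ℕ} {θ : ℝ} (h : Has T θ) (f : ℕ → ℕ)
    (hf : ∀ s ∈ T, ∀ t ∈ T, f s = f t → s = t) : Has (T.map f) θ := by
  obtain ⟨lab, g, rfl, rfl, hok⟩ := h
  -- a left inverse
  obtain ⟨k, hk⟩ : ∃ k : ℕ → ℕ, ∀ t ∈ g.T, k (f t) = t := by
    classical
    refine ⟨fun s => if hs : ∃ t ∈ g.T, f t = s then hs.choose else 0, fun t ht => ?_⟩
    have hs : ∃ t' ∈ g.T, f t' = f t := ⟨t, ht, rfl⟩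
    simp only [dif_pos hs]
    exact hf _ hs.choose_spec.1 t ht hs.choose_spec.2
  refine ⟨fun s => lab (k s), ⟨g.T.map f, g.I.map (rn f), g.N, g.θ, g.R, mp (rn f) g.F, g.eps⟩,
    rfl, rfl, ?_⟩
  have hFT : ∀ p ∈ g.F, ∀ a ∈ p.1, a.1 ∈ g.T := fun p hp a ha =>
    (hok.hF p hp).1.subset (List.mem_map_of_mem ha)
  constructor
  · intro a ha
    obtain ⟨b, hb, rfl⟩ := List.mem_map.mp ha
    obtain ⟨h1, h2⟩ := hok.hI b hb
    exact ⟨List.mem_map_of_mem h1, h2⟩
  · intro t ht
    obtain ⟨s, hs, rfl⟩ := List.mem_map.mp ht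
    show -g.R ≤ lab (k (f s)) ∧ lab (k (f s)) ≤ g.R
    rw [hk s hs]
    exact hok.hT s hs
  · intro w
    have := hok.hW (fun t => w (f t))
    simp only [List.map_map] at this ⊢
    exact this
  · exact hok.hN
  · intro E hE bs hbs hsub
    have h0 := restrict_extra (fun b hb => (hbs b hb).1) hsub
    set E1 := E.filter fun a => decide (a.1 ∈ g.T.map f) with hE1
    have h1 : bs.length = (bs.map (List.map (rn k))).length := by rw [List.length_map]
    rw [h1]
    refine hok.few (E1.map (rn k)) ?_ (bs.map (List.map (rn k))) ?_ ?_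
    · intro a ha hat
      obtain ⟨b, hb, rfl⟩ := List.mem_map.mp ha
      obtain ⟨hb1, hb2⟩ := List.mem_filter.mp hb
      have := hE b hb1 (by simpa using hb2)
      exact this
    · intro b hb
      obtain ⟨b', hb', rfl⟩ := List.mem_map.mp hb
      obtain ⟨g1, g2⟩ := hbs b' hb'
      constructor
      · have := g1.map k
        rw [List.map_map] at this ⊢
        refine List.Perm.trans (List.Perm.of_eq ?_) (this.trans (List.Perm.of_eq ?_))
        · rfl
        · rw [List.map_map]
          conv_rhs => rw [← List.map_id g.T]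
          exact List.map_congr_left fun t ht => hk t ht
      · rw [List.map_map]
        exact g2
    · have h2 := subperm_map (rn k) h0
      rw [List.map_append] at h2
      have h3 : (g.I.map (rn f)).map (rn k) = g.I := by
        rw [List.map_map]
        conv_rhs => rw [← List.map_id g.I]
        refine List.map_congr_left fun a ha => ?_
        have := hk a.1 (hok.hI a ha).1
        simp only [Function.comp_apply, rn, this, id]
      have h4 : (bs.map (List.map (rn k))).flatten = bs.flatten.map (rn k) := by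
        rw [List.map_flatten]
      rw [h4]
      simp only at h2
      rw [h3] at h2
      exact h2
  · intro p hp
    obtain ⟨p', hp', rfl⟩ := mem_mp hp
    obtain ⟨g1, g2, g3⟩ := hok.hF p' hp'
    refine ⟨?_, ?_, g3⟩
    · have := g1.map f
      simp only [List.map_map] at this ⊢
      exact this
    · simp only [List.map_map]
      exact g2
  · intro p hp a ha
    obtain ⟨p', hp', rfl⟩ := mem_mp hp
    obtain ⟨b, hb, rfl⟩ := List.mem_map.mp ha
    exact hok.hFb p' hp' b hb
  · rintro ⟨s, v⟩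
    by_cases hs : s ∈ g.T.map f
    · obtain ⟨t, ht, rfl⟩ := List.mem_map.mp hs
      have h1 := hok.hcov (t, v)
      show (cnt (g.I.map (rn f)) (f t, v) : ℝ) + g.θ * (cnt (g.T.map f) (f t)) *
        ind (lab (k (f t))) v ≤ cov (mp (rn f) g.F) (f t, v)
      rw [cnt_map_rn hf (fun a ha => (hok.hI a ha).1) ht, cov_map_rn hf hFT ht,
        cnt_map_ty hf (fun a ha => ha) ht, hk t ht]
      exact h1
    · have h1 : cnt (g.I.map (rn f)) (s, v) = 0 := by
        apply cnt_eq_zero
        intro hm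
        obtain ⟨b, hb, hb2⟩ := List.mem_map.mp hm
        apply hs
        have h3 := (hok.hI b hb).1
        have : f b.1 = s := by simpa [rn] using congrArg Prod.fst hb2
        rw [← this]
        exact List.mem_map_of_mem h3
      have h2 : cnt (g.T.map f) s = 0 := cnt_eq_zero hs
      show (cnt (g.I.map (rn f)) (s, v) : ℝ) + g.θ * (cnt (g.T.map f) s) * _ ≤ _
      rw [h1, h2]
      simp only [Nat.cast_zero, mul_zero, zero_mul, add_zero]
      apply cov_nonneg
      intro p hp
      obtain ⟨p', hp', rfl⟩ := mem_mp hp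
      exact (hok.hF p' hp').2.2
  · show tot (mp (rn f) g.F) ≤ _
    rw [tot_mp]
    exact hok.htot

/-- description of a fragile pattern: types, weight excess, extra mass -/
structure Sb where
  T : List ℕ
  e : ℕ
  θ : ℝ

theorem build (sb : List Sb) (h : ∀ s ∈ sb, Has s.T s.θ)
    (hd : sb.Pairwise fun s t => ∀ a ∈ s.T, a ∉ t.T) :
    ∃ (lab : ℕ → ℤ) (gs : List Pk) (R : ℤ), (gs.map fun g => (⟨g.T, g.eps, g.θ⟩ : Sb)) = sb ∧
      (∀ g ∈ gs, g.Ok lab ∧ g.R ≤ R) ∧ (∀ t, -R ≤ lab t ∧ lab t ≤ R) ∧ 0 ≤ R := by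
  induction sb with
  | nil => exact ⟨fun _ => 0, [], 0, rfl, by simp, by simp, le_refl _⟩
  | cons s sb ih =>
    rw [List.pairwise_cons] at hd
    obtain ⟨lab, gs, R, h1, h2, h3, h4⟩ := ih (fun t ht => h t (List.mem_cons_of_mem _ ht)) hd.2
    obtain ⟨lab1, g, e1, e2, hok⟩ := h s (by simp)
    have hR := hok.hT
    set lab' : ℕ → ℤ := fun t => if t ∈ s.T then lab1 t else lab t with hlab'
    have hRg : ∀ t ∈ g.T, -|g.R| ≤ lab1 t ∧ lab1 t ≤ |g.R| := by
      intro t ht
      have := hok.hT t ht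
      have h5 := le_abs_self g.R
      constructor <;> linarith
    refine ⟨lab', { g with eps := s.e } :: gs, R + |g.R|, ?_, ?_, ?_, by positivity⟩
    · rw [List.map_cons, h1]
      simp only [e1, e2]
    · intro g' hg'
      rcases List.mem_cons.mp hg' with rfl | hg'
      · refine ⟨(hok.congr ?_).eps _, ?_⟩
        · intro t ht
          rw [e1] at ht
          simp only [hlab', if_pos ht]
        · show g.R ≤ _
          have := le_abs_self g.R
          linarith
      · obtain ⟨g1, g2⟩ := h2 g' hg'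
        refine ⟨g1.congr ?_, ?_⟩
        · intro t ht
          have hmem : (⟨g'.T, g'.eps, g'.θ⟩ : Sb) ∈ sb := by
            rw [← h1]; exact List.mem_map_of_mem (f := fun g : Pk => (⟨g.T, g.eps, g.θ⟩ : Sb)) hg'
          have hnot : t ∉ s.T := fun hts => hd.1 _ hmem t hts ht
          simp only [hlab', if_neg hnot]
        · have := abs_nonneg g.R
          linarith
    · intro t
      by_cases ht : t ∈ s.T
      · simp only [hlab', if_pos ht]
        have := hRg t (by rw [e1]; exact ht)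
        constructor <;> linarith [this.1, this.2]
      · simp only [hlab', if_neg ht]
        have := h3 t
        have h6 := abs_nonneg g.R
        constructor <;> linarith [this.1, this.2]

end Vale.Agent.P302
end

section
/-!
The general nesting step.
-/

namespace Vale.Agent.P302

/-- position and perturbation combined -/
def ph (rl : ℕ → ℕ) (ps : ℕ → ℤ) (M : ℤ) (a : It) : It := (rl a.1, ps a.1 * M + a.2)

theorem sum_ph (ps : ℕ → ℤ) (M : ℤ) (b : List It) :
    (b.map fun a => ps a.1 * M + a.2).sum =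
      (b.map fun a => ps a.1).sum * M + (b.map Prod.snd).sum := by
  induction b with
  | nil => simp
  | cons a b ih => simp only [List.map_cons, List.sum_cons, ih]; ring

theorem sum_ge (R : ℤ) (b : List It) (h : ∀ a ∈ b, -R ≤ a.2) :
    -(R * b.length) ≤ (b.map Prod.snd).sum := by
  induction b with
  | nil => simp
  | cons a b ih =>
    have h1 := ih (fun c hc => h c (List.mem_cons_of_mem _ hc))
    have h2 := h a (by simp)
    simp only [List.map_cons, List.sum_cons, List.length_cons]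
    push_cast
    linarith

theorem items_sum {lab : ℕ → ℤ} (w : ℕ → ℕ) (core : List ℕ) : ∀ (gs : List Pk),
    (∀ g ∈ gs, g.Ok lab) → ((items lab gs core).map fun a => w a.1).sum =
      (gs.map fun g => g.N * (g.T.map w).sum).sum + (core.map w).sum := by
  intro gs
  induction gs with
  | nil =>
    intro _
    simp only [items, List.map_nil, List.flatten_nil, List.nil_append, List.map_map,
      List.sum_nil, zero_add]
    rfl
  | cons g gs ih =>
    intro h1
    have := ih (fun g hg => h1 g (List.mem_cons_of_mem _ hg))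
    have e : items lab (g :: gs) core = g.I ++ items lab gs core := by
      simp [items]
    rw [e, List.map_append, List.sum_append, this, (h1 g (by simp)).hW w, List.map_cons,
      List.sum_cons]
    ring

theorem mem_items {lab : ℕ → ℤ} {gs : List Pk} {core : List ℕ} {tys : List ℕ} {R : ℤ}
    (hok : ∀ g ∈ gs, g.Ok lab) (hg : ∀ g ∈ gs, g.R ≤ R ∧ ∀ t ∈ g.T, t ∈ tys)
    (hlab : ∀ t, -R ≤ lab t ∧ lab t ≤ R) (hc : ∀ t ∈ core, t ∈ tys) :
    ∀ a ∈ items lab gs core, a.1 ∈ tys ∧ -R ≤ a.2 ∧ a.2 ≤ R := by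
  intro a ha
  rcases List.mem_append.mp ha with h | h
  · obtain ⟨l, hl, hal⟩ := List.mem_flatten.mp h
    obtain ⟨g, hgm, rfl⟩ := List.mem_map.mp hl
    obtain ⟨h1, h2, h3⟩ := (hok g hgm).hI a hal
    obtain ⟨h4, h5⟩ := hg g hgm
    exact ⟨h5 _ h1, by linarith, by linarith⟩
  · obtain ⟨t, ht, rfl⟩ := List.mem_map.mp h
    exact ⟨hc t ht, hlab t⟩

theorem nest_few {lab : ℕ → ℤ} {gs : List Pk} {core tys T' : List ℕ} {rl tp : ℕ → ℕ} {ps : ℕ → ℤ}
    {u : ℕ → ℕ} {R M : ℤ} {KA q : ℕ}
    (hok : ∀ g ∈ gs, g.Ok lab) (hg : ∀ g ∈ gs, g.R ≤ R ∧ ∀ t ∈ g.T, t ∈ tys)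
    (hlab : ∀ t, -R ≤ lab t ∧ lab t ≤ R) (hR : 0 ≤ R) (hM : R * T'.length < M)
    (hc : ∀ t ∈ core, t ∈ tys)
    (htp : ∀ r ∈ T', tp r ∈ tys ∧ rl (tp r) = r ∧ u (tp r) = 0)
    (hpos : ∀ g ∈ gs, (g.T.map ps).sum = 0)
    (hu : ∀ g ∈ gs, (g.T.map u).sum + g.eps = q)
    (hdis : gs.Pairwise fun g h => ∀ t ∈ g.T, t ∉ h.T)
    (hchk : ∀ l : List ℕ, (∀ t ∈ l, t ∈ tys) → (l.map rl).Perm T' → (l.map ps).sum ≤ 0 →
      q ≤ (l.map u).sum + bonus (gs.map fun g => (vec tys g.T, g.eps)) (vec tys l))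
    (hK : (core.map u).sum < KA * q + (gs.map Pk.eps).sum)
    (E : List It) (hE : ∀ a ∈ E, a.1 ∈ T' → ps (tp a.1) * M + lab (tp a.1) ≤ a.2)
    (bs : List (List It)) (hbs : ∀ b ∈ bs, (b.map Prod.fst).Perm T' ∧ (b.map Prod.snd).sum ≤ 0)
    (hsub : bs.flatten.Subperm ((items lab gs core).map (ph rl ps M) ++ E)) :
    bs.length < (gs.map Pk.N).sum + KA := by
  have h0 := restrict_extra (fun b hb => (hbs b hb).1) hsub
  set E1 := E.filter (fun a => decide (a.1 ∈ T')) with hE1
  set ψ : It → It := fun a => (tp a.1, a.2 - ps (tp a.1) * M) with hψ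
  have hE1T : ∀ a ∈ E1, a ∈ E ∧ a.1 ∈ T' := by
    intro a ha
    obtain ⟨h1, h2⟩ := List.mem_filter.mp ha
    exact ⟨h1, by simpa using h2⟩
  have hE1ψ : (E1.map ψ).map (ph rl ps M) = E1 := by
    rw [List.map_map]
    conv_rhs => rw [← List.map_id E1]
    apply List.map_congr_left
    intro a ha
    have hat := (hE1T a ha).2
    obtain ⟨x, v⟩ := a
    simp only [Function.comp_apply, hψ, ph, (htp _ hat).2.1, id, Prod.mk.injEq, true_and]
    ring
  set Λ := items lab gs core ++ E1.map ψ with hΛ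
  have h1 : bs.flatten.Subperm (Λ.map (ph rl ps M)) := by
    rw [hΛ, List.map_append, hE1ψ]; exact h0
  obtain ⟨bs', hbs', hsub'⟩ := lift_bins _ h1
  have hlen : bs.length = bs'.length := by rw [← hbs', List.length_map]
  have hitm := mem_items (core := core) hok hg hlab hc
  have hΛm : ∀ a ∈ Λ, a.1 ∈ tys ∧ -R ≤ a.2 := by
    intro a ha
    rcases List.mem_append.mp ha with h | h
    · have := hitm a h
      exact ⟨this.1, this.2.1⟩
    · obtain ⟨e, he, rfl⟩ := List.mem_map.mp h
      obtain ⟨he1, he2⟩ := hE1T e he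
      refine ⟨(htp _ he2).1, ?_⟩
      have g1 := hE e he1 he2
      have g2 := (hlab (tp e.1)).1
      show -R ≤ e.2 - ps (tp e.1) * M
      linarith
  have hmem : ∀ b ∈ bs', ∀ a ∈ b, a ∈ Λ := fun b hb a ha =>
    hsub'.subset (List.mem_flatten.mpr ⟨b, hb, ha⟩)
  have hbin : ∀ b ∈ bs', ((b.map Prod.fst).map rl).Perm T' ∧
      ((b.map Prod.fst).map ps).sum * M + (b.map Prod.snd).sum ≤ 0 := by
    intro b hb
    have hb2 : b.map (ph rl ps M) ∈ bs := by rw [← hbs']; exact List.mem_map_of_mem hb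
    obtain ⟨g1, g2⟩ := hbs _ hb2
    constructor
    · rw [List.map_map] at g1 ⊢
      exact g1
    · rw [List.map_map] at g2 ⊢
      have := sum_ph ps M b
      rw [show (ps ∘ Prod.fst : It → ℤ) = fun a => ps a.1 from rfl, ← this]
      exact g2
  have hps : ∀ b ∈ bs', ((b.map Prod.fst).map ps).sum ≤ 0 := by
    intro b hb
    obtain ⟨g1, g2⟩ := hbin b hb
    have g3 := sum_ge R b (fun a ha => (hΛm a (hmem b hb a ha)).2)
    have g4 : b.length = T'.length := by
      have := g1.length_eq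
      simpa using this
    rw [g4] at g3
    by_contra hcon
    rw [not_le] at hcon
    have hM0 : 0 ≤ M := by
      have : (0 : ℤ) ≤ R * T'.length := by positivity
      linarith
    have : M ≤ ((b.map Prod.fst).map ps).sum * M := by nlinarith
    linarith
  have hlev : ∀ b ∈ bs', q ≤ (b.map fun a => u a.1).sum +
      bonus (gs.map fun g => (vec tys g.T, g.eps)) (vec tys (b.map Prod.fst)) := by
    intro b hb
    have := hchk (b.map Prod.fst) (by
      intro t ht
      obtain ⟨a, ha, rfl⟩ := List.mem_map.mp ht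
      exact (hΛm a (hmem b hb a ha)).1) (hbin b hb).1 (hps b hb)
    rw [List.map_map] at this
    exact this
  have hfew : ∀ g ∈ gs, (bs'.filter fun b => vec tys (b.map Prod.fst) = vec tys g.T).length ≤
      g.N - 1 := by
    intro g hgm
    have hN := (hok g hgm).hN
    have hsplit : ∃ E : List It, (items lab gs core).Perm (g.I ++ E) ∧
        ∀ a ∈ E, a.1 ∈ g.T → lab a.1 ≤ a.2 := by
      obtain ⟨gs1, gs2, hgs⟩ := List.append_of_mem hgm
      refine ⟨(gs1.map Pk.I).flatten ++ ((gs2.map Pk.I).flatten ++ core.map fun t => (t, lab t)),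
        ?_, ?_⟩
      · unfold items
        rw [hgs, List.map_append, List.map_cons, List.flatten_append, List.flatten_cons,
          List.append_assoc, List.append_assoc]
        exact List.perm_append_comm_assoc _ _ _
      · intro a ha hat
        rw [hgs, List.pairwise_append, List.pairwise_cons] at hdis
        obtain ⟨_, ⟨hd1, _⟩, hd2⟩ := hdis
        rcases List.mem_append.mp ha with h | h
        · exfalso
          obtain ⟨l, hl, hal⟩ := List.mem_flatten.mp h
          obtain ⟨g', hg', rfl⟩ := List.mem_map.mp hl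
          have h1 := (hok g' (by rw [hgs]; simp [hg'])).hI a hal
          exact hd2 g' hg' g (by simp) a.1 h1.1 hat
        · rcases List.mem_append.mp h with h | h
          · exfalso
            obtain ⟨l, hl, hal⟩ := List.mem_flatten.mp h
            obtain ⟨g', hg', rfl⟩ := List.mem_map.mp hl
            have h1 := (hok g' (by rw [hgs]; simp [hg'])).hI a hal
            exact hd1 g' hg' a.1 hat h1.1
          · obtain ⟨t, _, rfl⟩ := List.mem_map.mp h
            exact le_refl _
    obtain ⟨E2, hE1', hE2⟩ := hsplit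
    have := (hok g hgm).few (E2 ++ E1.map ψ) ?_
      (bs'.filter fun b => vec tys (b.map Prod.fst) = vec tys g.T) ?_ ?_
    · omega
    · intro a ha hat
      rcases List.mem_append.mp ha with h | h
      · exact hE2 a h hat
      · obtain ⟨e, he, rfl⟩ := List.mem_map.mp h
        obtain ⟨he1, he2⟩ := hE1T e he
        have g1 := hE e he1 he2
        show lab (tp e.1) ≤ e.2 - ps (tp e.1) * M
        linarith
    · intro b hb
      rw [List.mem_filter] at hb
      obtain ⟨hb1, hb2⟩ := hb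
      have hperm : (b.map Prod.fst).Perm g.T :=
        perm_of_vec (fun t ht => by
          obtain ⟨a, ha, rfl⟩ := List.mem_map.mp ht
          exact (hΛm a (hmem b hb1 a ha)).1) (hg g hgm).2 (by simpa using hb2)
      refine ⟨hperm, ?_⟩
      have g2 := (hbin b hb1).2
      rw [(hperm.map ps).sum_eq, hpos g hgm, zero_mul, zero_add] at g2
      exact g2
    · have h1 : ((bs'.filter fun b => vec tys (b.map Prod.fst) = vec tys g.T).flatten).Sublist
          bs'.flatten := (List.filter_sublist).flatten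
      refine h1.subperm.trans (hsub'.trans ?_)
      rw [← List.append_assoc]
      exact (hE1'.append_right _).subperm
  have hbon := sum_bonus' bs' (fun b => vec tys (b.map Prod.fst)) tys gs hfew
  have htot : (bs'.map fun b => (b.map fun a => u a.1).sum).sum ≤
      (Λ.map fun a => u a.1).sum := by
    have := subperm_map_sum_le (fun a : It => u a.1) hsub'
    rwa [List.map_flatten, List.sum_flatten, List.map_map] at this
  have hext : ((E1.map ψ).map fun a => u a.1).sum = 0 := by
    rw [List.map_map, List.sum_eq_zero]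
    intro x hx
    obtain ⟨e, he, rfl⟩ := List.mem_map.mp hx
    exact (htp _ (hE1T e he).2).2.2
  rw [hΛ, List.map_append, List.sum_append, hext, add_zero, items_sum u core gs hok] at htot
  have hle := sum_map_const_le bs' _ q hlev
  rw [List.sum_map_add] at hle
  have hfin : (gs.map fun g => g.N * (g.T.map u).sum).sum +
      (gs.map fun g => g.eps * (g.N - 1)).sum + (gs.map Pk.eps).sum = (gs.map Pk.N).sum * q := by
    have hN : ∀ g ∈ gs, 0 < g.N := fun g h => (hok g h).hN
    clear * - hN hu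
    induction gs with
    | nil => simp
    | cons g gs ih =>
      have h1 := ih (fun g h => hu g (List.mem_cons_of_mem _ h))
        (fun g h => hN g (List.mem_cons_of_mem _ h))
      have h2 := hN g (by simp)
      have h3 := hu g (by simp)
      obtain ⟨n, hn⟩ : ∃ n, g.N = n + 1 := ⟨g.N - 1, by omega⟩
      simp only [List.map_cons, List.sum_cons, hn, Nat.add_sub_cancel, add_mul]
      rw [← h1, ← h3]
      ring
  rw [hlen]
  by_contra hcon
  rw [not_lt] at hcon
  have h5 := Nat.mul_le_mul_right q hcon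
  rw [add_mul] at h5
  omega

/-- pushing forward a covering -/
theorem cov_map_le' {α β : Type*} [DecidableEq α] [DecidableEq β] (f : α → β) (l : List α)
    (F : List (List α × ℝ)) (hF : ∀ p ∈ F, 0 ≤ p.2) (x : α → ℝ) (hx : ∀ a, 0 ≤ x a)
    (h : ∀ a, (cnt l a : ℝ) + x a ≤ cov F a) (B0 : Finset α) (s : β)
    (hB0 : ∀ a ∈ B0, f a = s) :
    (cnt (l.map f) s : ℝ) + ∑ a ∈ B0, x a ≤ cov (mp f F) s := by
  classical
  set B : Finset α := (l.toFinset.filter fun a => f a = s) ∪ B0 with hB
  have hBs : ∀ a ∈ B, f a = s := by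
    intro a ha
    rcases Finset.mem_union.mp ha with h | h
    · exact (Finset.mem_filter.mp h).2
    · exact hB0 a h
  have e1 : (cnt (l.map f) s : ℝ) = ∑ a ∈ B, (cnt l a : ℝ) := by
    rw [← Nat.cast_sum, sum_cnt]
    congr 1
    unfold cnt
    rw [List.count, List.countP_map]
    apply List.countP_congr
    intro a ha
    simp only [Function.comp_apply, beq_iff_eq, decide_eq_true_eq]
    constructor
    · intro hfa
      exact Finset.mem_union_left _ (Finset.mem_filter.mpr ⟨List.mem_toFinset.mpr ha, hfa⟩)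
    · exact hBs a
  have e2 : ∀ F : List (List α × ℝ), (∀ p ∈ F, 0 ≤ p.2) → ∑ a ∈ B, cov F a ≤ cov (mp f F) s := by
    intro F
    induction F with
    | nil => intro _; simp [mp, cov_nil]
    | cons p F ih =>
      intro hF
      have h1 := ih (fun q hq => hF q (List.mem_cons_of_mem _ hq))
      have h2 : mp f (p :: F) = (p.1.map f, p.2) :: mp f F := rfl
      rw [h2, cov_cons]
      simp_rw [cov_cons]
      rw [Finset.sum_add_distrib]
      refine add_le_add ?_ h1
      rw [← Finset.sum_mul]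
      refine mul_le_mul_of_nonneg_right ?_ (hF p (by simp))
      rw [← Nat.cast_sum, sum_cnt]
      norm_cast
      unfold cnt
      rw [List.count, List.countP_map]
      apply List.countP_mono_left
      intro a _
      simp only [Function.comp_apply, beq_iff_eq, decide_eq_true_eq]
      exact hBs a
  have e3 : ∑ a ∈ B0, x a ≤ ∑ a ∈ B, x a :=
    Finset.sum_le_sum_of_subset_of_nonneg Finset.subset_union_right fun a _ _ => hx a
  rw [e1]
  refine le_trans (add_le_add_right e3 _) ?_
  rw [← Finset.sum_add_distrib]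
  exact le_trans (Finset.sum_le_sum fun a _ => h a) (e2 F hF)

theorem cov_items' {lab : ℕ → ℤ} {core : List ℕ} {P : List (List ℕ × ℝ)} (a : It) (x : ℝ)
    {gs : List Pk} (hok : ∀ g ∈ gs, g.Ok lab) (hP : ∀ p ∈ P, 0 ≤ p.2)
    (h : (cnt core a.1 : ℝ) + x ≤ thsum gs a.1 + cov P a.1) :
    (cnt (items lab gs core) a : ℝ) + x * ind (lab a.1) a.2 ≤ cov (allP lab gs P) a := by
  have hinj : Function.Injective (fun t : ℕ => ((t, lab t) : It)) := fun x y hxy => by
    simp only [Prod.mk.injEq] at hxy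
    exact hxy.1
  have e1 : ∀ gs : List Pk, (∀ g ∈ gs, g.Ok lab) →
      (cnt (gs.map Pk.I).flatten a : ℝ) + thsum gs a.1 * ind (lab a.1) a.2 ≤
        cov (gs.map Pk.F).flatten a := by
    intro gs
    induction gs with
    | nil => intro _; simp [cnt_nil, cov_nil, thsum]
    | cons g gs ih =>
      intro hok
      have h1 := ih (fun g' hg' => hok g' (List.mem_cons_of_mem _ hg'))
      have h2 := (hok g (by simp)).hcov a
      simp only [List.map_cons, List.flatten_cons]
      rw [ccnt_append, cov_append, thsum_cons, add_mul]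
      linarith
  have h1 := e1 gs hok
  unfold items allP
  rw [ccnt_append, cov_append]
  by_cases hl : lab a.1 = a.2
  · have ha : a = (a.1, lab a.1) := by rw [hl]
    have e2 : cnt (core.map fun t => (t, lab t)) a = cnt core a.1 := by
      conv_lhs => rw [ha]
      exact cnt_map hinj core a.1
    have e3 : cov (coreP lab P) a = cov P a.1 := by
      conv_lhs => rw [ha]
      exact cov_mp hinj P a.1
    have e4 : ind (lab a.1) a.2 = 1 := by simp [ind, hl]
    rw [e2, e3, e4, mul_one]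
    rw [e4, mul_one] at h1
    linarith
  · have e2 : cnt (core.map fun t => (t, lab t)) a = 0 := by
      apply cnt_eq_zero
      intro hm
      obtain ⟨t, _, rfl⟩ := List.mem_map.mp hm
      exact hl rfl
    have e3 : 0 ≤ cov (coreP lab P) a := cov_nonneg _ (by
      intro p hp
      obtain ⟨p', hp', rfl⟩ := mem_mp hp
      exact hP p' hp') a
    have e4 : ind (lab a.1) a.2 = 0 := by simp [ind, hl]
    rw [e2, e4]
    rw [e4, mul_zero] at h1
    push_cast
    linarith

end Vale.Agent.P302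
end

section
/-!
The nesting step as an existence statement.
-/

namespace Vale.Agent.P302

theorem thsum_nonneg' {gs : List Pk} (hθ : ∀ g ∈ gs, 0 ≤ g.θ) (t : ℕ) : 0 ≤ thsum gs t := by
  apply List.sum_nonneg
  intro x hx
  obtain ⟨g, hgm, rfl⟩ := List.mem_map.mp hx
  exact mul_nonneg (hθ g hgm) (Nat.cast_nonneg _)

/-- sum of extra mass over fragile patterns -/
noncomputable def ths (sb : List Sb) (t : ℕ) : ℝ := (sb.map fun s => s.θ * ((cnt s.T t : ℕ) : ℝ)).sum

theorem has_nest {sb : List Sb} {core tys T' : List ℕ} {rl tp : ℕ → ℕ} {ps : ℕ → ℤ}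
    {u : ℕ → ℕ} {KA q : ℕ} {P : List (List ℕ × ℝ)} {A : ℤ} {θ' : ℝ}
    (hsub : ∀ s ∈ sb, Has s.T s.θ ∧ 0 ≤ s.θ)
    (hT : ∀ s ∈ sb, (∀ t ∈ s.T, t ∈ tys) ∧ (s.T.map rl).Perm T' ∧ (s.T.map ps).sum = 0 ∧
      (s.T.map u).sum + s.e = q)
    (hdis : sb.Pairwise fun s t => ∀ a ∈ s.T, a ∉ t.T)
    (hA : ∀ t ∈ tys, -A ≤ ps t ∧ ps t ≤ A) (hA0 : 0 ≤ A)
    (hc : ∀ t ∈ core, t ∈ tys) (hKA : 0 < KA)
    (hcT : (core.map rl).Perm (List.replicate KA T').flatten)
    (htp : ∀ r ∈ T', tp r ∈ tys ∧ rl (tp r) = r ∧ u (tp r) = 0)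
    (hchk : ∀ l : List ℕ, (∀ t ∈ l, t ∈ tys) → (l.map rl).Perm T' → (l.map ps).sum ≤ 0 →
      q ≤ (l.map u).sum + bonus (sb.map fun s => (vec tys s.T, s.e)) (vec tys l))
    (hK : (core.map u).sum < KA * q + (sb.map Sb.e).sum)
    (hP : ∀ p ∈ P, 0 ≤ p.2 ∧ (p.1.map rl).Perm T' ∧ (p.1.map ps).sum < 0 ∧ ∀ t ∈ p.1, t ∈ tys)
    (hcov : ∀ t ∈ tys, (cnt core t : ℝ) + (if tp (rl t) = t then θ' * ((cnt T' (rl t) : ℕ) : ℝ) else 0) ≤
      ths sb t + cov P t)
    (hθ' : 0 ≤ θ')
    (htot : (sb.map Sb.θ).sum + tot P ≤ KA + θ') : Has T' θ' := by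
  obtain ⟨lab, gs, R, hgs, hg1, hlab, hR⟩ := build sb (fun s hs => (hsub s hs).1) hdis
  have hok : ∀ g ∈ gs, g.Ok lab := fun g hg => (hg1 g hg).1
  have hmemsb : ∀ g ∈ gs, (⟨g.T, g.eps, g.θ⟩ : Sb) ∈ sb := by
    intro g hg
    rw [← hgs]
    exact List.mem_map_of_mem (f := fun g : Pk => (⟨g.T, g.eps, g.θ⟩ : Sb)) hg
  have hθ : ∀ g ∈ gs, 0 ≤ g.θ := fun g hg => (hsub _ (hmemsb g hg)).2
  have hg : ∀ g ∈ gs, g.R ≤ R ∧ ∀ t ∈ g.T, t ∈ tys := fun g hg =>
    ⟨(hg1 g hg).2, (hT _ (hmemsb g hg)).1⟩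
  have hdis' : gs.Pairwise fun g h => ∀ t ∈ g.T, t ∉ h.T := by
    rw [← hgs, List.pairwise_map] at hdis
    exact hdis
  have hbon : (gs.map fun g => (vec tys g.T, g.eps)) = sb.map fun s => (vec tys s.T, s.e) := by
    rw [← hgs, List.map_map]; rfl
  have heps : (gs.map Pk.eps).sum = (sb.map Sb.e).sum := by
    rw [← hgs, List.map_map]; rfl
  have hthr : (gs.map Pk.θ).sum = (sb.map Sb.θ).sum := by
    rw [← hgs, List.map_map]; rfl
  have hths : ∀ t, thsum gs t = ths sb t := by
    intro t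
    unfold thsum ths
    rw [← hgs, List.map_map]; rfl
  set M : ℤ := R * T'.length + 1 with hM
  have hM0 : 0 < M := by positivity
  have hcT' : ∀ t ∈ core, rl t ∈ T' := by
    intro t ht
    have := hcT.subset (List.mem_map_of_mem ht)
    obtain ⟨l, hl, hl2⟩ := List.mem_flatten.mp this
    rw [List.eq_of_mem_replicate hl] at hl2
    exact hl2
  have hitm := mem_items (core := core) hok hg hlab hc
  have hitr : ∀ a ∈ items lab gs core, rl a.1 ∈ T' := by
    intro a ha
    rcases List.mem_append.mp ha with h | h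
    · obtain ⟨l, hl, hal⟩ := List.mem_flatten.mp h
      obtain ⟨g, hgm, rfl⟩ := List.mem_map.mp hl
      obtain ⟨h1, h2, h3⟩ := (hok g hgm).hI a hal
      exact (hT _ (hmemsb g hgm)).2.1.subset (List.mem_map_of_mem h1)
    · obtain ⟨t, ht, rfl⟩ := List.mem_map.mp h
      exact hcT' t ht
  have hbd : ∀ t ∈ tys, ∀ v : ℤ, -R ≤ v → v ≤ R → -(A * M + R) ≤ ps t * M + v ∧
      ps t * M + v ≤ A * M + R := by
    intro t ht v h1 h2
    obtain ⟨h3, h4⟩ := hA t ht
    constructor <;> nlinarith
  refine ⟨fun r => ps (tp r) * M + lab (tp r), ⟨T', (items lab gs core).map (ph rl ps M),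
    (gs.map Pk.N).sum + KA, θ', A * M + R, mp (ph rl ps M) (allP lab gs P), 0⟩, rfl, rfl, ?_⟩
  have hall : ∀ p ∈ allP lab gs P, ((p.1.map (ph rl ps M)).map Prod.fst).Perm T' ∧
      ((p.1.map (ph rl ps M)).map Prod.snd).sum ≤ 0 ∧ 0 ≤ p.2 ∧
      ∀ a ∈ p.1, a.1 ∈ tys ∧ -R ≤ a.2 ∧ a.2 ≤ R := by
    intro p hp
    have hs : ((p.1.map (ph rl ps M)).map Prod.snd).sum =
        ((p.1.map Prod.fst).map ps).sum * M + (p.1.map Prod.snd).sum := by
      rw [List.map_map, List.map_map]
      exact sum_ph ps M p.1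
    have hr : ((p.1.map (ph rl ps M)).map Prod.fst) = (p.1.map Prod.fst).map rl := by
      rw [List.map_map, List.map_map]; rfl
    rw [hs, hr]
    rcases List.mem_append.mp hp with h | h
    · obtain ⟨l, hl, hpl⟩ := List.mem_flatten.mp h
      obtain ⟨g, hgm, rfl⟩ := List.mem_map.mp hl
      obtain ⟨h1, h2, h3⟩ := (hok g hgm).hF p hpl
      obtain ⟨k1, k2, k3, k4⟩ := hT _ (hmemsb g hgm)
      have h4 := (hok g hgm).hFb p hpl
      refine ⟨(h1.map rl).trans k2, ?_, h3, ?_⟩
      · rw [(h1.map ps).sum_eq, k3, zero_mul, zero_add]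
        exact h2
      · intro a ha
        have h5 := h4 a ha
        have h6 := (hg g hgm).1
        exact ⟨k1 _ (h1.subset (List.mem_map_of_mem ha)), by linarith, by linarith⟩
    · obtain ⟨p', hp', rfl⟩ := mem_mp h
      obtain ⟨h1, h2, h3, h4⟩ := hP p' hp'
      have e1 : ((p'.1.map fun t => ((t, lab t) : It)).map Prod.fst) = p'.1 := by
        rw [List.map_map]
        have : (Prod.fst ∘ fun t => ((t, lab t) : It)) = id := by funext t; rfl
        rw [this, List.map_id]
      dsimp only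
      rw [e1]
      refine ⟨h2, ?_, h1, ?_⟩
      · have e2 : ((p'.1.map fun t => ((t, lab t) : It)).map Prod.snd).sum ≤ R * p'.1.length := by
          clear * - hlab
          induction p'.1 with
          | nil => simp
          | cons a l ih =>
            have := (hlab a).2
            simp only [List.map_cons, List.sum_cons, List.length_cons]
            push_cast
            linarith
        have e3 : p'.1.length = T'.length := by
          have := h2.length_eq
          simpa using this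
        rw [e3] at e2
        have e4 : (p'.1.map ps).sum ≤ -1 := by omega
        have e5 : (p'.1.map ps).sum * M ≤ -1 * M := mul_le_mul_of_nonneg_right e4 hM0.le
        linarith
      · intro a ha
        obtain ⟨t, ht, rfl⟩ := List.mem_map.mp ha
        exact ⟨h4 t ht, hlab t⟩
  constructor
  · intro a ha
    obtain ⟨b, hb, rfl⟩ := List.mem_map.mp ha
    obtain ⟨h1, h2, h3⟩ := hitm b hb
    exact ⟨hitr b hb, hbd _ h1 _ h2 h3⟩
  · intro r hr
    exact hbd _ (htp r hr).1 _ (hlab _).1 (hlab _).2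
  · intro w
    show (((items lab gs core).map (ph rl ps M)).map fun a => w a.1).sum =
      ((gs.map Pk.N).sum + KA) * (T'.map w).sum
    rw [List.map_map]
    have e0 : ((fun a : It => w a.1) ∘ ph rl ps M) = fun a : It => (w ∘ rl) a.1 := by
      funext a; rfl
    rw [e0, items_sum (w ∘ rl) core gs hok]
    have e1 : (core.map (w ∘ rl)).sum = KA * (T'.map w).sum := by
      rw [← List.map_map, (hcT.map w).sum_eq]
      clear * -
      induction KA with
      | zero => simp
      | succ n ih =>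
        rw [List.replicate_succ, List.flatten_cons, List.map_append, List.sum_append, ih]
        ring
    have e2 : (gs.map fun g => g.N * (g.T.map (w ∘ rl)).sum).sum =
        (gs.map Pk.N).sum * (T'.map w).sum := by
      have h3 : ∀ g ∈ gs, (g.T.map rl).Perm T' := fun g hg => (hT _ (hmemsb g hg)).2.1
      clear * - h3
      induction gs with
      | nil => simp
      | cons g gs ih =>
        have h4 := ih (fun g hg => h3 g (List.mem_cons_of_mem _ hg))
        have h5 := h3 g (by simp)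
        simp only [List.map_cons, List.sum_cons, h4]
        rw [← List.map_map, (h5.map w).sum_eq]
        ring
    rw [e1, e2]
    ring
  · show 0 < (gs.map Pk.N).sum + KA
    omega
  · intro E hE bs hbs hsb
    exact nest_few (q := q) (u := u) (tp := tp) hok hg hlab hR (by omega) hc htp
      (fun g hg => (hT _ (hmemsb g hg)).2.2.1) (fun g hg => (hT _ (hmemsb g hg)).2.2.2) hdis'
      (by rw [hbon]; exact hchk) (by rw [heps]; exact hK) E hE bs hbs hsb
  · intro p hp
    obtain ⟨p', hp', rfl⟩ := mem_mp hp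
    obtain ⟨h1, h2, h3, h4⟩ := hall p' hp'
    exact ⟨h1, h2, h3⟩
  · intro p hp a ha
    obtain ⟨p', hp', rfl⟩ := mem_mp hp
    obtain ⟨h1, h2, h3, h4⟩ := hall p' hp'
    obtain ⟨b, hb, rfl⟩ := List.mem_map.mp ha
    obtain ⟨h5, h6, h7⟩ := h4 b hb
    exact hbd _ h5 _ h6 h7
  · rintro ⟨s, v⟩
    show (cnt ((items lab gs core).map (ph rl ps M)) (s, v) : ℝ) + θ' * (cnt T' s) *
      ind (ps (tp s) * M + lab (tp s)) v ≤ cov (mp (ph rl ps M) (allP lab gs P)) (s, v)
    have hFn : ∀ p ∈ allP lab gs P, 0 ≤ p.2 := fun p hp => (hall p hp).2.2.1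
    set x : It → ℝ := fun a => (if tp (rl a.1) = a.1 then θ' * ((cnt T' (rl a.1) : ℕ) : ℝ) else 0) *
      ind (lab a.1) a.2 with hx
    have hx0 : ∀ a, 0 ≤ x a := by
      intro a
      simp only [hx]
      apply mul_nonneg
      · split_ifs
        · exact mul_nonneg hθ' (Nat.cast_nonneg _)
        · exact le_refl _
      · unfold ind; split_ifs <;> norm_num
    have hmain : ∀ a, (cnt (items lab gs core) a : ℝ) + x a ≤ cov (allP lab gs P) a := by
      intro a
      refine cov_items' a _ hok (fun p hp => (hP p hp).1) ?_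
      rw [hths]
      by_cases ha : a.1 ∈ tys
      · exact hcov a.1 ha
      · have h1 : cnt core a.1 = 0 := cnt_eq_zero fun h => ha (hc _ h)
        have h2 : (if tp (rl a.1) = a.1 then θ' * ((cnt T' (rl a.1) : ℕ) : ℝ) else 0) = 0 := by
          split_ifs with h3
          · have h4 : rl a.1 ∉ T' := fun h => ha (by rw [← h3]; exact (htp _ h).1)
            rw [cnt_eq_zero h4]; simp
          · rfl
        rw [h1, h2]
        push_cast
        have h3 := thsum_nonneg' hθ a.1
        rw [hths] at h3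
        have h4 := cov_nonneg P (fun p hp => (hP p hp).1) a.1
        linarith
    by_cases hs : s ∈ T' ∧ ps (tp s) * M + lab (tp s) = v
    · obtain ⟨hs1, hs2⟩ := hs
      obtain ⟨g1, g2, g3⟩ := htp s hs1
      have := cov_map_le' (ph rl ps M) (items lab gs core) (allP lab gs P) hFn x hx0 hmain
        {(tp s, lab (tp s))} (s, v) (by
          intro a ha
          rw [Finset.mem_singleton] at ha
          subst ha
          simp only [ph, g2, hs2])
      rw [Finset.sum_singleton] at this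
      have e1 : x (tp s, lab (tp s)) = θ' * (cnt T' s) * ind (ps (tp s) * M + lab (tp s)) v := by
        simp only [hx, g2, if_true, ind, hs2]
      rw [e1] at this
      exact this
    · have e1 : θ' * (cnt T' s) * ind (ps (tp s) * M + lab (tp s)) v = 0 := by
        by_cases hs1 : s ∈ T'
        · have : ¬ ps (tp s) * M + lab (tp s) = v := fun h => hs ⟨hs1, h⟩
          simp [ind, this]
        · rw [cnt_eq_zero hs1]; simp
      have := cov_map_le' (ph rl ps M) (items lab gs core) (allP lab gs P) hFn x hx0 hmain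
        ∅ (s, v) (by intro a ha; simp at ha)
      rw [Finset.sum_empty] at this
      rw [e1]
      exact this
  · show tot (mp (ph rl ps M) (allP lab gs P)) ≤ (((gs.map Pk.N).sum + KA : ℕ) : ℝ) + θ'
    rw [tot_mp]
    unfold allP coreP
    rw [tot_append, tot_flatten, tot_mp]
    have h1 : (gs.map fun g => tot g.F).sum ≤ ((gs.map Pk.N).sum : ℕ) + (gs.map Pk.θ).sum := by
      clear * - hok
      induction gs with
      | nil => simp
      | cons g gs ih =>
        have h1 := ih (fun g' hg' => hok g' (List.mem_cons_of_mem _ hg'))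
        have h2 := (hok g (by simp)).htot
        simp only [List.map_cons, List.sum_cons, Nat.cast_add]
        linarith
    rw [hthr] at h1
    rw [Nat.cast_add]
    linarith

end Vale.Agent.P302
end

section
/-!
Finite data for a nesting step.
-/

namespace Vale.Agent.P302

/-- check all tuples of slots -/
def chkL (tys : List ℕ) (fr : List (List ℕ × ℕ)) (q B : ℕ) :
    List (List (ℕ × ℕ × ℕ)) → ℕ → ℕ → List ℕ → Bool
  | [], a, w, l => Nat.ble (B + 1) a || Nat.ble q w || Nat.ble q (w + bonus fr (vec tys l))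
  | L :: Ls, a, w, l => L.all fun s => chkL tys fr q B Ls (a + s.2.1) (w + s.2.2) (s.1 :: l)

theorem vec_perm {tys : List ℕ} {l m : List ℕ} (h : l.Perm m) : vec tys l = vec tys m := by
  unfold vec
  congr 1
  apply List.map_congr_left
  intro t _
  exact h.count_eq t

theorem chkL_sound {tys : List ℕ} {fr : List (List ℕ × ℕ)} {q B : ℕ} {rl psN u : ℕ → ℕ} :
    ∀ (T : List ℕ) (a w : ℕ) (pre l : List ℕ), (∀ t ∈ l, t ∈ tys) → l.map rl = T →
      chkL tys fr q B (T.map fun r => (tys.filter fun t => decide (rl t = r)).map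
        fun t => (t, psN t, u t)) a w pre = true →
      a + (l.map psN).sum ≤ B → q ≤ w + (l.map u).sum + bonus fr (vec tys (pre ++ l)) := by
  intro T
  induction T with
  | nil =>
    intro a w pre l hl hT h hs
    have hl0 : l = [] := by simpa using hT
    subst hl0
    simp only [List.map_nil, chkL, Bool.or_eq_true, Nat.ble_eq, List.sum_nil, add_zero,
      List.append_nil] at h hs ⊢
    rcases h with (h | h) | h <;> omega
  | cons r T ih =>
    intro a w pre l hl hT h hs
    match l, hT, hl, hs with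
    | [], hT, hl, hs => simp at hT
    | x :: l, hT, hl, hs =>
      simp only [List.map_cons, List.cons.injEq] at hT
      obtain ⟨h1, h2⟩ := hT
      simp only [List.map_cons, chkL, List.all_eq_true] at h
      have hx : (x, psN x, u x) ∈ (tys.filter fun t => decide (rl t = r)).map
          fun t => (t, psN t, u t) := by
        apply List.mem_map_of_mem (f := fun t => (t, psN t, u t))
        rw [List.mem_filter]
        exact ⟨hl x (by simp), by simpa using h1⟩
      have h3 := h _ hx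
      have h4 := ih (a + psN x) (w + u x) (x :: pre) l (fun t ht => hl t (List.mem_cons_of_mem _ ht))
        h2 h3 (by simp only [List.map_cons, List.sum_cons] at hs; omega)
      have h5 : vec tys ((x :: pre) ++ l) = vec tys (pre ++ x :: l) :=
        vec_perm (by
          rw [List.cons_append]
          exact (List.perm_middle).symm)
      rw [h5] at h4
      simp only [List.map_cons, List.sum_cons]
      omega

def rlf (sl : List (ℕ × ℕ × ℕ)) (t : ℕ) : ℕ := (sl.getD t (0, 0, 0)).1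
def psf' (sl : List (ℕ × ℕ × ℕ)) (t : ℕ) : ℕ := (sl.getD t (0, 0, 0)).2.1
def uf (sl : List (ℕ × ℕ × ℕ)) (t : ℕ) : ℕ := (sl.getD t (0, 0, 0)).2.2

/-- all decidable conditions of a nesting step. `sl`: slots (role, position + B, level),
`sb`: fragile patterns (slots, excess, lower and upper extra mass), `P`: core patterns with lower
and upper weights. -/
structure NChk (sl : List (ℕ × ℕ × ℕ)) (LL : List (List (ℕ × ℕ × ℕ))) (B KA q D b0 b1 : ℕ)
    (T' tpl core : List ℕ) (sb : List (List ℕ × ℕ × ℕ × ℕ)) (P : List (List ℕ × ℕ × ℕ)) :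
    Prop where
  c0 : 0 < D ∧ 0 < KA
  c1 : ∀ s ∈ sb, (∀ t ∈ s.1, t < sl.length) ∧ s.1.map (rlf sl) = T' ∧
    (s.1.map (psf' sl)).sum = T'.length * B ∧ (s.1.map (uf sl)).sum + s.2.1 = q
  c2 : sb.Pairwise fun s t => ∀ a ∈ s.1, a ∉ t.1
  c3 : ∀ s ∈ sl, s.2.1 ≤ 2 * B
  c4 : ∀ t ∈ core, t < sl.length
  c5 : core.map (rlf sl) = (List.replicate KA T').flatten
  c6 : ∀ r ∈ T', tpl.getD r 0 < sl.length ∧ rlf sl (tpl.getD r 0) = r ∧ uf sl (tpl.getD r 0) = 0
  c7 : LL = T'.map fun r => ((List.range sl.length).filter fun t => decide (rlf sl t = r)).map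
    fun t => (t, psf' sl t, uf sl t)
  c8 : chkL (List.range sl.length) (sb.map fun s => (vec (List.range sl.length) s.1, s.2.1)) q
    (T'.length * B) LL 0 0 [] = true
  c9 : (core.map (uf sl)).sum < KA * q + (sb.map fun s => s.2.1).sum
  c10 : ∀ p ∈ P, p.1.map (rlf sl) = T' ∧ (p.1.map (psf' sl)).sum < T'.length * B ∧
    ∀ t ∈ p.1, t < sl.length
  c11 : ∀ t ∈ List.range sl.length, D * cnt core t +
    (if tpl.getD (rlf sl t) 0 = t then b0 * cnt T' (rlf sl t) else 0) ≤
      (sb.map fun s => s.2.2.1 * cnt s.1 t).sum + (P.map fun p => p.2.1 * cnt p.1 t).sum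
  c12 : ∀ t ∈ List.range sl.length, D * cnt core t +
    (if tpl.getD (rlf sl t) 0 = t then b1 * cnt T' (rlf sl t) else 0) ≤
      (sb.map fun s => s.2.2.2 * cnt s.1 t).sum + (P.map fun p => p.2.2 * cnt p.1 t).sum
  c13 : (sb.map fun s => s.2.2.1).sum + (P.map fun p => p.2.1).sum ≤ D * KA + b0
  c14 : (sb.map fun s => s.2.2.2).sum + (P.map fun p => p.2.2).sum ≤ D * KA + b1

theorem sum_lin {α : Type*} (l : List α) (f g : α → ℕ) (t D : ℝ) :
    (l.map fun a => ((1 - t) * (f a : ℝ) + t * (g a : ℝ)) / D).sum =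
      ((1 - t) * ((l.map f).sum : ℕ) + t * ((l.map g).sum : ℕ)) / D := by
  induction l with
  | nil => simp
  | cons a l ih =>
    simp only [List.map_cons, List.sum_cons, ih, Nat.cast_add]
    ring

theorem has_step {sl : List (ℕ × ℕ × ℕ)} {LL : List (List (ℕ × ℕ × ℕ))} {B KA q D b0 b1 : ℕ}
    {T' tpl core : List ℕ} {sb : List (List ℕ × ℕ × ℕ × ℕ)} {P : List (List ℕ × ℕ × ℕ)}
    (h : NChk sl LL B KA q D b0 b1 T' tpl core sb P) {t : ℝ} (ht0 : 0 ≤ t) (ht1 : t ≤ 1)
    (hsub : ∀ s ∈ sb, Has s.1 (((1 - t) * (s.2.2.1 : ℕ) + t * (s.2.2.2 : ℕ)) / D)) :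
    Has T' (((1 - t) * (b0 : ℕ) + t * (b1 : ℕ)) / D) := by
  have hD : (0 : ℝ) < D := by exact_mod_cast h.c0.1
  have h1t : 0 ≤ 1 - t := by linarith
  have hnn : ∀ a b : ℕ, (0 : ℝ) ≤ ((1 - t) * (a : ℝ) + t * (b : ℝ)) / D := fun a b => by positivity
  set tys := List.range sl.length with htys
  have hps : ∀ l : List ℕ, (l.map fun t => ((psf' sl t : ℤ) - B)).sum =
      ((l.map (psf' sl)).sum : ℕ) - (l.length : ℤ) * B := by
    intro l
    induction l with
    | nil => simp
    | cons a l ih =>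
      simp only [List.map_cons, List.sum_cons, ih, List.length_cons]
      push_cast
      ring
  refine has_nest (sb := sb.map fun s => (⟨s.1, s.2.1,
      ((1 - t) * (s.2.2.1 : ℕ) + t * (s.2.2.2 : ℕ)) / D⟩ : Sb)) (core := core)
    (tys := tys) (rl := rlf sl) (tp := fun r => tpl.getD r 0)
    (ps := fun t => (psf' sl t : ℤ) - B) (u := uf sl) (KA := KA) (q := q)
    (P := P.map fun p => (p.1, ((1 - t) * (p.2.1 : ℕ) + t * (p.2.2 : ℕ)) / D)) (A := B)
    ?_ ?_ ?_ ?_ (by positivity) ?_ h.c0.2 ?_ ?_ ?_ ?_ ?_ ?_ (hnn _ _) ?_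
  · intro s hs
    obtain ⟨s', hs', rfl⟩ := List.mem_map.mp hs
    exact ⟨hsub s' hs', hnn _ _⟩
  · intro s hs
    obtain ⟨s', hs', rfl⟩ := List.mem_map.mp hs
    obtain ⟨h1, h2, h3, h4⟩ := h.c1 s' hs'
    refine ⟨fun t ht => List.mem_range.mpr (h1 t ht), by rw [h2], ?_, h4⟩
    rw [hps, h3]
    have : s'.1.length = T'.length := by rw [← h2, List.length_map]
    rw [this]
    push_cast
    ring
  · rw [List.pairwise_map]
    exact h.c2
  · intro t ht
    have hm := List.mem_range.mp ht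
    have h3 := h.c3 (sl.getD t (0, 0, 0)) (by
      have e : sl.getD t (0, 0, 0) = sl[t] := by simp [List.getD, List.getElem?_eq_getElem hm]
      rw [e]
      exact List.getElem_mem hm)
    have : (psf' sl t : ℤ) ≤ 2 * B := by exact_mod_cast h3
    constructor <;> [skip; skip] <;> omega
  · intro t ht
    exact List.mem_range.mpr (h.c4 t ht)
  · rw [h.c5]
  · intro r hr
    obtain ⟨h1, h2, h3⟩ := h.c6 r hr
    exact ⟨List.mem_range.mpr h1, h2, h3⟩
  · intro l hl hperm hsum
    obtain ⟨l', h1, h2⟩ := lift_perm' (rlf sl) T' l hperm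
    have e1 : (l.map fun t => ((psf' sl t : ℤ) - B)).sum = (l'.map fun t => ((psf' sl t : ℤ) - B)).sum :=
      (h1.map _).sum_eq
    rw [e1, hps] at hsum
    have e2 : l'.length = T'.length := by rw [← h2, List.length_map]
    rw [e2] at hsum
    have h8 := h.c8
    rw [h.c7] at h8
    have h9 := chkL_sound (rl := rlf sl) (psN := psf' sl) (u := uf sl) T' 0 0 [] l'
      (fun t ht => hl t (h1.symm.subset ht)) h2 h8 (by
        have : (((l'.map (psf' sl)).sum : ℕ) : ℤ) ≤ ((T'.length * B : ℕ) : ℤ) := by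
          push_cast at hsum ⊢
          linarith
        have h10 : (l'.map (psf' sl)).sum ≤ T'.length * B := by exact_mod_cast this
        omega)
    rw [zero_add, List.nil_append] at h9
    rw [List.map_map, (h1.map (uf sl)).sum_eq, vec_perm h1]
    exact h9
  · rw [List.map_map]
    exact h.c9
  · intro p hp
    obtain ⟨p', hp', rfl⟩ := List.mem_map.mp hp
    obtain ⟨h1, h2, h3⟩ := h.c10 p' hp'
    refine ⟨hnn _ _, by rw [h1], ?_, fun t ht => List.mem_range.mpr (h3 t ht)⟩
    rw [hps]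
    have e2 : p'.1.length = T'.length := by rw [← h1, List.length_map]
    rw [e2]
    have : (((p'.1.map (psf' sl)).sum : ℕ) : ℤ) < ((T'.length * B : ℕ) : ℤ) := by exact_mod_cast h2
    push_cast at this ⊢
    linarith
  · intro x hx
    have h11 := h.c11 x hx
    have h12 := h.c12 x hx
    have e1 : ths (sb.map fun s => (⟨s.1, s.2.1,
        ((1 - t) * (s.2.2.1 : ℕ) + t * (s.2.2.2 : ℕ)) / D⟩ : Sb)) x =
        ((1 - t) * ((sb.map fun s => s.2.2.1 * cnt s.1 x).sum : ℕ) +
          t * ((sb.map fun s => s.2.2.2 * cnt s.1 x).sum : ℕ)) / D := by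
      unfold ths
      rw [List.map_map, ← sum_lin]
      congr 1
      apply List.map_congr_left
      intro s _
      simp only [Function.comp_apply]
      push_cast
      ring
    have e2 : cov (P.map fun p => (p.1, ((1 - t) * (p.2.1 : ℕ) + t * (p.2.2 : ℕ)) / (D : ℝ))) x =
        ((1 - t) * ((P.map fun p => p.2.1 * cnt p.1 x).sum : ℕ) +
          t * ((P.map fun p => p.2.2 * cnt p.1 x).sum : ℕ)) / D := by
      unfold cov
      rw [List.map_map, ← sum_lin]
      congr 1
      apply List.map_congr_left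
      intro s _
      simp only [Function.comp_apply]
      push_cast
      ring
    rw [e1, e2, ← add_div, le_div_iff₀ hD]
    clear e1 e2
    generalize (sb.map fun s => s.2.2.1 * cnt s.1 x).sum = A0 at *
    generalize (sb.map fun s => s.2.2.2 * cnt s.1 x).sum = A1 at *
    generalize (P.map fun p => p.2.1 * cnt p.1 x).sum = B0 at *
    generalize (P.map fun p => p.2.2 * cnt p.1 x).sum = B1 at *
    have g1 : (D : ℝ) * (cnt core x : ℕ) + ((if tpl.getD (rlf sl x) 0 = x then
        b0 * cnt T' (rlf sl x) else 0 : ℕ) : ℝ) ≤ (A0 : ℕ) + (B0 : ℕ) := by exact_mod_cast h11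
    have g2 : (D : ℝ) * (cnt core x : ℕ) + ((if tpl.getD (rlf sl x) 0 = x then
        b1 * cnt T' (rlf sl x) else 0 : ℕ) : ℝ) ≤ (A1 : ℕ) + (B1 : ℕ) := by exact_mod_cast h12
    have g3 := mul_le_mul_of_nonneg_left g1 h1t
    have g4 := mul_le_mul_of_nonneg_left g2 ht0
    by_cases hc : tpl.getD (rlf sl x) 0 = x
    · simp only [hc, if_true] at g3 g4 ⊢
      push_cast at g3 g4
      have : ((1 - t) * (b0 : ℕ) + t * (b1 : ℕ)) / (D : ℝ) * ((cnt T' (rlf sl x) : ℕ) : ℝ) * D =
          ((1 - t) * (b0 : ℕ) + t * (b1 : ℕ)) * ((cnt T' (rlf sl x) : ℕ) : ℝ) := by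
        field_simp
      rw [add_mul, this]
      nlinarith
    · simp only [hc, if_false] at g3 g4 ⊢
      push_cast at g3 g4
      nlinarith
  · rw [List.map_map]
    have e1 : (sb.map (Sb.θ ∘ fun s => (⟨s.1, s.2.1,
        ((1 - t) * (s.2.2.1 : ℕ) + t * (s.2.2.2 : ℕ)) / D⟩ : Sb))).sum =
        ((1 - t) * ((sb.map fun s => s.2.2.1).sum : ℕ) + t * ((sb.map fun s => s.2.2.2).sum : ℕ)) / D := by
      rw [← sum_lin]; rfl
    have e2 : tot (P.map fun p => (p.1, ((1 - t) * (p.2.1 : ℕ) + t * (p.2.2 : ℕ)) / (D : ℝ))) =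
        ((1 - t) * ((P.map fun p => p.2.1).sum : ℕ) + t * ((P.map fun p => p.2.2).sum : ℕ)) / D := by
      unfold tot
      rw [List.map_map, ← sum_lin]; rfl
    rw [e1, e2, ← add_div]
    clear e1 e2
    have h13 := h.c13
    have h14 := h.c14
    generalize (sb.map fun s => s.2.2.1).sum = A0 at *
    generalize (sb.map fun s => s.2.2.2).sum = A1 at *
    generalize (P.map fun p => p.2.1).sum = B0 at *
    generalize (P.map fun p => p.2.2).sum = B1 at *
    have g1 : (A0 : ℕ) + (B0 : ℕ) ≤ (D : ℝ) * KA + b0 := by exact_mod_cast h13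
    have g2 : (A1 : ℕ) + (B1 : ℕ) ≤ (D : ℝ) * KA + b1 := by exact_mod_cast h14
    rw [div_le_iff₀ hD, add_mul, div_mul_cancel₀ _ hD.ne']
    have g3 := mul_le_mul_of_nonneg_left g1 h1t
    have g4 := mul_le_mul_of_nonneg_left g2 ht0
    nlinarith

end Vale.Agent.P302
end

section
/-!
Iteration of nesting steps and the main level.
-/

namespace Vale.Agent.P302

theorem Has.xss {θ : ℝ} (h : Has [0, 1, 1] θ) {x s : ℕ} (hne : x ≠ s) : Has [x, s, s] θ := by
  have := h.rename (fun t => if t = 0 then x else s) (by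
    intro a ha b hb hab
    simp only [List.mem_cons, List.not_mem_nil, or_false] at ha hb
    rcases ha with rfl | rfl | rfl <;> rcases hb with rfl | rfl | rfl <;> simp_all)
  simpa using this

theorem Has.sss {θ : ℝ} (h : Has [0, 0, 0] θ) (c : ℕ) : Has [c, c, c] θ := by
  have := h.rename (fun _ => c) (by
    intro a ha b hb hab
    simp only [List.mem_cons, List.not_mem_nil, or_false] at ha hb
    rcases ha with rfl | rfl | rfl <;> rcases hb with rfl | rfl | rfl <;> rfl)
  simpa using this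

theorem has_x0 (n : ℕ) : Has [0, 1, 1] (th n) :=
  ⟨fun t => if t = 0 then (gad n).x0 else (gad n).s0, pkX 0 1 0 n, rfl, rfl,
    pkX_ok (by decide) (by simp) (by simp)⟩

theorem has_s0 (n k : ℕ) : Has [0, 0, 0] (tc n k) :=
  ⟨fun _ => (gadc n k).v0, pk1 0 0 n k, rfl, rfl, pk1_ok rfl⟩

/-- iterate a step; `b1 = a1` is the fixed point. -/
theorem iter_step {sl : List (ℕ × ℕ × ℕ)} {LL : List (List (ℕ × ℕ × ℕ))} {B KA q D b0 a0 a1 : ℕ}
    {T' tpl core : List ℕ} {sb : List (List ℕ × ℕ × ℕ × ℕ)} {P : List (List ℕ × ℕ × ℕ)}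
    (h : NChk sl LL B KA q D b0 a1 T' tpl core sb P) {r : ℝ} (hr0 : 0 ≤ r) (hr1 : r ≤ 1)
    (hr : (a1 : ℝ) - b0 = r * (a1 - a0))
    (hsub : ∀ t : ℝ, 0 ≤ t → t ≤ 1 → Has T' (((1 - t) * (a0 : ℕ) + t * (a1 : ℕ)) / D) →
      ∀ s ∈ sb, Has s.1 (((1 - t) * (s.2.2.1 : ℕ) + t * (s.2.2.2 : ℕ)) / D))
    (h0 : Has T' ((a0 : ℝ) / D)) : ∀ n : ℕ, Has T' (((a1 : ℝ) - (a1 - a0) * r ^ n) / D) := by
  intro n
  induction n with
  | zero =>
    have : ((a1 : ℝ) - (a1 - a0) * r ^ 0) / D = a0 / D := by ring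
    rw [this]; exact h0
  | succ n ih =>
    have hp0 : 0 ≤ r ^ n := pow_nonneg hr0 n
    have hp1 : r ^ n ≤ 1 := pow_le_one₀ hr0 hr1
    have e1 : ((1 - (1 - r ^ n)) * ((a0 : ℕ) : ℝ) + (1 - r ^ n) * ((a1 : ℕ) : ℝ)) / (D : ℝ) =
        ((a1 : ℝ) - (a1 - a0) * r ^ n) / D := by ring
    have h1 := hsub (1 - r ^ n) (by linarith) (by linarith) (by rw [e1]; exact ih)
    have h2 := has_step h (t := 1 - r ^ n) (by linarith) (by linarith) h1
    have e2 : ((1 - (1 - r ^ n)) * ((b0 : ℕ) : ℝ) + (1 - r ^ n) * ((a1 : ℕ) : ℝ)) / (D : ℝ) =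
        ((a1 : ℝ) - (a1 - a0) * r ^ (n + 1)) / D := by
      rw [pow_succ]
      have : (b0 : ℝ) = a1 - r * (a1 - a0) := by linarith
      rw [this]; ring
    rw [e2] at h2
    exact h2

theorem ths_eq (sb : List Sb) (gs : List Pk)
    (h : gs.map (fun g => (⟨g.T, g.eps, g.θ⟩ : Sb)) = sb) (t : ℕ) : thsum gs t = ths sb t := by
  unfold thsum ths
  rw [← h, List.map_map]; rfl

/-- the main level -/
theorem main_has {sb : List Sb} {core tys : List ℕ} {L KA q : ℕ} {w : ℕ → ℕ}
    {P : List (List ℕ × ℝ)} {γ : ℝ}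
    (hsub : ∀ s ∈ sb, Has s.T s.θ ∧ 0 ≤ s.θ)
    (h0 : ∀ t ∈ tys, 0 < t ∧ t < L) (hnd : tys.Nodup)
    (hT : ∀ s ∈ sb, (∀ t ∈ s.T, t ∈ tys) ∧ s.T.sum = L ∧ (s.T.map w).sum = q + s.e)
    (hc : ∀ t ∈ core, t ∈ tys) (hL : 0 < L)
    (hdis : sb.Pairwise fun s t => ∀ a ∈ s.T, a ∉ t.T)
    (hknap : ∀ cn : ℕ → ℕ, (tys.map fun t => cn t * t).sum ≤ L →
      (tys.map fun t => cn t * w t).sum ≤
        q + bonus (sb.map fun s => (vec tys s.T, s.e)) (tys.map cn).reverse)
    (hK : KA * q < (core.map w).sum + (sb.map Sb.e).sum)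
    (hP : ∀ p ∈ P, 0 ≤ p.2 ∧ p.1.sum < L ∧ ∀ t ∈ p.1, 0 < t)
    (hcov : ∀ t ∈ core, (cnt core t : ℝ) ≤ ths sb t + cov P t)
    (htot : (sb.map Sb.θ).sum + tot P + γ ≤ KA + 1) :
    ∃ n₀ : ℕ, ∀ n : ℕ, n₀ ≤ n → ∃ I : List ℚ, IsInstance I ∧ OPT I = n ∧
      γ ≤ (OPT I : ℝ) - LP I := by
  obtain ⟨lab, gs, R, hgs, hg1, hlab, hR⟩ := build sb (fun s hs => (hsub s hs).1) hdis
  have hok : ∀ g ∈ gs, g.Ok lab := fun g hg => (hg1 g hg).1
  have hmemsb : ∀ g ∈ gs, (⟨g.T, g.eps, g.θ⟩ : Sb) ∈ sb := by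
    intro g hg
    rw [← hgs]
    exact List.mem_map_of_mem (f := fun g : Pk => (⟨g.T, g.eps, g.θ⟩ : Sb)) hg
  have hdis' : gs.Pairwise fun g h => ∀ t ∈ g.T, t ∉ h.T := by
    rw [← hgs, List.pairwise_map] at hdis
    exact hdis
  have hbon : (gs.map fun g => (vec tys g.T, g.eps)) = sb.map fun s => (vec tys s.T, s.e) := by
    rw [← hgs, List.map_map]; rfl
  have heps : (gs.map Pk.eps).sum = (sb.map Sb.e).sum := by
    rw [← hgs, List.map_map]; rfl
  have hthr : (gs.map Pk.θ).sum = (sb.map Sb.θ).sum := by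
    rw [← hgs, List.map_map]; rfl
  refine gap_nested (lab := lab) (gs := gs) (core := core) (tys := tys) (R := R) (w := w) (P := P)
    hok h0 hnd (fun g hg => ⟨(hg1 g hg).2, (hT _ (hmemsb g hg)).1⟩) hc hlab hL hR
    (fun g hg => (hT _ (hmemsb g hg)).2.1) (fun g hg => (hT _ (hmemsb g hg)).2.2) hdis'
    (by rw [hbon]; exact hknap) (by rw [heps]; exact hK) hP ?_
    (fun g hg => (hsub _ (hmemsb g hg)).2) (by rw [hthr]; exact htot)
  intro t ht
  rw [ths_eq sb gs hgs]
  exact hcov t ht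

/-- all decidable conditions of the main level -/
structure MChk (L KA q : ℕ) (tw : List (ℕ × ℕ)) (DN D : ℕ) (core : List ℕ)
    (sb : List (List ℕ × ℕ × ℕ)) (P : List (List ℕ × ℕ)) : Prop where
  c0 : 0 < D ∧ 0 < L
  c1 : ∀ s ∈ sb, (∀ t ∈ s.1, t ∈ tw.map Prod.fst) ∧ s.1.sum = L ∧
    (s.1.map (wtf tw)).sum = q + s.2.1
  c2 : sb.Pairwise fun s t => ∀ a ∈ s.1, a ∉ t.1
  c3 : ∀ p ∈ tw, 0 < p.1 ∧ p.1 < L
  c4 : (tw.map Prod.fst).Nodup
  c5 : ∀ t ∈ core, t ∈ tw.map Prod.fst
  c6 : dcheck DN q tw = true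
  c7 : knap2 DN q (sb.map fun s => (vec (tw.map Prod.fst) s.1, s.2.1)) tw L 0 [] = true
  c8 : KA * q < (core.map (wtf tw)).sum + (sb.map fun s => s.2.1).sum
  c9 : ∀ p ∈ P, p.1.sum < L ∧ ∀ t ∈ p.1, 0 < t
  c10 : ∀ t ∈ core, D * cnt core t ≤ (sb.map fun s => s.2.2 * cnt s.1 t).sum +
    (P.map fun p => p.2 * cnt p.1 t).sum

theorem main_check {L KA q : ℕ} {tw : List (ℕ × ℕ)} {DN D : ℕ} {core : List ℕ}
    {sb : List (List ℕ × ℕ × ℕ)} {P : List (List ℕ × ℕ)} (h : MChk L KA q tw DN D core sb P)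
    (hsub : ∀ s ∈ sb, Has s.1 ((s.2.2 : ℝ) / D)) {γ : ℝ}
    (hfin : (((sb.map fun s => s.2.2).sum + (P.map Prod.snd).sum : ℕ) : ℝ) / D + γ ≤ KA + 1) :
    ∃ n₀ : ℕ, ∀ n : ℕ, n₀ ≤ n → ∃ I : List ℚ, IsInstance I ∧ OPT I = n ∧
      γ ≤ (OPT I : ℝ) - LP I := by
  have hD : (0 : ℝ) < D := by exact_mod_cast h.c0.1
  have hwt := wtf_mem h.c4
  refine main_has (sb := sb.map fun s => (⟨s.1, s.2.1, (s.2.2 : ℝ) / D⟩ : Sb)) (core := core)
    (tys := tw.map Prod.fst) (w := wtf tw) (L := L) (KA := KA) (q := q) (P := frac D P) (γ := γ)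
    ?_ ?_ h.c4 ?_ h.c5 h.c0.2 ?_ ?_ ?_ ?_ ?_ ?_
  · intro s hs
    obtain ⟨s', hs', rfl⟩ := List.mem_map.mp hs
    exact ⟨hsub s' hs', by positivity⟩
  · intro t ht
    obtain ⟨p, hp, rfl⟩ := List.mem_map.mp ht
    exact h.c3 p hp
  · intro s hs
    obtain ⟨s', hs', rfl⟩ := List.mem_map.mp hs
    exact h.c1 s' hs'
  · rw [List.pairwise_map]
    exact h.c2
  · intro cn hcn
    have e1 : (tw.map Prod.fst).map (fun t => cn t * t) = tw.map fun p => cn p.1 * p.1 := by
      rw [List.map_map]; rfl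
    have e2 : ((tw.map Prod.fst).map fun t => cn t * wtf tw t).sum =
        (tw.map fun p => cn p.1 * p.2).sum := by
      rw [List.map_map]
      congr 1
      apply List.map_congr_left
      intro p hp
      simp only [Function.comp_apply, hwt p hp]
    have e3 : (tw.map Prod.fst).map cn = tw.map fun p => cn p.1 := by
      rw [List.map_map]; rfl
    have e4 : (sb.map fun s => (⟨s.1, s.2.1, (s.2.2 : ℝ) / D⟩ : Sb)).map
        (fun s => (vec (tw.map Prod.fst) s.T, s.e)) =
        sb.map fun s => (vec (tw.map Prod.fst) s.1, s.2.1) := by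
      rw [List.map_map]; rfl
    rw [e1] at hcn
    rw [e2, e3, e4]
    have := knap2_sound h.c6 (sb.map fun s => (vec (tw.map Prod.fst) s.1, s.2.1)) cn tw L 0 []
      (fun p hp => ⟨hp, (h.c3 p hp).1⟩) hcn h.c7
    rw [zero_add, List.append_nil] at this
    exact this
  · rw [List.map_map]
    exact h.c8
  · intro p hp
    obtain ⟨p', hp', rfl⟩ := List.mem_map.mp hp
    obtain ⟨h1, h2⟩ := h.c9 p' hp'
    exact ⟨by positivity, h1, h2⟩
  · intro t ht
    rw [cov_frac]
    have e1 : ths (sb.map fun s => (⟨s.1, s.2.1, (s.2.2 : ℝ) / D⟩ : Sb)) t =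
        ((sb.map fun s => s.2.2 * cnt s.1 t).sum : ℕ) / (D : ℝ) := by
      unfold ths
      rw [List.map_map]
      clear * -
      induction sb with
      | nil => simp
      | cons s sb ih =>
        simp only [List.map_cons, List.sum_cons, Function.comp_apply] at ih ⊢
        rw [ih]
        push_cast
        ring
    rw [e1, ← add_div, le_div_iff₀ hD]
    have := h.c10 t ht
    have h2 : (D : ℝ) * (cnt core t : ℕ) ≤ ((sb.map fun s => s.2.2 * cnt s.1 t).sum : ℕ) +
      ((P.map fun p => p.2 * cnt p.1 t).sum : ℕ) := by exact_mod_cast this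
    linarith
  · rw [tot_frac, List.map_map]
    have e1 : (sb.map (Sb.θ ∘ fun s => (⟨s.1, s.2.1, (s.2.2 : ℝ) / D⟩ : Sb))).sum =
        ((sb.map fun s => s.2.2).sum : ℕ) / (D : ℝ) := by
      clear * -
      induction sb with
      | nil => simp
      | cons s sb ih =>
        simp only [List.map_cons, List.sum_cons, Function.comp_apply] at ih ⊢
        rw [ih]
        push_cast
        ring
    rw [e1]
    rw [Nat.cast_add, add_div] at hfin
    exact hfin

end Vale.Agent.P302
end
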